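import Mathlib
import Crest.Agent.R314.Asm1

-- ▼ part R314/Asm2
section

/-!
R314, block ASM-T, part 2: the token system (`FData`) of a `TreeSys` along a request list, and the
fact that the family is adapted.
-/

set_option autoImplicit false
set_option linter.unusedSectionVars false

namespace Crest.Agent.R314.Asm

open Finset Function Crest.LogicCS.KServer Tk

variable {X : Type*} [MetricSpace X] {V : Type*} [DecidableEq V] {Good : List X → Prop}

namespace TreeSys

variable (S : TreeSys X V Good)

open Classical in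
/-- Live nodes, empty outside `Good`. -/
noncomputable def gl (h : List X) : Finset V := if Good h then S.live h else ∅

open Classical in
/-- Node set of the token `t`. -/
noncomputable def Et (σ : List X) (t : ℕ) : Finset V :=
  match σ[t]? with
  | none => ∅
  | some x => if Good (σ.take (t + 1)) then S.pt (σ.take (t + 1)) x else ∅

open Classical in
/-- Death time. -/
noncomputable def Dt (σ : List X) (v : V) : ℕ :=
  S.birth v + ((range σ.length).filter
    (fun t => S.birth v ≤ t ∧ v ∈ S.gl (σ.take (t + 1)))).card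

theorem take_succ_eq {σ : List X} {t : ℕ} {x : X} (h : σ[t]? = some x) :
    σ.take (t + 1) = σ.take t ++ [x] := by
  rw [List.take_add_one, h]; rfl

theorem length_of_getElem? {σ : List X} {t : ℕ} {x : X} (h : σ[t]? = some x) : t < σ.length :=
  (List.getElem?_eq_some_iff.1 h).1

theorem Et_eq {σ : List X} {t : ℕ} {x : X} (h : σ[t]? = some x) (hg : Good (σ.take (t + 1))) :
    S.Et σ t = S.pt (σ.take (t + 1)) x := by
  unfold Et; rw [h]; simp [hg]

theorem mem_Et {σ : List X} {t : ℕ} {v : V} (hv : v ∈ S.Et σ t) :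
    ∃ x, σ[t]? = some x ∧ Good (σ.take (t + 1)) ∧ v ∈ S.pt (σ.take (t + 1)) x := by
  unfold Et at hv
  rcases hx : σ[t]? with _ | x
  · rw [hx] at hv; simp at hv
  · rw [hx] at hv
    simp only at hv
    split_ifs at hv with hg
    · exact ⟨x, rfl, hg, hv⟩
    · simp at hv

theorem mem_gl {h : List X} {v : V} : v ∈ S.gl h ↔ Good h ∧ v ∈ S.live h := by
  unfold gl; split_ifs with hg <;> simp [hg]


variable (hG : ∀ h x, Good (h ++ [x]) → Good h)

include hG in
theorem gl_back {σ : List X} {t : ℕ} {v : V} (ht : t + 1 < σ.length) (hb : S.birth v ≤ t)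
    (hv : v ∈ S.gl (σ.take (t + 2))) : v ∈ S.gl (σ.take (t + 1)) := by
  have hx : σ[t + 1]? = some σ[t + 1] := List.getElem?_eq_getElem ht
  rw [take_succ_eq hx, mem_gl] at hv
  rw [mem_gl]
  refine ⟨hG _ _ hv.1, S.live_back _ _ hv.1 v hv.2 ?_⟩
  rw [List.length_take]
  omega

include hG in
theorem gl_back_le {σ : List X} {s t : ℕ} {v : V} (hst : s ≤ t) (ht : t < σ.length)
    (hb : S.birth v ≤ s) (hv : v ∈ S.gl (σ.take (t + 1))) : v ∈ S.gl (σ.take (s + 1)) := by
  induction t, hst using Nat.le_induction with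
  | base => exact hv
  | succ t hst ih =>
    exact ih (by omega) (S.gl_back hG ht (by omega) hv)

include hG in
theorem lt_Dt_iff {σ : List X} {t : ℕ} {v : V} (hb : S.birth v ≤ t) (ht : t < σ.length) :
    t < S.Dt σ v ↔ v ∈ S.gl (σ.take (t + 1)) := by
  classical
  constructor
  · intro h
    by_contra hv
    have hsub : (range σ.length).filter
        (fun t => S.birth v ≤ t ∧ v ∈ S.gl (σ.take (t + 1))) ⊆ Ico (S.birth v) t := by
      intro r hr
      rw [mem_filter, mem_range] at hr
      rw [mem_Ico]
      refine ⟨hr.2.1, ?_⟩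
      by_contra hrt
      push Not at hrt
      exact hv (S.gl_back_le hG hrt hr.1 hb hr.2.2)
    have hc := card_le_card hsub
    rw [Nat.card_Ico] at hc
    unfold Dt at h
    have : ((range σ.length).filter
        (fun t => S.birth v ≤ t ∧ v ∈ S.gl (σ.take (t + 1)))).card =
        ((range σ.length).filter
        (fun t => S.birth v ≤ t ∧ v ∈ S.gl (σ.take (t + 1)))).card := rfl
    have h2 : t < S.birth v + (t - S.birth v) := lt_of_lt_of_le h (by
      apply Nat.add_le_add_left
      convert hc)
    omega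
  · intro hv
    have hsub : Ico (S.birth v) (t + 1) ⊆ (range σ.length).filter
        (fun t => S.birth v ≤ t ∧ v ∈ S.gl (σ.take (t + 1))) := by
      intro r hr
      rw [mem_Ico] at hr
      rw [mem_filter, mem_range]
      exact ⟨by omega, hr.1, S.gl_back_le hG (by omega) ht hr.1 hv⟩
    have hc := card_le_card hsub
    rw [Nat.card_Ico] at hc
    unfold Dt
    have h2 : S.birth v + (t + 1 - S.birth v) ≤ S.birth v + ((range σ.length).filter
        (fun t => S.birth v ≤ t ∧ v ∈ S.gl (σ.take (t + 1)))).card := by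
      apply Nat.add_le_add_left
      convert hc
    exact lt_of_lt_of_le (by omega) h2

theorem birth_of_Et {σ : List X} {t : ℕ} {v : V} (hv : v ∈ S.Et σ t) : S.birth v ≤ t := by
  obtain ⟨x, hx, hg, hm⟩ := S.mem_Et hv
  have h1 := S.birth_lt _ hg v (S.pt_live _ hg x hm)
  have h2 := length_of_getElem? hx
  rw [List.length_take] at h1
  omega

include hG in
theorem alive_of_Et {σ : List X} {t : ℕ} {v : V} (hv : v ∈ S.Et σ t) : t < S.Dt σ v := by
  have hb := S.birth_of_Et hv
  obtain ⟨x, hx, hg, hm⟩ := S.mem_Et hv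
  rw [S.lt_Dt_iff hG hb (length_of_getElem? hx), mem_gl]
  exact ⟨hg, S.pt_live _ hg x hm⟩

/-- The token system along `σ`. -/
noncomputable def toF (k : ℕ) (σ : List X) : FData k V where
  E := fun a => match a with
    | Sum.inl _ => ∅
    | Sum.inr t => S.Et σ t
  E_inl := fun _ => rfl
  w := S.w
  w_pos := S.w_pos
  η := S.η
  η_ge := S.η_ge
  B := S.birth
  D := S.Dt σ
  B_le_D := fun v => Nat.le_add_right _ _
  life := fun _ _ hv => ⟨S.birth_of_Et hv, S.alive_of_Et hG hv⟩
  In := fun v t => S.In (σ.take (t + 1)) v ∨ v ∈ S.Et σ t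
  In_of_mem := fun _ _ hv => Or.inr hv
  κ := fun _ _ => 0
  κ_nonneg := fun _ _ => le_rfl


theorem Et_take {σ : List X} {t : ℕ} (ht : t < σ.length) :
    S.Et (σ.take (t + 1)) t = S.Et σ t := by
  unfold Et
  rw [List.getElem?_take_of_lt (Nat.lt_succ_self t), List.take_take, min_self]


/-- The family is adapted. -/
theorem adapted (k : ℕ) : Adapted (fun σ => S.toF hG k σ) S.w S.η where
  w_eq := fun _ => rfl
  η_eq := fun _ => rfl
  E_eq := fun σ t ht => S.Et_take ht
  D_iff := by
    intro σ t ht a ha v hv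
    rcases a with i | s
    · exact absurd hv (notMem_empty _)
    · have hst : s < t := ha s rfl
      have hv' : v ∈ S.Et σ s := hv
      have hb := S.birth_of_Et hv'
      change t < S.Dt (σ.take (t + 1)) v ↔ t < S.Dt σ v
      rw [S.lt_Dt_iff hG (by omega) ht, S.lt_Dt_iff hG (by omega) (by
        rw [List.length_take]; omega), List.take_take, min_self]
  κ_eq := fun _ _ _ _ _ => rfl

/-! ### (H1), (H2), (H3) -/

variable {σ : List X} (hσ : ∀ t, Good (σ.take t))

include hσ in
theorem toF_H1 (k : ℕ) : ∀ t < σ.length, ∑ v ∈ (S.toF hG k σ).E (Sum.inr t),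
    (S.toF hG k σ).η v ≤ S.Lam := by
  intro t ht
  have hx : σ[t]? = some σ[t] := List.getElem?_eq_getElem ht
  change ∑ v ∈ S.Et σ t, S.η v ≤ S.Lam
  rw [S.Et_eq hx (hσ _)]
  have h := S.H1 (σ.take t) σ[t] (by rw [← take_succ_eq hx]; exact hσ _)
  rwa [← take_succ_eq hx] at h

open Classical in
include hσ in
theorem toF_H2 [Fintype V] (k : ℕ) : ∀ t < σ.length,
    ∑ v ∈ univ.filter (fun v => (S.toF hG k σ).B v ≤ t ∧ t < (S.toF hG k σ).D v ∧
      (S.toF hG k σ).In v t), Real.exp (-(S.toF hG k σ).η v / 2) ≤ S.β := by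
  intro t ht
  have hx : σ[t]? = some σ[t] := List.getElem?_eq_getElem ht
  have hg : Good (σ.take t ++ [σ[t]]) := by rw [← take_succ_eq hx]; exact hσ _
  refine le_trans (sum_le_sum_of_subset_of_nonneg ?_ fun v _ _ => (Real.exp_pos _).le)
    (S.H2 (σ.take t) σ[t] hg)
  intro v hv
  rw [mem_filter] at hv
  obtain ⟨-, h1, h2, h3⟩ := hv
  change S.birth v ≤ t at h1
  change t < S.Dt σ v at h2
  rw [S.lt_Dt_iff hG h1 ht, mem_gl] at h2
  rw [mem_filter, ← take_succ_eq hx]
  refine ⟨h2.2, ?_⟩
  rcases h3 with h3 | h3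
  · exact h3
  · change v ∈ S.Et σ t at h3
    rw [S.Et_eq hx (hσ _), take_succ_eq hx] at h3
    rw [take_succ_eq hx]
    exact S.In_of_mem _ _ hg v h3

open Classical in
include hσ in
theorem toF_H3 (k : ℕ) : ∀ t < σ.length, ∀ s < t,
    ∑ v ∈ ((S.toF hG k σ).E (Sum.inr s)).filter
      (fun v => t < (S.toF hG k σ).D v ∧ ¬ (S.toF hG k σ).In v t), (S.toF hG k σ).w v ≤
      1 / 8 * ∑ v ∈ (S.toF hG k σ).E (Sum.inr s) \ (S.toF hG k σ).E (Sum.inr t),
        (S.toF hG k σ).w v := by
  intro t ht s hst
  have hx : σ[t]? = some σ[t] := List.getElem?_eq_getElem ht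
  have hy : σ[s]? = some σ[s] := List.getElem?_eq_getElem (hst.trans ht)
  have hg : Good (σ.take t ++ [σ[t]]) := by rw [← take_succ_eq hx]; exact hσ _
  have hpre : σ.take s ++ [σ[s]] <+: σ.take t := by
    rw [← take_succ_eq hy]
    exact List.take_prefix_take_left (by omega)
  have h := S.H3 _ _ _ _ hpre hg
  rw [← take_succ_eq hx, ← take_succ_eq hy] at h
  have es : (S.toF hG k σ).E (Sum.inr s) = S.pt (σ.take (s + 1)) σ[s] := S.Et_eq hy (hσ _)
  have et : (S.toF hG k σ).E (Sum.inr t) = S.pt (σ.take (t + 1)) σ[t] := S.Et_eq hx (hσ _)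
  rw [es, et]
  refine le_trans (sum_le_sum_of_subset_of_nonneg ?_ fun v _ _ => (S.w_pos v).le) h
  intro v hv
  rw [mem_filter] at hv
  obtain ⟨h1, h2, h3⟩ := hv
  change ¬ (S.In (σ.take (t + 1)) v ∨ v ∈ S.Et σ t) at h3
  change t < S.Dt σ v at h2
  rw [not_or] at h3
  have hb : S.birth v ≤ s := by
    have h4 := S.birth_lt _ (hσ _) v (S.pt_live _ (hσ _) _ h1)
    rw [List.length_take] at h4
    omega
  rw [S.lt_Dt_iff hG (by omega) ht, mem_gl] at h2
  rw [mem_filter, mem_inter]
  exact ⟨⟨h1, h2.2⟩, h3.1⟩

end TreeSys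

end Crest.Agent.R314.Asm
end

-- ▼ part R314/Asm3

/-!
R314, block ASM-T, part 3: the comparator side, `Σ cstep ≤ bill`.
-/

set_option autoImplicit false
set_option linter.unusedSectionVars false

namespace Crest.Agent.R314.Asm

open Finset Function Crest.LogicCS.KServer Tk

variable {X : Type*} [MetricSpace X] {V : Type*} [DecidableEq V] {Good : List X → Prop}

section conf
variable {k : ℕ}

theorem endConf_take_succ (s : Fin k → X) (q : List (X × Fin k)) {t : ℕ} (ht : t < q.length) :
    endConf s (q.take (t + 1)) = update (endConf s (q.take t)) q[t].2 q[t].1 := by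
  rw [List.take_add_one, List.getElem?_eq_getElem ht, Option.toList_some, endConf_append]
  rfl

theorem srvs_getElem [NeZero k] (q : List (X × Fin k)) {t : ℕ} (ht : t < q.length) :
    srvs q t = q[t].2 := by
  unfold srvs
  rw [List.getD_eq_getElem?_getD, List.getElem?_map, List.getElem?_eq_getElem ht]
  rfl

end conf

namespace TreeSys

variable (S : TreeSys X V Good) (hG : ∀ h x, Good (h ++ [x]) → Good h)
variable {k : ℕ} [NeZero k]

/-- The price of a comparator step is a `price`. -/
theorem cstep_eq {σ : List X} (hσ : ∀ t, Good (σ.take t)) {t : ℕ} (ht : t < σ.length) {a : Tok k}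
    (ha : Old t a) :
    (S.toF hG k σ).cstep a t = price S.w S.η ((S.toF hG k σ).E a) (S.Et σ t)
      (S.live (σ.take (t + 1))) := by
  unfold FData.cstep price
  change 0 + _ + _ = _
  rw [zero_add]
  congr 1
  apply sum_congr _ fun _ _ => rfl
  ext v
  rw [mem_filter, mem_inter]
  apply and_congr_right
  intro hv
  rw [mem_sdiff] at hv
  rcases a with i | s
  · exact absurd hv.1 (notMem_empty _)
  · have hst : s < t := ha s rfl
    have hb := S.birth_of_Et (σ := σ) (t := s) hv.1
    change t < S.Dt σ v ↔ _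
    rw [S.lt_Dt_iff hG (by omega) ht, mem_gl]
    exact ⟨fun h => h.2, fun h => ⟨hσ _, h⟩⟩

/-- The label set of comparator server `l` at time `t`. -/
noncomputable def P (s : Fin k → X) (q : List (X × Fin k)) (t : ℕ) (l : Fin k) : Finset V :=
  S.pt ((q.map Prod.fst).take t) (endConf s (q.take t) l)

theorem comparator_aux (s : Fin k → X) (q : List (X × Fin k))
    (hσ : ∀ t, Good ((q.map Prod.fst).take t)) (t : ℕ) (ht : t ≤ q.length) :
    ∑ r ∈ range t, (S.toF hG k (q.map Prod.fst)).cstep (cpos (srvs q) r (srvs q r)) r +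
      ∑ l : Fin k, price S.w S.η ((S.toF hG k (q.map Prod.fst)).E (cpos (srvs q) t l))
        (S.P s q t l) (S.live ((q.map Prod.fst).take t)) ≤
    ∑ r ∈ range t, ∑ l : Fin k, price S.w S.η (S.P s q r l) (S.P s q (r + 1) l)
      (S.live ((q.map Prod.fst).take (r + 1))) := by
  set σ := q.map Prod.fst with hσdef
  have hw : ∀ v, 0 ≤ S.w v := fun v => (S.w_pos v).le
  have hη : ∀ v, 0 ≤ S.η v := fun v => by linarith [S.η_ge v]
  induction t with
  | zero =>
    simp only [range_zero, sum_empty, zero_add]
    apply le_of_eq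
    apply sum_eq_zero
    intro l _
    have h1 : S.P s q 0 l = ∅ := by
      unfold P; rw [List.take_zero]; exact S.pt_nil _
    have h2 : (S.toF hG k σ).E (cpos (srvs q) 0 l) = ∅ := (S.toF hG k σ).E_inl l
    rw [h1, h2, price_self]
  | succ t ih =>
    have htq : t < q.length := by omega
    have htσ : t < σ.length := by rw [hσdef, List.length_map]; exact htq
    have ih' := ih (by omega)
    have hj : srvs q t = q[t].2 := srvs_getElem q htq
    have hx : σ[t]? = some q[t].1 := by
      rw [hσdef, List.getElem?_map, List.getElem?_eq_getElem htq]; rfl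
    -- triangle for every server
    have htri : ∀ l : Fin k, price S.w S.η ((S.toF hG k σ).E (cpos (srvs q) t l))
        (S.P s q (t + 1) l) (S.live (σ.take (t + 1))) ≤
        price S.w S.η ((S.toF hG k σ).E (cpos (srvs q) t l)) (S.P s q t l) (S.live (σ.take t)) +
        price S.w S.η (S.P s q t l) (S.P s q (t + 1) l) (S.live (σ.take (t + 1))) := by
      intro l
      apply price_triangle hw hη
      intro v hv
      rw [mem_inter, mem_sdiff] at hv
      obtain ⟨⟨h1, -⟩, h2⟩ := hv
      have ho := cpos_old (srvs q) t l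
      rcases hc : cpos (srvs q) t l with i | r
      · rw [hc] at h1
        exact absurd h1 (notMem_empty _)
      · rw [hc] at h1 ho
        have hr : r < t := ho r rfl
        have hb := S.birth_of_Et (σ := σ) (t := r) h1
        have hg : Good (σ.take t ++ [q[t].1]) := by rw [← take_succ_eq hx]; exact hσ _
        rw [take_succ_eq hx] at h2
        apply S.live_back _ _ hg v h2
        rw [List.length_take]
        omega
    -- the moved server
    have hmove : (S.toF hG k σ).cstep (cpos (srvs q) t (srvs q t)) t =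
        price S.w S.η ((S.toF hG k σ).E (cpos (srvs q) t (srvs q t)))
          (S.P s q (t + 1) (srvs q t)) (S.live (σ.take (t + 1))) := by
      rw [S.cstep_eq hG hσ htσ (cpos_old _ _ _)]
      congr 1
      rw [S.Et_eq hx (hσ _)]
      unfold P
      rw [endConf_take_succ s q htq, hj, update_self]
    have hmove2 : price S.w S.η ((S.toF hG k σ).E (cpos (srvs q) (t + 1) (srvs q t)))
        (S.P s q (t + 1) (srvs q t)) (S.live (σ.take (t + 1))) = 0 := by
      have e1 : (S.toF hG k σ).E (cpos (srvs q) (t + 1) (srvs q t)) = S.Et σ t := by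
        rw [cpos, update_self]; rfl
      have e2 : S.P s q (t + 1) (srvs q t) = S.Et σ t := by
        rw [S.Et_eq hx (hσ _)]
        unfold P
        rw [endConf_take_succ s q htq, hj, update_self]
      rw [e1, e2, price_self]
    have hstay : ∀ l ∈ univ.erase (srvs q t), price S.w S.η
        ((S.toF hG k σ).E (cpos (srvs q) (t + 1) l)) (S.P s q (t + 1) l)
          (S.live (σ.take (t + 1))) ≤
        price S.w S.η ((S.toF hG k σ).E (cpos (srvs q) t l)) (S.P s q t l) (S.live (σ.take t)) +
        price S.w S.η (S.P s q t l) (S.P s q (t + 1) l) (S.live (σ.take (t + 1))) := by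
      intro l hl
      have e1 : cpos (srvs q) (t + 1) l = cpos (srvs q) t l := by
        rw [cpos, update_of_ne (ne_of_mem_erase hl)]
      rw [e1]
      exact htri l
    have hsum : (S.toF hG k σ).cstep (cpos (srvs q) t (srvs q t)) t +
        ∑ l : Fin k, price S.w S.η ((S.toF hG k σ).E (cpos (srvs q) (t + 1) l))
          (S.P s q (t + 1) l) (S.live (σ.take (t + 1))) ≤
        ∑ l : Fin k, (price S.w S.η ((S.toF hG k σ).E (cpos (srvs q) t l)) (S.P s q t l)
            (S.live (σ.take t)) +
          price S.w S.η (S.P s q t l) (S.P s q (t + 1) l) (S.live (σ.take (t + 1)))) := by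
      rw [← add_sum_erase univ (fun l => price S.w S.η
          ((S.toF hG k σ).E (cpos (srvs q) (t + 1) l))
          (S.P s q (t + 1) l) (S.live (σ.take (t + 1)))) (mem_univ (srvs q t)),
        ← add_sum_erase univ (fun l => price S.w S.η ((S.toF hG k σ).E (cpos (srvs q) t l))
            (S.P s q t l) (S.live (σ.take t)) +
          price S.w S.η (S.P s q t l) (S.P s q (t + 1) l) (S.live (σ.take (t + 1))))
          (mem_univ (srvs q t))]
      have h1 := sum_le_sum hstay
      have h2 := htri (srvs q t)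
      rw [← hmove] at h2
      linarith [hmove2]
    rw [sum_add_distrib] at hsum
    rw [sum_range_succ, sum_range_succ (fun r => ∑ l : Fin k, price S.w S.η (S.P s q r l)
      (S.P s q (r + 1) l) (S.live (σ.take (r + 1))))]
    linarith

/-- **Comparator side**: the total price of the comparator is at most its label bill. -/
theorem sum_cstep_le (s : Fin k → X) (q : List (X × Fin k))
    (hσ : ∀ t, Good ((q.map Prod.fst).take t)) :
    ∑ r ∈ range q.length, (S.toF hG k (q.map Prod.fst)).cstep (cpos (srvs q) r (srvs q r)) r ≤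
      bill S s q := by
  have h := S.comparator_aux hG s q hσ q.length le_rfl
  have h0 : 0 ≤ ∑ l : Fin k, price S.w S.η
      ((S.toF hG k (q.map Prod.fst)).E (cpos (srvs q) q.length l))
        (S.P s q q.length l) (S.live ((q.map Prod.fst).take q.length)) :=
    sum_nonneg fun l _ => price_nonneg (fun v => (S.w_pos v).le)
      (fun v => by linarith [S.η_ge v]) _ _ _
  exact le_trans (le_add_of_nonneg_right h0) h

end TreeSys

end Crest.Agent.R314.Asm
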