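import Mathlib
import Crest.Prelude.Def_KServer

-- ▼ part R314/Frame1
section

/-!
R314, block F1: deterministic online policies and Kuhn's theorem (mixed -> behaviour).
-/

set_option autoImplicit false

namespace Crest.Agent.R314

open Crest.LogicCS.KServer

variable {X : Type*} {k : ℕ}

/-- A deterministic online policy: the server used for the last request of the revealed prefix. -/
abbrev DPol (X : Type*) (k : ℕ) := List X → Fin k

/-- The list of (request, server) pairs produced by `d` on the further requests `σ`, after the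
requests `pre`. -/
def run (d : DPol X k) : List X → List X → List (X × Fin k)
  | _, [] => []
  | pre, r :: rest => (r, d (pre ++ [r])) :: run d (pre ++ [r]) rest

@[simp] theorem run_nil (d : DPol X k) (pre : List X) : run d pre [] = [] := rfl

@[simp] theorem run_cons (d : DPol X k) (pre : List X) (r : X) (rest : List X) :
    run d pre (r :: rest) = (r, d (pre ++ [r])) :: run d (pre ++ [r]) rest := rfl

@[simp] theorem run_map_fst (d : DPol X k) (pre σ : List X) :
    (run d pre σ).map Prod.fst = σ := by
  induction σ generalizing pre with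
  | nil => rfl
  | cons r rest ih => simp [ih]

@[simp] theorem run_length (d : DPol X k) (pre σ : List X) : (run d pre σ).length = σ.length := by
  induction σ generalizing pre with
  | nil => rfl
  | cons r rest ih => simp [ih]

theorem run_append (d : DPol X k) (pre σ τ : List X) :
    run d pre (σ ++ τ) = run d pre σ ++ run d (pre ++ σ) τ := by
  induction σ generalizing pre with
  | nil => simp
  | cons r rest ih => simp [ih]

/-- The policy `d` shifted by a prefix. -/
def shift (d : DPol X k) (pre : List X) : DPol X k := fun l => d (pre ++ l)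

theorem run_shift (d : DPol X k) (pre pre' σ : List X) :
    run (shift d pre) pre' σ = run d (pre ++ pre') σ := by
  induction σ generalizing pre' with
  | nil => rfl
  | cons r rest ih => simp [ih, shift]


/-- choices of servers -/
def choices (d : DPol X k) (pre σ : List X) : List (Fin k) := (run d pre σ).map Prod.snd

@[simp] theorem choices_nil (d : DPol X k) (pre : List X) : choices d pre [] = [] := rfl

@[simp] theorem choices_cons (d : DPol X k) (pre : List X) (r : X) (rest : List X) :
    choices d pre (r :: rest) = d (pre ++ [r]) :: choices d (pre ++ [r]) rest := rfl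

@[simp] theorem choices_length (d : DPol X k) (pre σ : List X) :
    (choices d pre σ).length = σ.length := by simp [choices]

theorem choices_append (d : DPol X k) (pre σ τ : List X) :
    choices d pre (σ ++ τ) = choices d pre σ ++ choices d (pre ++ σ) τ := by
  simp [choices, run_append]

theorem zip_choices (d : DPol X k) (pre σ : List X) :
    σ.zip (choices d pre σ) = run d pre σ := by
  induction σ generalizing pre with
  | nil => rfl
  | cons r rest ih => simp [ih]

section Kuhn

variable {ι : Type*} [Fintype ι]

open Classical in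
/-- total weight of the deterministic policies whose choices on `reqs` are `past`. -/
noncomputable def wt (ν : ι → ℝ) (d : ι → DPol X k) (reqs : List X) (past : List (Fin k)) : ℝ :=
  ∑ i, if choices (d i) [] reqs = past then ν i else 0

theorem wt_nonneg (ν : ι → ℝ) (hν : ∀ i, 0 ≤ ν i) (d : ι → DPol X k) (reqs : List X)
    (past : List (Fin k)) : 0 ≤ wt ν d reqs past := by
  unfold wt
  refine Finset.sum_nonneg fun i _ => ?_
  split_ifs
  · exact hν i
  · exact le_rfl

theorem wt_nil (ν : ι → ℝ) (d : ι → DPol X k) : wt ν d [] [] = ∑ i, ν i := by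
  simp [wt]

/-- extension: the weight of a history is the sum of the weights of its one-step extensions. -/
theorem sum_wt_succ (ν : ι → ℝ) (d : ι → DPol X k) (reqs : List X) (r : X)
    (past : List (Fin k)) (hl : past.length = reqs.length) :
    ∑ i, wt ν d (reqs ++ [r]) (past ++ [i]) = wt ν d reqs past := by
  classical
  unfold wt
  rw [Finset.sum_comm]
  refine Finset.sum_congr rfl fun a _ => ?_
  have key : ∀ i : Fin k, (choices (d a) [] (reqs ++ [r]) = past ++ [i]) ↔
      (choices (d a) [] reqs = past ∧ d a (reqs ++ [r]) = i) := by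
    intro i
    rw [choices_append]
    constructor
    · intro h
      have := List.append_inj h (by simp [hl])
      refine ⟨this.1, ?_⟩
      simpa using this.2
    · rintro ⟨h1, h2⟩
      simp [h1, h2]
  by_cases h : choices (d a) [] reqs = past
  · simp only [key, h, true_and]
    simp
  · simp [key, h]

theorem wt_succ_le (ν : ι → ℝ) (hν : ∀ i, 0 ≤ ν i) (d : ι → DPol X k) (reqs : List X) (r : X)
    (past : List (Fin k)) (hl : past.length = reqs.length) (i : Fin k) :
    wt ν d (reqs ++ [r]) (past ++ [i]) ≤ wt ν d reqs past := by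
  rw [← sum_wt_succ ν d reqs r past hl]
  exact Finset.single_le_sum (f := fun i => wt ν d (reqs ++ [r]) (past ++ [i]))
    (fun i _ => wt_nonneg ν hν d _ _) (Finset.mem_univ i)

open Classical in
/-- Kuhn's behaviour policy. -/
noncomputable def kuhnProb (ν : ι → ℝ) (d : ι → DPol X k) (reqs : List X) (past : List (Fin k))
    (i : Fin k) : ℝ :=
  if past.length + 1 = reqs.length ∧ wt ν d reqs.dropLast past ≠ 0 then
    wt ν d reqs (past ++ [i]) / wt ν d reqs.dropLast past
  else 1 / k

variable [NeZero k]

omit [NeZero k] in
theorem kuhnProb_nonneg (ν : ι → ℝ) (hν : ∀ i, 0 ≤ ν i) (d : ι → DPol X k) (reqs : List X)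
    (past : List (Fin k)) (i : Fin k) : 0 ≤ kuhnProb ν d reqs past i := by
  unfold kuhnProb
  split_ifs with h
  · exact div_nonneg (wt_nonneg ν hν d _ _) (wt_nonneg ν hν d _ _)
  · positivity

theorem kuhnProb_sum (ν : ι → ℝ) (d : ι → DPol X k) (reqs : List X)
    (past : List (Fin k)) : ∑ i, kuhnProb ν d reqs past i = 1 := by
  unfold kuhnProb
  by_cases h : past.length + 1 = reqs.length ∧ wt ν d reqs.dropLast past ≠ 0
  · simp only [if_pos h]
    rw [← Finset.sum_div]
    have hne : reqs ≠ [] := by
      rintro rfl
      simp at h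
    have e : reqs = reqs.dropLast ++ [reqs.getLast hne] := (List.dropLast_append_getLast hne).symm
    have hl : past.length = reqs.dropLast.length := by
      have := h.1
      simp
      omega
    have h2 : ∑ i, wt ν d reqs (past ++ [i]) = wt ν d reqs.dropLast past := by
      conv_lhs => rw [e]
      exact sum_wt_succ ν d _ _ past hl
    rw [h2]
    exact div_self h.2
  · simp only [if_neg h]
    have : (k : ℝ) ≠ 0 := by exact_mod_cast NeZero.ne k
    simp [this]

/-- the behaviour policy attached to a mixed strategy -/
noncomputable def kuhn (ν : ι → ℝ) (hν : ∀ i, 0 ≤ ν i) (d : ι → DPol X k) : Policy X k where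
  prob := kuhnProb ν d
  prob_nonneg := kuhnProb_nonneg ν hν d
  prob_sum := kuhnProb_sum ν d

theorem kuhn_pathProb (ν : ι → ℝ) (hν : ∀ i, 0 ≤ ν i) (d : ι → DPol X k)
    (rest : List (X × Fin k)) :
    ∀ (reqs : List X) (past : List (Fin k)), past.length = reqs.length →
      wt ν d reqs past * pathProb (kuhn ν hν d) reqs past rest =
        wt ν d (reqs ++ rest.map Prod.fst) (past ++ rest.map Prod.snd) := by
  induction rest with
  | nil => intro reqs past _; simp [pathProb]
  | cons a rest ih =>
    obtain ⟨r, i⟩ := a
    intro reqs past hl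
    have hl' : (past ++ [i]).length = (reqs ++ [r]).length := by simp [hl]
    have := ih (reqs ++ [r]) (past ++ [i]) hl'
    simp only [pathProb, List.map_cons]
    have e1 : reqs ++ r :: rest.map Prod.fst = (reqs ++ [r]) ++ rest.map Prod.fst := by simp
    have e2 : past ++ i :: rest.map Prod.snd = (past ++ [i]) ++ rest.map Prod.snd := by simp
    rw [e1, e2, ← this]
    have hp : (kuhn ν hν d).prob (reqs ++ [r]) past i = kuhnProb ν d (reqs ++ [r]) past i := rfl
    rw [hp]
    unfold kuhnProb
    have hdl : (reqs ++ [r]).dropLast = reqs := by simp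
    rw [hdl]
    by_cases h0 : wt ν d reqs past = 0
    · have h1 : wt ν d (reqs ++ [r]) (past ++ [i]) = 0 := by
        refine le_antisymm ?_ (wt_nonneg ν hν d _ _)
        rw [← h0]
        exact wt_succ_le ν hν d reqs r past hl i
      rw [h0, h1]
      ring
    · have hc : past.length + 1 = (reqs ++ [r]).length ∧ wt ν d reqs past ≠ 0 := by
        refine ⟨by simp [hl], h0⟩
      rw [if_pos hc]
      field_simp

theorem kuhn_expCost [MetricSpace X] (ν : ι → ℝ) (hν : ∀ i, 0 ≤ ν i) (h1 : ∑ i, ν i = 1)
    (d : ι → DPol X k) (s : Fin k → X) (σ : List X) :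
    expCost (kuhn ν hν d) s σ = ∑ a, ν a * pathCost s (run (d a) [] σ) := by
  classical
  unfold expCost
  have hstep : ∀ j : Fin σ.length → Fin k,
      pathProb (kuhn ν hν d) [] [] (σ.zip (List.ofFn j)) = wt ν d σ (List.ofFn j) := by
    intro j
    have := kuhn_pathProb ν hν d (σ.zip (List.ofFn j)) [] [] rfl
    rw [wt_nil, h1, one_mul] at this
    rw [this]
    have e1 : (σ.zip (List.ofFn j)).map Prod.fst = σ := by
      rw [List.map_fst_zip]; simp
    have e2 : (σ.zip (List.ofFn j)).map Prod.snd = List.ofFn j := by
      rw [List.map_snd_zip]; simp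
    rw [e1, e2]
    simp
  simp only [hstep]
  unfold wt
  simp only [Finset.sum_mul]
  rw [Finset.sum_comm]
  refine Finset.sum_congr rfl fun a _ => ?_
  -- the unique j
  have hlen : (choices (d a) [] σ).length = σ.length := choices_length _ _ _
  let j0 : Fin σ.length → Fin k := fun t => (choices (d a) [] σ).get (Fin.cast hlen.symm t)
  have hj0 : List.ofFn j0 = choices (d a) [] σ := by
    apply List.ext_get
    · simp
    · intro n h1 h2
      simp [j0]
  rw [Finset.sum_eq_single j0]
  · rw [if_pos hj0.symm, hj0, zip_choices]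
  · intro j _ hj
    rw [if_neg, zero_mul]
    intro h
    apply hj
    rw [← hj0] at h
    exact (List.ofFn_injective h).symm
  · intro h
    exact absurd (Finset.mem_univ _) h

end Kuhn

end Crest.Agent.R314
private theorem rz_579f26b87a : type_of% @_root_.Crest.LogicCS.KServer.pathProb.eq_def := @_root_.Crest.LogicCS.KServer.pathProb.eq_def
private theorem rz_f8a99aa8a6 : type_of% @_root_.Crest.LogicCS.KServer.pathProb.eq_1 := @_root_.Crest.LogicCS.KServer.pathProb.eq_1
end

-- ▼ part R314/Frame2
section

/-!
R314, block F2: minimax (finite zero-sum game) for online policies.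
-/

set_option autoImplicit false

namespace Crest.Agent.R314

open Crest.LogicCS.KServer

/-- Finite minimax, one-sided form: if every mixture `w` of the rows has a pure column `d` with
nonpositive payoff, then some mixture of columns has nonpositive payoff in every row. -/
theorem exists_mix {Q : Type*} [Fintype Q] {D : Type*} [Nonempty D] (v : D → Q → ℝ)
    (hfin : (Set.range v).Finite)
    (H : ∀ w : Q → ℝ, (∀ q, 0 ≤ w q) → ∑ q, w q = 1 → ∃ d, ∑ q, w q * v d q ≤ 0) :
    ∃ (ι : Type) (_ : Fintype ι) (ν : ι → ℝ) (d : ι → D), (∀ i, 0 ≤ ν i) ∧ ∑ i, ν i = 1 ∧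
      ∀ q, ∑ i, ν i * v (d i) q ≤ 0 := by
  classical
  let K : Set (Q → ℝ) := convexHull ℝ (Set.range v)
  let C : Set (Q → ℝ) := {x | ∀ q, x q ≤ 0}
  have hKc : Convex ℝ K := convex_convexHull ℝ _
  have hKcomp : IsCompact K := hfin.isCompact_convexHull ℝ
  have hCconv : Convex ℝ C := by
    intro x hx y hy a b ha hb _ q
    have h1 := hx q
    have h2 := hy q
    simp only [Pi.add_apply, Pi.smul_apply, smul_eq_mul]
    nlinarith [mul_nonpos_of_nonneg_of_nonpos ha h1, mul_nonpos_of_nonneg_of_nonpos hb h2]
  have hCclosed : IsClosed C := by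
    have : C = ⋂ q, {x : Q → ℝ | x q ≤ 0} := by
      ext x; simp [C]
    rw [this]
    exact isClosed_iInter fun q => isClosed_le (continuous_apply q) continuous_const
  by_cases hdisj : Disjoint K C
  · exfalso
    obtain ⟨f, u, t, hK, hut, hC⟩ :=
      geometric_hahn_banach_compact_closed hKc hKcomp hCconv hCclosed hdisj
    -- coefficients
    let c : Q → ℝ := fun q => f (Pi.single q 1)
    have hf : ∀ x : Q → ℝ, f x = ∑ q, x q * c q := by
      intro x
      have hx : x = ∑ q, x q • (Pi.single q (1 : ℝ) : Q → ℝ) := by
        ext p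
        simp [Finset.sum_apply, Pi.single_apply]
      conv_lhs => rw [hx]
      simp [map_sum, c]
    have h0 : t < 0 := by
      have := hC 0 (by intro q; simp)
      simpa using this
    have hc : ∀ q, c q ≤ 0 := by
      intro q
      by_contra hq
      push Not at hq
      -- take b = -(−t / c q + 1) e_q
      have hpos : 0 < (-t) / c q + 1 := by
        have : 0 < (-t) / c q := div_pos (by linarith) hq
        linarith
      have := hC (-(((-t) / c q + 1)) • (Pi.single q (1 : ℝ) : Q → ℝ)) (by
        intro p
        simp only [Pi.smul_apply, smul_eq_mul, Pi.single_apply]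
        split_ifs
        · linarith
        · simp)
      rw [map_smul, smul_eq_mul] at this
      change t < -((-t) / c q + 1) * c q at this
      have h3 : -((-t) / c q + 1) * c q = t - c q := by
        field_simp
        ring
      rw [h3] at this
      linarith
    obtain ⟨d0⟩ := (inferInstance : Nonempty D)
    let S : ℝ := ∑ q, -(c q)
    have hS0 : 0 ≤ S := Finset.sum_nonneg fun q _ => by have := hc q; linarith
    have hS : 0 < S := by
      rcases hS0.lt_or_eq with h | h
      · exact h
      · exfalso
        have hz : ∀ q ∈ Finset.univ, -(c q) = 0 :=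
          (Finset.sum_eq_zero_iff_of_nonneg (fun q _ => by have := hc q; linarith)).1 h.symm
        have h1 := hK (v d0) (subset_convexHull ℝ _ ⟨d0, rfl⟩)
        rw [hf] at h1
        have h2 : ∑ q, v d0 q * c q = 0 := by
          refine Finset.sum_eq_zero fun q hq => ?_
          have := hz q hq
          have : c q = 0 := by linarith
          rw [this]; ring
        rw [h2] at h1
        linarith
    obtain ⟨d, hd⟩ := H (fun q => -(c q) / S)
      (fun q => div_nonneg (by have := hc q; linarith) hS.le)
      (by rw [← Finset.sum_div]; exact div_self hS.ne')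
    have h1 := hK (v d) (subset_convexHull ℝ _ ⟨d, rfl⟩)
    rw [hf] at h1
    have h2 : ∑ q, -(c q) / S * v d q = -(∑ q, v d q * c q) / S := by
      rw [← Finset.sum_neg_distrib, Finset.sum_div]
      refine Finset.sum_congr rfl fun q _ => ?_
      ring
    rw [h2] at hd
    have h3 : 0 < -(∑ q, v d q * c q) / S := div_pos (by linarith) hS
    linarith
  · rw [Set.not_disjoint_iff] at hdisj
    obtain ⟨x, hxK, hxC⟩ := hdisj
    obtain ⟨ι, inst, w, z, hw0, hw1, hz, hx⟩ := mem_convexHull_iff_exists_fintype.1 hxK
    choose d hd using hz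
    refine ⟨ι, inst, w, d, hw0, hw1, fun q => ?_⟩
    have := hxC q
    rw [← hx] at this
    simpa [Finset.sum_apply, hd] using this

variable {X : Type*} [MetricSpace X] {k : ℕ}

/-- cost of a deterministic policy -/
noncomputable def dcost (d : DPol X k) (s : Fin k → X) (σ : List X) : ℝ :=
  pathCost s (run d [] σ)

theorem dcost_finite_range (s : Fin k → X) (Q : Finset (List (X × Fin k))) (R B : ℝ) :
    (Set.range fun (d : DPol X k) (q : Q) =>
      dcost d s (q.1.map Prod.fst) - R * pathCost s q.1 - B).Finite := by
  classical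
  -- factor through the choices
  let g : (Q → List (Fin k)) → (Q → ℝ) := fun c q =>
    pathCost s ((q.1.map Prod.fst).zip (c q)) - R * pathCost s q.1 - B
  have hfin : {f : Q → List (Fin k) | ∀ q : Q, f q ∈
      {l : List (Fin k) | l.length = q.1.length}}.Finite :=
    Set.Finite.pi' fun q : Q => List.finite_length_eq (Fin k) q.1.length
  refine (hfin.image g).subset ?_
  rintro _ ⟨d, rfl⟩
  refine ⟨fun q => choices d [] (q.1.map Prod.fst), ?_, ?_⟩
  · intro q
    simp
  · funext q
    simp only [g, dcost, zip_choices]

/-- **Minimax for `k`-server.** -/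
theorem exists_policy_of_bayes [NeZero k] (s : Fin k → X) (R B : ℝ)
    (Q : Finset (List (X × Fin k)))
    (H : ∀ w : List (X × Fin k) → ℝ, (∀ q, 0 ≤ w q) → ∑ q ∈ Q, w q = 1 →
      ∃ d : DPol X k, ∑ q ∈ Q, w q * dcost d s (q.map Prod.fst) ≤
        R * ∑ q ∈ Q, w q * pathCost s q + B) :
    ∃ A : Policy X k, ∀ q ∈ Q, expCost A s (q.map Prod.fst) ≤ R * pathCost s q + B := by
  classical
  let v : DPol X k → Q → ℝ := fun d q => dcost d s (q.1.map Prod.fst) - R * pathCost s q.1 - B
  have hne : Nonempty (DPol X k) := ⟨fun _ => 0⟩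
  obtain ⟨ι, inst, ν, d, hν0, hν1, hv⟩ := exists_mix v (dcost_finite_range s Q R B) (by
    intro w hw0 hw1
    obtain ⟨d, hd⟩ := H (fun q => if h : q ∈ Q then w ⟨q, h⟩ else 0)
      (by intro q; split_ifs with h; exacts [hw0 _, le_rfl])
      (by
        rw [← Finset.sum_attach, ← hw1]
        exact Finset.sum_congr rfl fun q _ => by simp)
    refine ⟨d, ?_⟩
    have e1 : ∑ q ∈ Q, (if h : q ∈ Q then w ⟨q, h⟩ else 0) * dcost d s (q.map Prod.fst)
        = ∑ q : Q, w q * dcost d s (q.1.map Prod.fst) := by
      rw [← Finset.sum_attach]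
      exact Finset.sum_congr rfl fun q _ => by simp
    have e2 : ∑ q ∈ Q, (if h : q ∈ Q then w ⟨q, h⟩ else 0) * pathCost s q
        = ∑ q : Q, w q * pathCost s q.1 := by
      rw [← Finset.sum_attach]
      exact Finset.sum_congr rfl fun q _ => by simp
    rw [e1, e2] at hd
    have e3 : ∑ q : Q, w q * v d q = ∑ q : Q, w q * dcost d s (q.1.map Prod.fst)
        - R * ∑ q : Q, w q * pathCost s q.1 - B := by
      simp only [v]
      have : B = ∑ q : Q, w q * B := by rw [← Finset.sum_mul, hw1, one_mul]
      conv_rhs => rw [this]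
      rw [Finset.mul_sum, ← Finset.sum_sub_distrib, ← Finset.sum_sub_distrib]
      exact Finset.sum_congr rfl fun q _ => by ring
    rw [e3]
    linarith)
  refine ⟨kuhn ν hν0 d, fun q hq => ?_⟩
  rw [kuhn_expCost ν hν0 hν1]
  have := hv ⟨q, hq⟩
  simp only [v] at this
  have e : ∑ i, ν i * (dcost (d i) s (q.map Prod.fst) - R * pathCost s q - B)
      = ∑ i, ν i * pathCost s (run (d i) [] (q.map Prod.fst)) - (R * pathCost s q + B) := by
    have : R * pathCost s q + B = ∑ i, ν i * (R * pathCost s q + B) := by
      rw [← Finset.sum_mul, hν1, one_mul]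
    conv_rhs => rw [this]
    rw [← Finset.sum_sub_distrib]
    exact Finset.sum_congr rfl fun i _ => by simp only [dcost]; ring
  rw [e] at this
  linarith

end Crest.Agent.R314
end

-- ▼ part R314/Frame3
section

/-!
R314, block F3: compactness of the space of behaviour policies.
-/

set_option autoImplicit false

namespace Crest.Agent.R314

open Crest.LogicCS.KServer

variable {X : Type*} {k : ℕ}

/-- `pathProb` for an arbitrary function. -/
def pp (f : List X → List (Fin k) → Fin k → ℝ) : List X → List (Fin k) → List (X × Fin k) → ℝ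
  | _, _, [] => 1
  | reqs, past, (r, i) :: rest =>
      f (reqs ++ [r]) past i * pp f (reqs ++ [r]) (past ++ [i]) rest

theorem pathProb_eq_pp (A : Policy X k) (rest : List (X × Fin k)) :
    ∀ reqs past, pathProb A reqs past rest = pp A.prob reqs past rest := by
  induction rest with
  | nil => intro _ _; rfl
  | cons a rest ih => intro reqs past; obtain ⟨r, i⟩ := a; simp [pathProb, pp, ih]

theorem continuous_pp (rest : List (X × Fin k)) :
    ∀ reqs past, Continuous fun f : List X → List (Fin k) → Fin k → ℝ => pp f reqs past rest := by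
  induction rest with
  | nil => intro _ _; exact continuous_const
  | cons a rest ih =>
    intro reqs past
    obtain ⟨r, i⟩ := a
    simp only [pp]
    refine Continuous.mul ?_ (ih _ _)
    exact (continuous_apply i).comp ((continuous_apply past).comp (continuous_apply (reqs ++ [r])))

variable [MetricSpace X]

/-- **Compactness**: a policy good against every finite set of comparator paths gives a policy
good against all comparator paths. -/
theorem exists_policy_of_finite (s : Fin k → X) (g : List (X × Fin k) → ℝ)
    (H : ∀ Q : Finset (List (X × Fin k)), ∃ A : Policy X k, ∀ q ∈ Q,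
      expCost A s (q.map Prod.fst) ≤ g q) :
    ∃ A : Policy X k, ∀ q : List (X × Fin k), expCost A s (q.map Prod.fst) ≤ g q := by
  classical
  let P : Set (List X → List (Fin k) → Fin k → ℝ) :=
    Set.pi Set.univ fun _ => Set.pi Set.univ fun _ => stdSimplex ℝ (Fin k)
  have hP : IsCompact P := isCompact_univ_pi fun _ => isCompact_univ_pi fun _ =>
    isCompact_stdSimplex ℝ (Fin k)
  let F : List X → (List X → List (Fin k) → Fin k → ℝ) → ℝ := fun σ f =>
    ∑ j : Fin σ.length → Fin k,
      pp f [] [] (σ.zip (List.ofFn j)) * pathCost s (σ.zip (List.ofFn j))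
  have hF : ∀ σ, Continuous (F σ) := by
    intro σ
    exact continuous_finsetSum _ fun j _ => (continuous_pp _ _ _).mul continuous_const
  have hFA : ∀ (A : Policy X k) σ, F σ A.prob = expCost A s σ := by
    intro A σ
    simp only [F, expCost, pathProb_eq_pp]
  obtain ⟨f, hfP, hf⟩ := hP.inter_iInter_nonempty
    (fun q : List (X × Fin k) => {f | F (q.map Prod.fst) f ≤ g q})
    (fun q => isClosed_le (hF _) continuous_const) (by
      intro Q
      obtain ⟨A, hA⟩ := H Q
      refine ⟨A.prob, ?_, ?_⟩
      · intro reqs _ past _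
        exact ⟨A.prob_nonneg reqs past, A.prob_sum reqs past⟩
      · simp only [Set.mem_iInter]
        intro q hq
        change F _ _ ≤ _
        rw [hFA]
        exact hA q hq)
  have hs : ∀ reqs past, f reqs past ∈ stdSimplex ℝ (Fin k) := fun reqs past =>
    hfP reqs (Set.mem_univ _) past (Set.mem_univ _)
  let A : Policy X k :=
    { prob := f
      prob_nonneg := fun reqs past => (hs reqs past).1
      prob_sum := fun reqs past => (hs reqs past).2 }
  refine ⟨A, fun q => ?_⟩
  have := Set.mem_iInter.1 hf q
  rw [← hFA A]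
  exact this

end Crest.Agent.R314
private theorem rz_60476360a1 : type_of% @_root_.Crest.Agent.R314.pp.eq_def := @_root_.Crest.Agent.R314.pp.eq_def -- L17
private theorem rz_6bc28d6aad : type_of% @_root_.Crest.Agent.R314.pp.eq_1 := @_root_.Crest.Agent.R314.pp.eq_1 -- L17
end

-- ▼ part R314/Frame4
section

/-!
R314, block F4: configurations, path costs, and the "return to start" trick which removes the
additive constant at the price of a factor 2 in the ratio.
-/

set_option autoImplicit false
set_option linter.unusedSectionVars false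

namespace Crest.Agent.R314

open Crest.LogicCS.KServer

variable {X : Type*} [MetricSpace X] {k : ℕ}

/-- final configuration of a path -/
def endConf : (Fin k → X) → List (X × Fin k) → (Fin k → X)
  | c, [] => c
  | c, (r, i) :: rest => endConf (Function.update c i r) rest

@[simp] theorem endConf_nil (c : Fin k → X) : endConf c [] = c := rfl
@[simp] theorem endConf_cons (c : Fin k → X) (a : X × Fin k) (rest : List (X × Fin k)) :
    endConf c (a :: rest) = endConf (Function.update c a.2 a.1) rest := rfl
@[simp] theorem pathCost_nil (c : Fin k → X) : pathCost c [] = 0 := rfl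
@[simp] theorem pathCost_cons (c : Fin k → X) (a : X × Fin k) (rest : List (X × Fin k)) :
    pathCost c (a :: rest) = dist (c a.2) a.1 + pathCost (Function.update c a.2 a.1) rest := rfl

theorem endConf_append (p q : List (X × Fin k)) : ∀ c : Fin k → X,
    endConf c (p ++ q) = endConf (endConf c p) q := by
  induction p with
  | nil => intro c; rfl
  | cons a p ih => intro c; simp [ih]

theorem pathCost_append (p q : List (X × Fin k)) : ∀ c : Fin k → X,
    pathCost c (p ++ q) = pathCost c p + pathCost (endConf c p) q := by
  induction p with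
  | nil => intro c; simp
  | cons a p ih => intro c; simp [ih]; ring

theorem pathCost_nonneg (p : List (X × Fin k)) : ∀ c : Fin k → X, 0 ≤ pathCost c p := by
  induction p with
  | nil => intro c; simp
  | cons a p ih => intro c; simp only [pathCost_cons]; have := ih (Function.update c a.2 a.1)
                   positivity

/-- labelled distance of two configurations -/
noncomputable def cdist (c c' : Fin k → X) : ℝ := ∑ i, dist (c i) (c' i)

theorem cdist_nonneg (c c' : Fin k → X) : 0 ≤ cdist c c' :=
  Finset.sum_nonneg fun _ _ => dist_nonneg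

theorem cdist_self (c : Fin k → X) : cdist c c = 0 := by simp [cdist]

theorem cdist_comm (c c' : Fin k → X) : cdist c c' = cdist c' c := by
  simp [cdist, dist_comm]

theorem cdist_triangle (a b c : Fin k → X) : cdist a c ≤ cdist a b + cdist b c := by
  unfold cdist
  rw [← Finset.sum_add_distrib]
  exact Finset.sum_le_sum fun i _ => dist_triangle _ _ _

theorem cdist_update_update (c c' : Fin k → X) (i : Fin k) (r : X) :
    cdist (Function.update c i r) (Function.update c' i r) + dist (c i) (c' i) = cdist c c' := by
  classical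
  unfold cdist
  rw [← Finset.add_sum_erase _ _ (Finset.mem_univ i)]
  rw [← Finset.add_sum_erase (a := i) Finset.univ (fun j => dist (c j) (c' j)) (Finset.mem_univ i)]
  have : ∑ x ∈ Finset.univ.erase i, dist (Function.update c i r x) (Function.update c' i r x)
      = ∑ x ∈ Finset.univ.erase i, dist (c x) (c' x) := by
    refine Finset.sum_congr rfl fun x hx => ?_
    have hx : x ≠ i := (Finset.mem_erase.1 hx).1
    simp [Function.update_of_ne hx]
  rw [this]
  simp

theorem cdist_update_self (c : Fin k → X) (i : Fin k) (r : X) :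
    cdist c (Function.update c i r) = dist (c i) r := by
  classical
  unfold cdist
  rw [Finset.sum_eq_single i]
  · simp
  · intro j _ hj
    simp [Function.update_of_ne hj]
  · simp

/-- changing the start configuration -/
theorem pathCost_start_le (p : List (X × Fin k)) : ∀ c c' : Fin k → X,
    pathCost c p + cdist (endConf c p) (endConf c' p) ≤ pathCost c' p + cdist c c' := by
  induction p with
  | nil => intro c c'; simp
  | cons a p ih =>
    intro c c'
    simp only [pathCost_cons, endConf_cons]
    have h1 := ih (Function.update c a.2 a.1) (Function.update c' a.2 a.1)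
    have h2 := cdist_update_update c c' a.2 a.1
    have h3 : dist (c a.2) a.1 ≤ dist (c a.2) (c' a.2) + dist (c' a.2) a.1 := dist_triangle _ _ _
    linarith

theorem pathCost_le_start (p : List (X × Fin k)) (c c' : Fin k → X) :
    pathCost c p ≤ pathCost c' p + cdist c c' := by
  have := pathCost_start_le p c c'
  have := cdist_nonneg (endConf c p) (endConf c' p)
  linarith

/-- displacement is at most the cost -/
theorem cdist_endConf_le (p : List (X × Fin k)) : ∀ c : Fin k → X,
    cdist c (endConf c p) ≤ pathCost c p := by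
  induction p with
  | nil => intro c; simp [cdist_self]
  | cons a p ih =>
    intro c
    simp only [pathCost_cons, endConf_cons]
    have h1 := ih (Function.update c a.2 a.1)
    have h2 := cdist_triangle c (Function.update c a.2 a.1) (endConf (Function.update c a.2 a.1) p)
    rw [cdist_update_self] at h2
    linarith

/-- relabelling the servers -/
theorem pathCost_perm (π : Equiv.Perm (Fin k)) (p : List (X × Fin k)) : ∀ c : Fin k → X,
    pathCost (c ∘ π) (p.map fun a => (a.1, π.symm a.2)) = pathCost c p := by
  induction p with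
  | nil => intro c; simp
  | cons a p ih =>
    intro c
    simp only [List.map_cons, pathCost_cons, Function.comp_apply, Equiv.apply_symm_apply]
    rw [← ih (Function.update c a.2 a.1)]
    congr 2
    funext j
    simp only [Function.comp_apply]
    by_cases h : j = π.symm a.2
    · subst h; simp
    · rw [Function.update_of_ne h, Function.update_of_ne]
      · rfl
      · intro h'
        apply h
        rw [← h']
        simp

theorem run_perm (π : Equiv.Perm (Fin k)) (d : DPol X k) (σ : List X) : ∀ pre : List X,
    run (fun l => π.symm (d l)) pre σ = (run d pre σ).map fun a => (a.1, π.symm a.2) := by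
  induction σ with
  | nil => intro pre; rfl
  | cons r σ ih => intro pre; simp [ih]

/-- matching distance to `s` -/
noncomputable def mdist (s c : Fin k → X) : ℝ :=
  Finset.univ.inf' (Finset.univ_nonempty (α := Equiv.Perm (Fin k))) fun π => cdist s (c ∘ π)

theorem mdist_nonneg (s c : Fin k → X) : 0 ≤ mdist s c := by
  unfold mdist
  refine Finset.le_inf' _ _ ?_
  intro π _
  exact cdist_nonneg _ _

theorem mdist_le (s c : Fin k → X) (π : Equiv.Perm (Fin k)) : mdist s c ≤ cdist s (c ∘ π) :=
  Finset.inf'_le _ (Finset.mem_univ π)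

theorem exists_mdist (s c : Fin k → X) : ∃ π : Equiv.Perm (Fin k), mdist s c = cdist s (c ∘ π) := by
  obtain ⟨π, _, h⟩ := Finset.exists_mem_eq_inf' (Finset.univ_nonempty (α := Equiv.Perm (Fin k)))
    fun π : Equiv.Perm (Fin k) => cdist s (c ∘ π)
  exact ⟨π, h⟩

theorem mdist_self (s : Fin k → X) : mdist s s = 0 := by
  refine le_antisymm ?_ (mdist_nonneg _ _)
  have := mdist_le s s 1
  simpa [cdist_self] using this

theorem mdist_le_add (s c c' : Fin k → X) : mdist s c' ≤ mdist s c + cdist c c' := by
  obtain ⟨π, h⟩ := exists_mdist s c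
  have h1 := mdist_le s c' π
  have h2 := cdist_triangle s (c ∘ π) (c' ∘ π)
  have h3 : cdist (c ∘ π) (c' ∘ π) = cdist c c' := by
    unfold cdist
    exact Equiv.sum_comp π fun i => dist (c i) (c' i)
  linarith

/-- the cycle of requests at the start configuration, served by the own server -/
def cyc (s : Fin k → X) : List (X × Fin k) := List.ofFn fun j => (s j, j)

/-- `N` cycles -/
def cycN (s : Fin k → X) : ℕ → List (X × Fin k)
  | 0 => []
  | N + 1 => cyc s ++ cycN s N

theorem endConf_eq_of_forall (p : List (X × Fin k)) : ∀ (c s : Fin k → X),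
    (∀ a ∈ p, a.1 = s a.2) → (∀ j, c j = s j ∨ (s j, j) ∈ p) → endConf c p = s := by
  induction p with
  | nil =>
    intro c s _ h
    funext j
    rcases h j with h | h
    · exact h
    · simp at h
  | cons a p ih =>
    intro c s h1 h2
    simp only [endConf_cons]
    refine ih _ _ (fun b hb => h1 b (List.mem_cons_of_mem _ hb)) fun j => ?_
    by_cases hj : j = a.2
    · left
      subst hj
      simp [h1 a (List.mem_cons_self)]
    · rcases h2 j with h | h
      · left; rw [Function.update_of_ne hj]; exact h
      · rcases List.mem_cons.1 h with h | h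
        · exfalso; apply hj; rw [← h]
        · right; exact h

theorem mem_cyc (s : Fin k → X) (a : X × Fin k) : a ∈ cyc s ↔ a.1 = s a.2 := by
  unfold cyc
  rw [List.mem_ofFn]
  constructor
  · rintro ⟨j, rfl⟩; rfl
  · intro h; exact ⟨a.2, by rw [← h]⟩

theorem endConf_cyc (s c : Fin k → X) : endConf c (cyc s) = s :=
  endConf_eq_of_forall _ _ _ (fun a ha => (mem_cyc s a).1 ha)
    (fun j => Or.inr ((mem_cyc s (s j, j)).2 rfl))

theorem pathCost_eq_zero_of_forall (p : List (X × Fin k)) (s : Fin k → X)
    (h : ∀ a ∈ p, a.1 = s a.2) : pathCost s p = 0 ∧ endConf s p = s := by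
  induction p with
  | nil => simp
  | cons a p ih =>
    have h1 := ih fun b hb => h b (List.mem_cons_of_mem _ hb)
    have h2 : a.1 = s a.2 := h a List.mem_cons_self
    have h3 : Function.update s a.2 a.1 = s := by rw [h2]; simp
    simp only [pathCost_cons, endConf_cons, h3, h1]
    simp [h2]

theorem mem_cycN (s : Fin k → X) (N : ℕ) (a : X × Fin k) (h : a ∈ cycN s N) : a.1 = s a.2 := by
  induction N with
  | zero => simp [cycN] at h
  | succ N ih =>
    simp only [cycN, List.mem_append] at h
    rcases h with h | h
    · exact (mem_cyc s a).1 h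
    · exact ih h

/-- serving the cycle from `c`, each point by its own server, costs at most the distance -/
theorem pathCost_cycN_le (s c : Fin k → X) (N : ℕ) : pathCost c (cycN s N) ≤ cdist c s := by
  have h := pathCost_le_start (cycN s N) c s
  rw [(pathCost_eq_zero_of_forall _ s (mem_cycN s N)).1] at h
  linarith

theorem endConf_cycN_succ (s c : Fin k → X) (N : ℕ) : endConf c (cycN s (N + 1)) = s := by
  simp only [cycN, endConf_append, endConf_cyc]
  exact (pathCost_eq_zero_of_forall _ s (mem_cycN s N)).2

/-- all entries of a configuration / list are in `F` -/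
def InF (F : Finset X) (c : Fin k → X) : Prop := ∀ i, c i ∈ F

theorem InF.update {F : Finset X} {c : Fin k → X} (hc : InF F c) (i : Fin k) {r : X} (hr : r ∈ F) :
    InF F (Function.update c i r) := by
  intro j
  by_cases h : j = i
  · subst h; simpa using hr
  · rw [Function.update_of_ne h]; exact hc j

theorem InF.endConf {F : Finset X} (p : List (X × Fin k)) : ∀ {c : Fin k → X}, InF F c →
    (∀ a ∈ p, a.1 ∈ F) → InF F (endConf c p) := by
  induction p with
  | nil => intro c hc _; exact hc
  | cons a p ih =>
    intro c hc h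
    exact ih (hc.update a.2 (h a List.mem_cons_self)) fun b hb => h b (List.mem_cons_of_mem _ hb)

theorem exists_min_dist (F : Finset X) : ∃ ε : ℝ, 0 < ε ∧ ∀ x ∈ F, ∀ y ∈ F, x ≠ y → ε ≤ dist x y := by
  classical
  let G : Finset (X × X) := (F ×ˢ F).filter fun p => p.1 ≠ p.2
  by_cases hG : G.Nonempty
  · refine ⟨G.inf' hG fun p => dist p.1 p.2, ?_, ?_⟩
    · rw [Finset.lt_inf'_iff]
      intro p hp
      exact dist_pos.2 (Finset.mem_filter.1 hp).2
    · intro x hx y hy hxy
      exact Finset.inf'_le (s := G) (f := fun p : X × X => dist p.1 p.2) (b := (x, y))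
        (Finset.mem_filter.2 ⟨Finset.mk_mem_product hx hy, hxy⟩)
  · refine ⟨1, one_pos, fun x hx y hy hxy => ?_⟩
    exact absurd ⟨(x, y), Finset.mem_filter.2 ⟨Finset.mk_mem_product hx hy, hxy⟩⟩ hG

theorem exists_max_dist (F : Finset X) : ∃ Δ : ℝ, 0 ≤ Δ ∧ ∀ x ∈ F, ∀ y ∈ F, dist x y ≤ Δ := by
  classical
  refine ⟨∑ p ∈ F ×ˢ F, dist p.1 p.2, Finset.sum_nonneg fun _ _ => dist_nonneg, ?_⟩
  intro x hx y hy
  exact Finset.single_le_sum (f := fun p : X × X => dist p.1 p.2) (fun _ _ => dist_nonneg)
    (Finset.mk_mem_product hx hy)

/-- a path all of whose steps are free does not move anything and only visits occupied points -/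
theorem free_path {F : Finset X} {ε : ℝ} (hε : ∀ x ∈ F, ∀ y ∈ F, x ≠ y → ε ≤ dist x y)
    (p : List (X × Fin k)) : ∀ c : Fin k → X, InF F c → (∀ a ∈ p, a.1 ∈ F) → pathCost c p < ε →
      endConf c p = c ∧ ∀ a ∈ p, a.1 = c a.2 := by
  induction p with
  | nil => intro c _ _ _; simp
  | cons a p ih =>
    intro c hc hp hlt
    simp only [pathCost_cons] at hlt
    have h0 := pathCost_nonneg p (Function.update c a.2 a.1)
    have h1 : c a.2 = a.1 := by
      by_contra hne
      have := hε _ (hc a.2) _ (hp a List.mem_cons_self) hne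
      linarith
    have h2 : Function.update c a.2 a.1 = c := by rw [← h1]; simp
    rw [h2] at hlt
    have h3 := ih c hc (fun b hb => hp b (List.mem_cons_of_mem _ hb)) (by
      have := dist_nonneg (x := c a.2) (y := a.1)
      linarith)
    simp only [endConf_cons, h2]
    refine ⟨h3.1, fun b hb => ?_⟩
    rcases List.mem_cons.1 hb with h | h
    · rw [h]; exact h1.symm
    · exact h3.2 b h

theorem mdist_eq_zero_of_cover {s c : Fin k → X} (hs : Function.Injective s)
    (h : ∀ j, ∃ i, c i = s j) : mdist s c = 0 := by
  choose f hf using h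
  have hinj : Function.Injective f := by
    intro i j hij
    apply hs
    rw [← hf i, ← hf j, hij]
  let π : Equiv.Perm (Fin k) := Equiv.ofBijective f (Finite.injective_iff_bijective.1 hinj)
  refine le_antisymm ?_ (mdist_nonneg _ _)
  have h1 := mdist_le s c π
  have h2 : c ∘ π = s := by
    funext j
    simp [π, hf]
  rw [h2, cdist_self] at h1
  exact h1

/-- Phase lemma: serving `N` cycles costs at least `min (mdist s c') (N * ε)`. -/
theorem phase {F : Finset X} {ε : ℝ} (hε0 : 0 ≤ ε)
    (hε : ∀ x ∈ F, ∀ y ∈ F, x ≠ y → ε ≤ dist x y)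
    {s : Fin k → X} (hs : Function.Injective s) (hsF : InF F s) (N : ℕ) :
    ∀ (c : Fin k → X) (p : List (X × Fin k)), InF F c →
      p.map Prod.fst = (cycN s N).map Prod.fst →
      min (mdist s (endConf c p)) (N * ε) ≤ pathCost c p := by
  induction N with
  | zero =>
    intro c p _ hp
    simp [cycN] at hp
    subst hp
    simp [mdist_nonneg]
  | succ N ih =>
    intro c p hc hp
    -- split `p`
    obtain ⟨p1, p2, rfl, h1, h2⟩ : ∃ p1 p2, p = p1 ++ p2 ∧ p1.map Prod.fst = (cyc s).map Prod.fst ∧
        p2.map Prod.fst = (cycN s N).map Prod.fst := by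
      simp only [cycN, List.map_append] at hp
      obtain ⟨p1, p2, e, h1, h2⟩ := List.map_eq_append_iff.1 hp
      exact ⟨p1, p2, e, h1, h2⟩
    have hp1 : ∀ a ∈ p1, a.1 ∈ F := by
      intro a ha
      have : a.1 ∈ (cyc s).map Prod.fst := h1 ▸ List.mem_map_of_mem ha
      obtain ⟨b, hb, hb'⟩ := List.mem_map.1 this
      rw [← hb', (mem_cyc s b).1 hb]
      exact hsF _
    rw [endConf_append, pathCost_append]
    have hc1 : InF F (endConf c p1) := hc.endConf p1 hp1
    rcases lt_or_ge (pathCost c p1) ε with hlt | hge
    · obtain ⟨e1, e2⟩ := free_path hε p1 c hc hp1 hlt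
      have hz : mdist s c = 0 := by
        refine mdist_eq_zero_of_cover hs fun j => ?_
        have : s j ∈ p1.map Prod.fst := by
          rw [h1]
          exact List.mem_map.2 ⟨(s j, j), (mem_cyc s _).2 rfl, rfl⟩
        obtain ⟨a, ha, ha'⟩ := List.mem_map.1 this
        exact ⟨a.2, by rw [← e2 a ha, ha']⟩
      rw [e1]
      have h3 := mdist_le_add s c (endConf c p2)
      have h4 := cdist_endConf_le p2 c
      have h5 := pathCost_nonneg p1 c
      have h6 := min_le_left (mdist s (endConf c p2)) ((N + 1 : ℕ) * ε)
      linarith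
    · have h3 := ih (endConf c p1) p2 hc1 h2
      rcases le_total (mdist s (endConf (endConf c p1) p2)) (N * ε) with h | h
      · rw [min_eq_left h] at h3
        have h6 := min_le_left (mdist s (endConf (endConf c p1) p2)) ((N + 1 : ℕ) * ε)
        have h5 := pathCost_nonneg p1 c
        linarith
      · rw [min_eq_right h] at h3
        have h6 := min_le_right (mdist s (endConf (endConf c p1) p2)) ((N + 1 : ℕ) * ε)
        refine h6.trans ?_
        push_cast
        rw [add_mul]
        linarith

end Crest.Agent.R314
private theorem rz_68965ee270 : type_of% @_root_.Crest.Agent.R314.cycN.eq_def := @_root_.Crest.Agent.R314.cycN.eq_def -- L183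
private theorem rz_3dec4b7017 : type_of% @_root_.Crest.Agent.R314.cycN.eq_1 := @_root_.Crest.Agent.R314.cycN.eq_1 -- L183
end

-- ▼ part R314/Frame5

/-!
R314, block F5: `BayesOn` and the removal of the additive constant (factor 2).
-/

set_option autoImplicit false

namespace Crest.Agent.R314

open Crest.LogicCS.KServer

variable {X : Type*} [MetricSpace X] {k : ℕ}

/-- Bayes property with ratio `R` and a horizon-independent additive constant `B`, for requests
in the finite set `F`: for every finitely supported law on comparator paths there is a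
deterministic online policy (`dcost`) whose expected cost is at most
`R * (expected comparator cost) + B`. -/
def BayesOn (s : Fin k → X) (R B : ℝ) (F : Finset X) : Prop :=
  ∀ (ι : Type) [Fintype ι] (p : ι → ℝ) (q : ι → List (X × Fin k)),
    (∀ i, 0 ≤ p i) → ∑ i, p i = 1 → (∀ i, ∀ a ∈ q i, a.1 ∈ F) →
      ∃ d : DPol X k, ∑ i, p i * dcost d s ((q i).map Prod.fst) ≤
        R * ∑ i, p i * pathCost s (q i) + B

/-- the expected cost has a minimiser over the deterministic policies -/
theorem exists_min_policy [NeZero k] {ι : Type} [Fintype ι] (p : ι → ℝ) (σ : ι → List X)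
    (s : Fin k → X) : ∃ d : DPol X k, ∀ d' : DPol X k,
      ∑ i, p i * dcost d s (σ i) ≤ ∑ i, p i * dcost d' s (σ i) := by
  classical
  let f : DPol X k → ℝ := fun d => ∑ i, p i * dcost d s (σ i)
  have hfin : (Set.range f).Finite := by
    let g : (ι → List (Fin k)) → ℝ := fun c => ∑ i, p i * pathCost s ((σ i).zip (c i))
    have h1 : {c : ι → List (Fin k) | ∀ i, c i ∈
        {l : List (Fin k) | l.length = (σ i).length}}.Finite :=
      Set.Finite.pi' fun i => List.finite_length_eq (Fin k) (σ i).length
    refine (h1.image g).subset ?_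
    rintro _ ⟨d, rfl⟩
    refine ⟨fun i => choices d [] (σ i), fun i => by simp, ?_⟩
    simp only [g, f, dcost, zip_choices]
  have hne : (Set.range f).Nonempty := ⟨f fun _ => 0, ⟨_, rfl⟩⟩
  obtain ⟨x, hx, hmin⟩ := hfin.exists_minimal hne
  obtain ⟨d, rfl⟩ := hx
  refine ⟨d, fun d' => ?_⟩
  by_contra h
  push Not at h
  have := hmin ⟨d', rfl⟩ h.le
  exact absurd (lt_of_lt_of_le h this) (lt_irrefl _)

theorem cost_ge_sub_mdist {ι : Type} [Fintype ι] (p : ι → ℝ) (hp : ∀ i, 0 ≤ p i)
    (hp1 : ∑ i, p i = 1) (σ : ι → List X) (s : Fin k → X) (v : ℝ)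
    (hv : ∀ d : DPol X k, v ≤ ∑ i, p i * dcost d s (σ i)) (c : Fin k → X) (d : DPol X k) :
    v - mdist s c ≤ ∑ i, p i * pathCost c (run d [] (σ i)) := by
  obtain ⟨π, hπ⟩ := exists_mdist s c
  have h1 := hv fun l => π.symm (d l)
  have h2 : ∀ i, dcost (fun l => π.symm (d l)) s (σ i) ≤
      pathCost c (run d [] (σ i)) + mdist s c := by
    intro i
    unfold dcost
    rw [run_perm, hπ]
    refine (pathCost_le_start _ s (c ∘ π)).trans ?_
    rw [pathCost_perm]
  have h3 : ∑ i, p i * dcost (fun l => π.symm (d l)) s (σ i) ≤
      ∑ i, (p i * pathCost c (run d [] (σ i)) + p i * mdist s c) := by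
    refine Finset.sum_le_sum fun i _ => ?_
    rw [← mul_add]
    exact mul_le_mul_of_nonneg_left (h2 i) (hp i)
  rw [Finset.sum_add_distrib, ← Finset.sum_mul, hp1, one_mul] at h3
  linarith

theorem run_map_fst_mem {F : Finset X} (d : DPol X k) (pre σ : List X) (h : ∀ x ∈ σ, x ∈ F) :
    ∀ a ∈ run d pre σ, a.1 ∈ F := by
  intro a ha
  apply h
  rw [← run_map_fst d pre σ]
  exact List.mem_map_of_mem ha

/-- the `M`-fold repetition of the game -/
theorem amplify {ι : Type} [Fintype ι] (p : ι → ℝ) (hp : ∀ i, 0 ≤ p i) (hp1 : ∑ i, p i = 1)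
    (q : ι → List (X × Fin k)) {F : Finset X} (hq : ∀ i, ∀ a ∈ q i, a.1 ∈ F) {s : Fin k → X}
    (hs : Function.Injective s) (hsF : InF F s) (v : ℝ)
    (hv : ∀ d : DPol X k, v ≤ ∑ i, p i * dcost d s ((q i).map Prod.fst)) (M : ℕ) :
    ∃ (κ : Type) (_ : Fintype κ) (P : κ → ℝ) (Q : κ → List (X × Fin k)),
      (∀ i, 0 ≤ P i) ∧ ∑ i, P i = 1 ∧ (∀ i, ∀ a ∈ Q i, a.1 ∈ F) ∧
      (∑ i, P i * pathCost s (Q i) ≤ 2 * M * ∑ i, p i * pathCost s (q i)) ∧
      ∀ (d : DPol X k) (c : Fin k → X), InF F c →
        M * v - mdist s c ≤ ∑ i, P i * pathCost c (run d [] ((Q i).map Prod.fst)) := by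
  obtain ⟨ε, hε0, hε⟩ := exists_min_dist F
  obtain ⟨Δ, hΔ0, hΔ⟩ := exists_max_dist F
  obtain ⟨N, hN⟩ : ∃ N : ℕ, (k : ℝ) * Δ ≤ (N + 1 : ℕ) * ε := by
    obtain ⟨N, hN⟩ := exists_nat_ge ((k : ℝ) * Δ / ε)
    refine ⟨N, ?_⟩
    rw [div_le_iff₀ hε0] at hN
    push_cast
    nlinarith
  have hmd : ∀ c : Fin k → X, InF F c → mdist s c ≤ (N + 1 : ℕ) * ε := by
    intro c hc
    refine le_trans ?_ hN
    have h1 := mdist_le s c 1
    refine h1.trans ?_
    unfold cdist
    refine (Finset.sum_le_sum (g := fun _ => Δ) fun i _ => hΔ _ (hsF i) _ (hc _)).trans ?_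
    simp
  induction M with
  | zero =>
    refine ⟨Unit, inferInstance, fun _ => 1, fun _ => [], by simp, by simp, by simp, by simp, ?_⟩
    intro d c _
    simpa using mdist_nonneg s c
  | succ M ih =>
    obtain ⟨κ, inst, P, Q, hP0, hP1, hQF, hQc, hQd⟩ := ih
    refine ⟨ι × κ, inferInstance, fun x => p x.1 * P x.2,
      fun x => (q x.1 ++ cycN s (N + 1)) ++ Q x.2, ?_, ?_, ?_, ?_, ?_⟩
    · intro x
      exact mul_nonneg (hp _) (hP0 _)
    · rw [Fintype.sum_prod_type]
      simp [← Finset.mul_sum, hP1, hp1]
    · rintro ⟨i, j⟩ a ha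
      simp only [List.mem_append] at ha
      rcases ha with (ha | ha) | ha
      · exact hq i a ha
      · rw [mem_cycN s _ a ha]; exact hsF _
      · exact hQF j a ha
    · have h1 : ∀ x : ι × κ, p x.1 * P x.2 * pathCost s ((q x.1 ++ cycN s (N + 1)) ++ Q x.2) ≤
          P x.2 * (2 * (p x.1 * pathCost s (q x.1))) + p x.1 * (P x.2 * pathCost s (Q x.2)) := by
        intro x
        rw [pathCost_append, endConf_append, endConf_cycN_succ, pathCost_append]
        have h2 := pathCost_cycN_le s (endConf s (q x.1)) (N + 1)
        have h3 := cdist_endConf_le (q x.1) s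
        rw [cdist_comm] at h3
        have h4 : 0 ≤ p x.1 * P x.2 := mul_nonneg (hp _) (hP0 _)
        nlinarith
      refine (Finset.sum_le_sum fun x _ => h1 x).trans ?_
      rw [Finset.sum_add_distrib, Fintype.sum_prod_type, Fintype.sum_prod_type]
      simp only [← Finset.mul_sum, ← Finset.sum_mul, hP1, hp1, one_mul]
      push_cast
      linarith
    · intro d c hc
      rw [Fintype.sum_prod_type]
      -- block of the first round
      let blk : ι → List X := fun i => (q i ++ cycN s (N + 1)).map Prod.fst
      let c' : ι → (Fin k → X) := fun i => endConf c (run d [] (blk i))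
      have hblkF : ∀ i, ∀ x ∈ blk i, x ∈ F := by
        intro i x hx
        obtain ⟨a, ha, rfl⟩ := List.mem_map.1 hx
        rcases List.mem_append.1 ha with ha | ha
        · exact hq i a ha
        · rw [mem_cycN s _ a ha]; exact hsF _
      have hc' : ∀ i, InF F (c' i) := fun i =>
        hc.endConf _ (run_map_fst_mem d [] (blk i) (hblkF i))
      have hsum : ∀ i, p i * (pathCost c (run d [] (blk i)) + (M * v - mdist s (c' i))) ≤
          ∑ j, p i * P j * pathCost c (run d [] (((q i ++ cycN s (N + 1)) ++ Q j).map Prod.fst)) := by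
        intro i
        have h1 := hQd (shift d (blk i)) (c' i) (hc' i)
        have h2 : ∀ j, p i * P j *
            pathCost c (run d [] (((q i ++ cycN s (N + 1)) ++ Q j).map Prod.fst)) =
            p i * (P j * pathCost c (run d [] (blk i))) +
            p i * (P j * pathCost (c' i) (run (shift d (blk i)) [] ((Q j).map Prod.fst))) := by
          intro j
          rw [List.map_append (f := Prod.fst) (l₁ := q i ++ cycN s (N + 1)), run_append,
            pathCost_append, run_shift]
          simp only [List.append_nil, List.nil_append]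
          change p i * P j * (pathCost c (run d [] (blk i)) +
            pathCost (c' i) (run d (blk i) ((Q j).map Prod.fst))) = _
          ring
        simp only [h2]
        rw [Finset.sum_add_distrib, ← Finset.mul_sum, ← Finset.mul_sum, ← Finset.sum_mul, hP1,
          one_mul, ← mul_add]
        exact mul_le_mul_of_nonneg_left (by linarith) (hp i)
      refine le_trans ?_ (Finset.sum_le_sum fun i _ => hsum i)
      -- one block
      have hblock : ∀ i, p i * pathCost c (run d [] ((q i).map Prod.fst)) + p i * (M * v) ≤
          p i * (pathCost c (run d [] (blk i)) + (M * v - mdist s (c' i))) := by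
        intro i
        rw [← mul_add]
        refine mul_le_mul_of_nonneg_left ?_ (hp i)
        have e1 : run d [] (blk i) = run d [] ((q i).map Prod.fst) ++
            run d ((q i).map Prod.fst) ((cycN s (N + 1)).map Prod.fst) := by
          simp only [blk, List.map_append, run_append, List.nil_append]
        have h0 : InF F (endConf c (run d [] ((q i).map Prod.fst))) :=
          hc.endConf _ (run_map_fst_mem d [] _ (by
            intro x hx
            obtain ⟨a, ha, rfl⟩ := List.mem_map.1 hx
            exact hq i a ha))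
        have h1 := phase hε0.le hε hs hsF (N + 1) (endConf c (run d [] ((q i).map Prod.fst)))
          (run d ((q i).map Prod.fst) ((cycN s (N + 1)).map Prod.fst)) h0 (by simp)
        have e2 : c' i = endConf (endConf c (run d [] ((q i).map Prod.fst)))
          (run d ((q i).map Prod.fst) ((cycN s (N + 1)).map Prod.fst)) := by
          simp only [c', e1, endConf_append]
        rw [← e2, min_eq_left (hmd _ (hc' i))] at h1
        rw [e1, pathCost_append]
        linarith
      refine le_trans ?_ (Finset.sum_le_sum fun i _ => hblock i)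
      rw [Finset.sum_add_distrib, ← Finset.sum_mul, hp1, one_mul]
      have := cost_ge_sub_mdist p hp hp1 (fun i => (q i).map Prod.fst) s v hv c d
      push_cast
      linarith

/-- **Removal of the additive constant** at the price of a factor 2. -/
theorem BayesOn.double [NeZero k] {s : Fin k → X} (hs : Function.Injective s) {F : Finset X}
    (hsF : InF F s) {R B : ℝ} (hR : 0 ≤ R) (h : BayesOn s R B F) : BayesOn s (2 * R) 0 F := by
  intro ι inst p q hp hp1 hq
  by_contra hcon
  push Not at hcon
  obtain ⟨d0, hd0⟩ := exists_min_policy p (fun i => (q i).map Prod.fst) s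
  set v := ∑ i, p i * dcost d0 s ((q i).map Prod.fst) with hv
  set P0 := ∑ i, p i * pathCost s (q i) with hP0
  have hgap : 2 * R * P0 < v := by
    have := hcon d0
    simpa using this
  obtain ⟨M, hM⟩ := exists_nat_gt (B / (v - 2 * R * P0))
  have hgap' : 0 < v - 2 * R * P0 := by linarith
  rw [div_lt_iff₀ hgap'] at hM
  obtain ⟨κ, inst', P, Q, hP0', hP1', hQF, hQc, hQd⟩ := amplify p hp hp1 q hq hs hsF v hd0 M
  obtain ⟨d, hd⟩ := h κ P Q hP0' hP1' hQF
  have h1 := hQd d s hsF
  rw [mdist_self] at h1
  have h2 : R * ∑ i, P i * pathCost s (Q i) ≤ R * (2 * M * P0) :=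
    mul_le_mul_of_nonneg_left hQc hR
  unfold dcost at hd
  nlinarith

end Crest.Agent.R314
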