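import Mathlib
import Crest.Agent.R314.Frame5

-- ▼ part R314/Tok1
section

/-!
R314, Theorem A, part 1: work functions in the token model.

Tokens: `Sum.inl i` are the `k` initial tokens, `Sum.inr t` is the token created by request number `t`.
`m t a` is the price of moving a server from token `a` to the new token `inr t` at step `t`.
`UR m t x c`: the (labelled) configuration `x` can be reached after `t` steps at total price `c`,
up to relabelling of the servers.
-/

set_option autoImplicit false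

namespace Crest.Agent.R314.Tk

open Function

/-- Tokens. -/
abbrev Tok (k : ℕ) := Fin k ⊕ ℕ

variable {k : ℕ}

/-- Reachability (up to relabelling) with total price. -/
inductive UR (m : ℕ → Tok k → ℝ) : ℕ → (Fin k → Tok k) → ℝ → Prop
  | zero (σ : Equiv.Perm (Fin k)) : UR m 0 (fun i => Sum.inl (σ i)) 0
  | step {t : ℕ} {x : Fin k → Tok k} {c : ℝ} (i : Fin k) :
      UR m t x c → UR m (t + 1) (update x i (Sum.inr t)) (c + m t (x i))

theorem UR.perm {m : ℕ → Tok k → ℝ} {t : ℕ} {x : Fin k → Tok k} {c : ℝ} (h : UR m t x c)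
    (σ : Equiv.Perm (Fin k)) : UR m t (fun i => x (σ i)) c := by
  induction h generalizing σ with
  | zero τ => exact UR.zero (σ.trans τ)
  | @step t x c i hx ih =>
    have h1 := UR.step (σ.symm i) (ih σ)
    have h2 : update (fun j => x (σ j)) (σ.symm i) (Sum.inr t) =
        fun j => update x i (Sum.inr t : Tok k) (σ j) := by
      funext j
      by_cases hj : σ j = i
      · have : j = σ.symm i := by rw [← hj]; simp
        rw [this]; simp
      · have : j ≠ σ.symm i := by
          rintro rfl; exact hj (by simp)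
        rw [update_of_ne this, update_of_ne hj]
    have h3 : c + m t (x (σ (σ.symm i))) = c + m t (x i) := by simp
    simp only [Equiv.apply_symm_apply] at h1
    rw [h2] at h1
    exact h1

theorem UR.start {m : ℕ → Tok k → ℝ} : UR m 0 Sum.inl 0 := UR.zero (Equiv.refl _)

/-- Inversion at time `0`. -/
theorem UR.zero_inv {m : ℕ → Tok k → ℝ} {x : Fin k → Tok k} {c : ℝ} (h : UR m 0 x c) :
    (∃ σ : Equiv.Perm (Fin k), x = fun i => Sum.inl (σ i)) ∧ c = 0 := by
  cases h with
  | zero σ => exact ⟨⟨σ, rfl⟩, rfl⟩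

/-- Inversion at a positive time. -/
theorem UR.succ_inv {m : ℕ → Tok k → ℝ} {t : ℕ} {x : Fin k → Tok k} {c : ℝ}
    (h : UR m (t + 1) x c) :
    ∃ (y : Fin k → Tok k) (d : ℝ) (i : Fin k), UR m t y d ∧ x = update y i (Sum.inr t) ∧
      c = d + m t (y i) := by
  cases h with
  | step i hy => exact ⟨_, _, i, hy, rfl, rfl⟩

/-- The strong exchange property (Koutsoupias-Papadimitriou quasi-convexity). -/
theorem UR.exchange (m : ℕ → Tok k → ℝ) (t : ℕ) :
    ∀ (x y : Fin k → Tok k) (c d : ℝ), UR m t x c → UR m t y d →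
      ∃ σ : Equiv.Perm (Fin k), ∀ P : Finset (Fin k), ∃ c' d' : ℝ,
        UR m t (fun l => if l ∈ P then x l else y (σ l)) c' ∧
        UR m t (fun l => if l ∈ P then y (σ l) else x l) d' ∧ c' + d' ≤ c + d := by
  induction t with
  | zero =>
    intro x y c d hx hy
    obtain ⟨⟨σ, rfl⟩, rfl⟩ := hx.zero_inv
    obtain ⟨⟨τ, rfl⟩, rfl⟩ := hy.zero_inv
    refine ⟨σ.trans τ.symm, fun P => ⟨0, 0, ?_, ?_, le_rfl⟩⟩
    · convert UR.zero (m := m) σ using 2 with l
      simp
    · convert UR.zero (m := m) σ using 2 with l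
      simp
  | succ t ih =>
    intro x y c d hx hy
    obtain ⟨x0, c0, i, hx0, rfl, rfl⟩ := hx.succ_inv
    obtain ⟨y1, d0, j1, hy1, rfl, rfl⟩ := hy.succ_inv
    obtain ⟨σ, hσ⟩ := ih x0 y1 c0 d0 hx0 hy1
    -- relabel `y`
    set y0 : Fin k → Tok k := fun l => y1 (σ l) with hy0
    set j : Fin k := σ.symm j1 with hj
    have hσj : σ j = j1 := by simp [hj]
    have hyj : ∀ l, update y1 j1 (Sum.inr t : Tok k) (σ l) = update y0 j (Sum.inr t) l := by
      intro l
      by_cases hl : l = j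
      · rw [hl, hσj]; simp
      · have : σ l ≠ j1 := by
          intro h; exact hl (σ.injective (by rw [h, hσj]))
        rw [update_of_ne this, update_of_ne hl]
    have hmj : y1 j1 = y0 j := by rw [hy0]; simp only; rw [hσj]
    rw [hmj]
    by_cases hij : i = j
    · -- aligned case
      refine ⟨σ, fun P => ?_⟩
      simp only [hyj]
      obtain ⟨c', d', h1, h2, h3⟩ := hσ P
      have e1 : (fun l => if l ∈ P then update x0 i (Sum.inr t : Tok k) l
          else update y0 j (Sum.inr t) l) =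
          update (fun l => if l ∈ P then x0 l else y0 l) i (Sum.inr t) := by
        funext l
        by_cases hl : l = i
        · subst hl; simp [← hij]
        · rw [update_of_ne hl, update_of_ne hl, update_of_ne (hij ▸ hl)]
      have e2 : (fun l => if l ∈ P then update y0 j (Sum.inr t : Tok k) l
          else update x0 i (Sum.inr t) l) =
          update (fun l => if l ∈ P then y0 l else x0 l) i (Sum.inr t) := by
        funext l
        by_cases hl : l = i
        · subst hl; simp [← hij]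
        · rw [update_of_ne hl, update_of_ne hl, update_of_ne (hij ▸ hl)]
      rw [e1, e2]
      refine ⟨_, _, UR.step i h1, UR.step i h2, ?_⟩
      rw [← hij]
      by_cases hP : i ∈ P
      · simp only [hP, if_true]; linarith
      · simp only [hP, if_false]; linarith
    · -- crossed case
      refine ⟨(Equiv.swap i j).trans σ, fun P => ?_⟩
      have hyl : ∀ l, update y1 j1 (Sum.inr t : Tok k) (((Equiv.swap i j).trans σ) l) =
          update y0 j (Sum.inr t) (Equiv.swap i j l) := fun l => hyj _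
      simp only [hyl]
      by_cases hP : j ∈ P
      · obtain ⟨c', d', h1, h2, h3⟩ := hσ (insert i P)
        have g1 := UR.step i h1
        have g2 := (UR.step j h2).perm (Equiv.swap i j)
        refine ⟨c' + m t (x0 i), d' + m t (y0 j), ?_, ?_, ?_⟩
        · convert g1 using 1
          · funext l
            by_cases hl : l = i
            · subst hl
              simp
            · rw [update_of_ne hl, update_of_ne hl]
              by_cases hl' : l = j
              · subst hl'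
                simp [hP]
              · rw [Equiv.swap_apply_of_ne_of_ne hl hl', update_of_ne hl']
                simp [hl, hy0]
          · simp
        · convert g2 using 1
          · funext l
            by_cases hl : l = i
            · subst hl
              simp
            · by_cases hl' : l = j
              · subst hl'
                simp [hP, update_of_ne hij, hy0]
              · rw [Equiv.swap_apply_of_ne_of_ne hl hl', update_of_ne hl', update_of_ne hl,
                  update_of_ne hl']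
                simp [hl, hy0]
          · simp [hP, hy0]
        · linarith
      · obtain ⟨c', d', h1, h2, h3⟩ := hσ (P.erase i)
        have g1 := (UR.step j h1).perm (Equiv.swap i j)
        have g2 := UR.step i h2
        refine ⟨c' + m t (y0 j), d' + m t (x0 i), ?_, ?_, ?_⟩
        · convert g1 using 1
          · funext l
            by_cases hl : l = i
            · subst hl
              simp
            · by_cases hl' : l = j
              · subst hl'
                simp [hP, update_of_ne hij, hy0]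
              · rw [Equiv.swap_apply_of_ne_of_ne hl hl', update_of_ne hl', update_of_ne hl,
                  update_of_ne hl']
                simp [hl, hy0]
          · simp [hP, hy0]
        · convert g2 using 1
          · funext l
            by_cases hl : l = i
            · subst hl
              simp
            · rw [update_of_ne hl, update_of_ne hl]
              by_cases hl' : l = j
              · subst hl'
                simp [hP]
              · rw [Equiv.swap_apply_of_ne_of_ne hl hl', update_of_ne hl']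
                simp [hl, hy0]
          · simp
        · linarith

/-- Finitely many reachable pairs. -/
theorem UR.finite (m : ℕ → Tok k → ℝ) (t : ℕ) :
    {q : (Fin k → Tok k) × ℝ | UR m t q.1 q.2}.Finite := by
  induction t with
  | zero =>
    refine (Set.finite_range fun σ : Equiv.Perm (Fin k) =>
      ((fun i => Sum.inl (σ i) : Fin k → Tok k), (0 : ℝ))).subset ?_
    rintro ⟨x, c⟩ h
    obtain ⟨⟨σ, hσ⟩, hc⟩ := UR.zero_inv h
    exact ⟨σ, by simp only at hσ hc; simp [hσ, hc]⟩
  | succ t ih =>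
    refine ((ih.prod (Set.finite_univ (α := Fin k))).image fun q =>
      (update q.1.1 q.2 (Sum.inr t : Tok k), q.1.2 + m t (q.1.1 q.2))).subset ?_
    rintro ⟨x, c⟩ h
    obtain ⟨y, d, i, hy, hx, hc⟩ := UR.succ_inv h
    exact ⟨((y, d), i), ⟨hy, Set.mem_univ _⟩, by simp only at hx hc; simp [hx, hc]⟩

/-- The minimal total price after `t` steps. -/
noncomputable def G (m : ℕ → Tok k → ℝ) (t : ℕ) : ℝ := sInf {c : ℝ | ∃ x, UR m t x c}

theorem UR.exists_some [NeZero k] (m : ℕ → Tok k → ℝ) (t : ℕ) : ∃ x c, UR m t x c := by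
  induction t with
  | zero => exact ⟨_, _, UR.start⟩
  | succ t ih =>
    obtain ⟨x, c, h⟩ := ih
    exact ⟨_, _, UR.step 0 h⟩

theorem finite_costs (m : ℕ → Tok k → ℝ) (t : ℕ) : {c : ℝ | ∃ x, UR m t x c}.Finite := by
  refine ((UR.finite m t).image Prod.snd).subset ?_
  rintro c ⟨x, h⟩
  exact ⟨(x, c), h, rfl⟩

theorem G_le {m : ℕ → Tok k → ℝ} {t : ℕ} {x : Fin k → Tok k} {c : ℝ} (h : UR m t x c) :
    G m t ≤ c :=
  csInf_le (finite_costs m t).bddBelow ⟨x, h⟩

theorem exists_opt [NeZero k] (m : ℕ → Tok k → ℝ) (t : ℕ) : ∃ x, UR m t x (G m t) := by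
  have hne : {c : ℝ | ∃ x, UR m t x c}.Nonempty := by
    obtain ⟨x, c, h⟩ := UR.exists_some m t
    exact ⟨c, x, h⟩
  exact hne.csInf_mem (finite_costs m t)

theorem G_zero (m : ℕ → Tok k → ℝ) : G m 0 = 0 := by
  have : {c : ℝ | ∃ x, UR m 0 x c} = {0} := by
    ext c
    constructor
    · rintro ⟨x, h⟩; exact h.zero_inv.2
    · rintro rfl; exact ⟨_, UR.start⟩
  rw [G, this, csInf_singleton]

/-- One lazy move suffices. -/
theorem opt_step [NeZero k] {m : ℕ → Tok k → ℝ} {t : ℕ} {x : Fin k → Tok k}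
    (hx : UR m t x (G m t)) :
    ∃ i, UR m (t + 1) (update x i (Sum.inr t)) (G m (t + 1)) := by
  obtain ⟨z, hz⟩ := exists_opt m (t + 1)
  obtain ⟨y, d, j, hy, hzy, hG⟩ := hz.succ_inv
  obtain ⟨σ, hσ⟩ := UR.exchange m t x y _ _ hx hy
  set i : Fin k := σ.symm j with hi
  have hσi : σ i = j := by simp [hi]
  obtain ⟨c', d', h1, h2, h3⟩ := hσ {i}
  have h4 : G m t ≤ c' := G_le h1
  have h5 : d' ≤ d := by linarith
  have h6 := UR.step i h2
  have e : update (fun l => if l ∈ ({i} : Finset (Fin k)) then y (σ l) else x l) i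
      (Sum.inr t : Tok k) = update x i (Sum.inr t) := by
    funext l
    by_cases hl : l = i
    · subst hl; simp
    · rw [update_of_ne hl, update_of_ne hl]; simp [hl]
  rw [e] at h6
  simp only [Finset.mem_singleton, if_true, hσi] at h6
  have h7 : d' + m t (y j) = G m (t + 1) := by
    apply le_antisymm
    · rw [hG]; linarith
    · exact G_le h6
  rw [h7] at h6
  exact ⟨i, h6⟩

theorem G_mono_step [NeZero k] {m : ℕ → Tok k → ℝ} {t : ℕ} (hm : ∀ a, 0 ≤ m t a) :
    G m t ≤ G m (t + 1) := by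
  obtain ⟨z, hz⟩ := exists_opt m (t + 1)
  obtain ⟨y, d, j, hy, hzy, hG⟩ := hz.succ_inv
  rw [hG]
  have := G_le hy
  have := hm (y j)
  linarith

/-- The price of a (comparator) path: servers `j 0, j 1, ...` used at steps `0, 1, ...`. -/
def cpos (j : ℕ → Fin k) : ℕ → Fin k → Tok k
  | 0 => Sum.inl
  | t + 1 => update (cpos j t) (j t) (Sum.inr t)

theorem UR.cpos (m : ℕ → Tok k → ℝ) (j : ℕ → Fin k) (t : ℕ) :
    UR m t (cpos j t) (∑ s ∈ Finset.range t, m s (Tk.cpos j s (j s))) := by
  induction t with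
  | zero => exact UR.start
  | succ t ih =>
    rw [Finset.sum_range_succ]
    exact UR.step (j t) ih

theorem G_le_path (m : ℕ → Tok k → ℝ) (j : ℕ → Fin k) (t : ℕ) :
    G m t ≤ ∑ s ∈ Finset.range t, m s (cpos j s (j s)) :=
  G_le (UR.cpos m j t)

/-- The follow-the-leader algorithm. -/
noncomputable def pos [NeZero k] (m : ℕ → Tok k → ℝ) : ℕ → Fin k → Tok k
  | 0 => Sum.inl
  | t + 1 => open Classical in
      update (pos m t)
        (if h : ∃ i, UR m (t + 1) (update (pos m t) i (Sum.inr t)) (G m (t + 1)) then h.choose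
          else 0) (Sum.inr t)

/-- The server used by the algorithm. -/
noncomputable def srv [NeZero k] (m : ℕ → Tok k → ℝ) (t : ℕ) : Fin k :=
  open Classical in
  if h : ∃ i, UR m (t + 1) (update (pos m t) i (Sum.inr t)) (G m (t + 1)) then h.choose else 0

theorem pos_succ [NeZero k] (m : ℕ → Tok k → ℝ) (t : ℕ) :
    pos m (t + 1) = update (pos m t) (srv m t) (Sum.inr t) := rfl

theorem pos_opt [NeZero k] (m : ℕ → Tok k → ℝ) (t : ℕ) : UR m t (pos m t) (G m t) := by
  induction t with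
  | zero => rw [G_zero]; exact UR.start
  | succ t ih =>
    have h := opt_step ih
    rw [pos_succ, srv, dif_pos h]
    exact h.choose_spec

theorem pos_eq_cpos [NeZero k] (m : ℕ → Tok k → ℝ) (t : ℕ) : pos m t = cpos (srv m) t := by
  induction t with
  | zero => rfl
  | succ t ih => rw [pos_succ, ih]; rfl

/-- Reachability only depends on the past prices. -/
theorem UR.congr {m m' : ℕ → Tok k → ℝ} {t : ℕ} {x : Fin k → Tok k} {c : ℝ} (h : UR m t x c)
    (hm : ∀ s < t, m s = m' s) : UR m' t x c := by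
  induction h with
  | zero σ => exact UR.zero σ
  | @step t x c i hx ih =>
    rw [hm t (Nat.lt_succ_self t)]
    exact UR.step i (ih fun s hs => hm s (hs.trans (Nat.lt_succ_self t)))





end Crest.Agent.R314.Tk
private theorem rz_5a64e63533 : type_of% @_root_.Crest.Agent.R314.Tk.cpos.eq_def := @_root_.Crest.Agent.R314.Tk.cpos.eq_def -- L277
private theorem rz_59971013c2 : type_of% @_root_.Crest.Agent.R314.Tk.cpos.eq_1 := @_root_.Crest.Agent.R314.Tk.cpos.eq_1 -- L277
private theorem rz_9aeb893d4b : type_of% @_root_.Crest.Agent.R314.Tk.pos.eq_def := @_root_.Crest.Agent.R314.Tk.pos.eq_def -- L294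
private theorem rz_f107b85add : type_of% @_root_.Crest.Agent.R314.Tk.pos.eq_1 := @_root_.Crest.Agent.R314.Tk.pos.eq_1 -- L294
end

-- ▼ part R314/Tok2
section

/-!
R314, Theorem A, part 2: the discrete noise law on the grid `0, 1, ..., K-1` (in units `h/K`):
truncated geometric with ratio `exp (-η/K)` and total weight `1 - exp (-η/2)`, plus uniform with
total weight `exp (-η/2)`.
-/

set_option autoImplicit false

namespace Crest.Agent.R314.Tk

open Finset

/-- The coefficient of the geometric part. -/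
noncomputable def alph (η : ℝ) (K : ℕ) : ℝ :=
  (1 - Real.exp (-η / 2)) * (1 - Real.exp (-η / K)) / (1 - Real.exp (-η))

/-- The noise law. -/
noncomputable def prb (η : ℝ) (K : ℕ) (j : ℕ) : ℝ :=
  alph η K * Real.exp (-η / K) ^ j + Real.exp (-η / 2) / K

theorem exp_half_le {η : ℝ} (hη : 8 ≤ η) : 2 * Real.exp 1 * η * Real.exp (-η / 2) ≤ 1 := by
  -- exp (η/2 - 1) ≥ 2 η
  have h1 : Real.exp 3 * (η / 2 - 3) ≤ Real.exp (η / 2 - 1) := by
    have : Real.exp (η / 2 - 1) = Real.exp 3 * Real.exp (η / 2 - 4) := by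
      rw [← Real.exp_add]; congr 1; ring
    rw [this]
    have h := Real.add_one_le_exp (η / 2 - 4)
    have h3 : 0 < Real.exp 3 := Real.exp_pos 3
    nlinarith
  have h2 : (20 : ℝ) ≤ Real.exp 3 := by
    have : Real.exp 3 = Real.exp 1 ^ 3 := by
      rw [← Real.exp_nat_mul]; norm_num
    rw [this]
    have h := Real.exp_one_gt_d9
    have h' : (2.718 : ℝ) ≤ Real.exp 1 := by linarith
    calc (20 : ℝ) ≤ 2.718 ^ 3 := by norm_num
      _ ≤ Real.exp 1 ^ 3 := by gcongr
  have h3 : 2 * η ≤ Real.exp (η / 2 - 1) := by nlinarith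
  have h4 : Real.exp 1 * Real.exp (-η / 2) * Real.exp (η / 2 - 1) = 1 := by
    rw [← Real.exp_add, ← Real.exp_add]
    convert Real.exp_zero using 2; ring
  have h5 : 0 < Real.exp 1 * Real.exp (-η / 2) := by positivity
  calc 2 * Real.exp 1 * η * Real.exp (-η / 2) = (Real.exp 1 * Real.exp (-η / 2)) * (2 * η) := by ring
    _ ≤ (Real.exp 1 * Real.exp (-η / 2)) * Real.exp (η / 2 - 1) := by gcongr
    _ = 1 := h4

theorem exp_half_le' {η : ℝ} (hη : 8 ≤ η) : Real.exp (-η / 2) ≤ 1 / 32 := by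
  have h := exp_half_le hη
  have h1 : (2 : ℝ) ≤ Real.exp 1 := by
    have := Real.add_one_le_exp (1 : ℝ); linarith
  have h2 : 0 < Real.exp (-η / 2) := Real.exp_pos _
  have h3 : 4 * 8 ≤ 2 * Real.exp 1 * η := by nlinarith
  have h4 : 4 * 8 * Real.exp (-η / 2) ≤ 2 * Real.exp 1 * η * Real.exp (-η / 2) := by gcongr
  linarith

theorem exp_neg_le_half {η : ℝ} (hη : 8 ≤ η) : Real.exp (-η) ≤ 1 / 2 := by
  have h := exp_half_le' hη
  have : Real.exp (-η) = Real.exp (-η / 2) * Real.exp (-η / 2) := by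
    rw [← Real.exp_add]; congr 1; ring
  rw [this]
  have h2 : 0 < Real.exp (-η / 2) := Real.exp_pos _
  nlinarith

section
variable {η : ℝ} {K : ℕ}

theorem alph_nonneg (hη : 8 ≤ η) (hK : 0 < K) : 0 ≤ alph η K := by
  have h1 := exp_half_le' hη
  have h2 := exp_neg_le_half hη
  have h3 : Real.exp (-η / K) ≤ 1 := Real.exp_le_one_iff.2 (by
    have : (0 : ℝ) < K := by exact_mod_cast hK
    rw [div_nonpos_iff]; right; constructor <;> linarith)
  unfold alph
  apply div_nonneg
  · apply mul_nonneg <;> linarith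
  · linarith

theorem alph_le (hη : 8 ≤ η) (hK : 0 < K) : alph η K ≤ 2 * (1 - Real.exp (-η / K)) := by
  have h0 : 0 < Real.exp (-η / 2) := Real.exp_pos _
  have h2 := exp_neg_le_half hη
  have h3 : Real.exp (-η / K) ≤ 1 := Real.exp_le_one_iff.2 (by
    have : (0 : ℝ) < K := by exact_mod_cast hK
    rw [div_nonpos_iff]; right; constructor <;> linarith)
  unfold alph
  rw [div_le_iff₀ (by linarith)]
  have : (1 - Real.exp (-η / 2)) * (1 - Real.exp (-η / K)) ≤ 1 * (1 - Real.exp (-η / K)) := by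
    apply mul_le_mul_of_nonneg_right <;> linarith
  nlinarith

theorem one_sub_exp_le (K : ℕ) (η : ℝ) : 1 - Real.exp (-η / K) ≤ η / K := by
  have := Real.add_one_le_exp (-η / K)
  have h : -η / K = -(η / K) := by ring
  rw [h] at this ⊢
  linarith

theorem prb_nonneg (hη : 8 ≤ η) (hK : 0 < K) (j : ℕ) : 0 ≤ prb η K j := by
  have := alph_nonneg hη hK
  unfold prb
  positivity

theorem prb_sum (hη : 8 ≤ η) (hK : 0 < K) : ∑ j ∈ range K, prb η K j = 1 := by
  have hK' : (0 : ℝ) < K := by exact_mod_cast hK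
  have hq : Real.exp (-η / K) ≠ 1 := by
    intro h
    rw [Real.exp_eq_one_iff] at h
    rw [div_eq_zero_iff] at h
    rcases h with h | h
    · linarith
    · linarith
  unfold prb
  rw [sum_add_distrib, ← mul_sum, geom_sum_eq hq, sum_const, card_range, nsmul_eq_mul]
  have hpow : Real.exp (-η / K) ^ K = Real.exp (-η) := by
    rw [← Real.exp_nat_mul]; congr 1; field_simp
  rw [hpow]
  have h2 := exp_neg_le_half hη
  have hd : 1 - Real.exp (-η) ≠ 0 := by
    have : 0 < 1 - Real.exp (-η) := by linarith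
    exact this.ne'
  have hq' : Real.exp (-η / K) - 1 ≠ 0 := sub_ne_zero.2 hq
  unfold alph
  generalize Real.exp (-η / K) = q at *
  generalize Real.exp (-η) = r at *
  generalize Real.exp (-η / 2) = b at *
  have hK'' : (K : ℝ) ≠ 0 := hK'.ne'
  have e1 : (K : ℝ) * (b / K) = b := by field_simp
  have e2 : (1 - b) * (1 - q) / (1 - r) * ((r - 1) / (q - 1)) = 1 - b := by
    have e3 : (1 - q) = -(q - 1) := by ring
    have e4 : (r - 1) = -(1 - r) := by ring
    rw [e3, e4]
    field_simp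
  rw [e1, e2]
  ring

theorem prb_anti (hη : 8 ≤ η) (hK : 0 < K) {i j : ℕ} (hij : i ≤ j) : prb η K j ≤ prb η K i := by
  have h0 := alph_nonneg hη hK
  have h3 : Real.exp (-η / K) ≤ 1 := Real.exp_le_one_iff.2 (by
    have : (0 : ℝ) < K := by exact_mod_cast hK
    rw [div_nonpos_iff]; right; constructor <;> linarith)
  unfold prb
  have := pow_le_pow_of_le_one (Real.exp_pos (-η / K)).le h3 hij
  gcongr

theorem prb_sub (hη : 8 ≤ η) (hK : 0 < K) (j : ℕ) :
    prb η K j - prb η K (j + 1) ≤ η / K * prb η K j := by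
  have h0 := alph_nonneg hη hK
  have h1 := one_sub_exp_le K η
  have hK' : (0 : ℝ) < K := by exact_mod_cast hK
  have h2 : prb η K j - prb η K (j + 1) =
      (1 - Real.exp (-η / K)) * (alph η K * Real.exp (-η / K) ^ j) := by
    unfold prb; rw [pow_succ]; ring
  rw [h2]
  have h3 : alph η K * Real.exp (-η / K) ^ j ≤ prb η K j := by
    unfold prb
    have : 0 ≤ Real.exp (-η / 2) / K := by positivity
    linarith
  have h4 : 0 ≤ alph η K * Real.exp (-η / K) ^ j := by positivity
  calc _ ≤ η / K * (alph η K * Real.exp (-η / K) ^ j) := by gcongr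
    _ ≤ _ := by
      have : 0 ≤ η / K := by positivity
      gcongr

theorem prb_ge (hη : 8 ≤ η) (hK : 0 < K) (j : ℕ) : Real.exp (-η / 2) / K ≤ prb η K j := by
  have h0 := alph_nonneg hη hK
  unfold prb
  have : 0 ≤ alph η K * Real.exp (-η / K) ^ j := by positivity
  linarith

theorem prb_last (hη : 8 ≤ η) (hK : 0 < K) (hK2 : η ≤ K) :
    K * prb η K (K - 1) ≤ 2 * Real.exp (-η / 2) := by
  have hK' : (0 : ℝ) < K := by exact_mod_cast hK
  unfold prb
  have h1 : Real.exp (-η / K) ^ (K - 1) ≤ Real.exp 1 * Real.exp (-η) := by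
    rw [← Real.exp_nat_mul, ← Real.exp_add, Nat.cast_sub hK, Nat.cast_one]
    apply Real.exp_le_exp.2
    have : (K - 1 : ℝ) * (-η / K) = -η + η / K := by field_simp; ring
    rw [this]
    have : η / K ≤ 1 := by rw [div_le_one hK']; exact hK2
    linarith
  have h2 := alph_le hη hK
  have h3 := one_sub_exp_le K η
  have h4 : alph η K ≤ 2 * (η / K) := by linarith
  have h5 := alph_nonneg hη hK
  have h6 : (K : ℝ) * (alph η K * Real.exp (-η / K) ^ (K - 1)) ≤
      2 * η * (Real.exp 1 * Real.exp (-η)) := by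
    calc (K : ℝ) * (alph η K * Real.exp (-η / K) ^ (K - 1)) ≤
        K * ((2 * (η / K)) * (Real.exp 1 * Real.exp (-η))) := by gcongr
      _ = _ := by field_simp
  have h7 : Real.exp (-η) = Real.exp (-η / 2) * Real.exp (-η / 2) := by
    rw [← Real.exp_add]; congr 1; ring
  have h8 : 2 * η * (Real.exp 1 * Real.exp (-η)) ≤ Real.exp (-η / 2) := by
    rw [h7]
    have h := exp_half_le hη
    have h9 : 0 < Real.exp (-η / 2) := Real.exp_pos _
    calc 2 * η * (Real.exp 1 * (Real.exp (-η / 2) * Real.exp (-η / 2))) =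
        (2 * Real.exp 1 * η * Real.exp (-η / 2)) * Real.exp (-η / 2) := by ring
      _ ≤ 1 * Real.exp (-η / 2) := by gcongr
      _ = _ := one_mul _
  calc (K : ℝ) * (alph η K * Real.exp (-η / K) ^ (K - 1) + Real.exp (-η / 2) / K) =
      K * (alph η K * Real.exp (-η / K) ^ (K - 1)) + Real.exp (-η / 2) := by field_simp
    _ ≤ _ := by linarith

theorem prb_zero_le (hη : 8 ≤ η) (hK : 0 < K) : prb η K 0 ≤ (2 * η + 1) / K := by
  have hK' : (0 : ℝ) < K := by exact_mod_cast hK
  have h2 := alph_le hη hK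
  have h3 := one_sub_exp_le K η
  have h5 := exp_half_le' hη
  unfold prb
  rw [pow_zero, mul_one]
  calc alph η K + Real.exp (-η / 2) / K ≤ 2 * (η / K) + 1 / K := by
        gcongr
        · linarith
        · linarith
    _ = _ := by ring

theorem sum_mul_geom (q : ℝ) (K : ℕ) :
    (∑ j ∈ range K, (j : ℝ) * q ^ j) * (1 - q) ^ 2 = q - K * q ^ K + (K - 1) * q ^ (K + 1) := by
  induction K with
  | zero => simp
  | succ K ih =>
    rw [sum_range_succ, add_mul, ih]
    push_cast
    ring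

theorem prb_mean (hη : 8 ≤ η) (hK : 0 < K) :
    ∑ j ∈ range K, prb η K j * (j / K) ≤ 3 / η := by
  have hK' : (0 : ℝ) < K := by exact_mod_cast hK
  have hη0 : 0 < η := by linarith
  have ha := alph_le hη hK
  have ha0 := alph_nonneg hη hK
  set q := Real.exp (-η / K) with hq
  have hq0 : 0 < q := Real.exp_pos _
  have hx : q * (1 + η / K) ≤ 1 := by
    have h := Real.add_one_le_exp (η / K)
    have h1 : q * Real.exp (η / K) = 1 := by
      rw [hq, ← Real.exp_add]; convert Real.exp_zero using 2; ring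
    calc q * (1 + η / K) ≤ q * Real.exp (η / K) := by
          apply mul_le_mul_of_nonneg_left _ hq0.le; linarith
      _ = 1 := h1
  have hx0 : 0 < η / K := by positivity
  have hq1 : 0 < 1 - q := by nlinarith
  have hs : ∑ j ∈ range K, (j : ℝ) * q ^ j ≤ q / (1 - q) ^ 2 := by
    rw [le_div_iff₀ (by positivity), sum_mul_geom]
    have h1 : q ^ (K + 1) ≤ q ^ K := pow_le_pow_of_le_one hq0.le (by linarith) (Nat.le_succ K)
    have h2 : 0 < q ^ (K + 1) := by positivity
    have h3 : (K - 1 : ℝ) * q ^ (K + 1) ≤ K * q ^ (K + 1) := by nlinarith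
    have h4 : (K : ℝ) * q ^ (K + 1) ≤ K * q ^ K := by gcongr
    linarith
  have hs2 : ∑ j ∈ range K, (j : ℝ) ≤ K ^ 2 / 2 := by
    have h : (∑ j ∈ range K, (j : ℝ)) * 2 = K * (K - 1) := by
      have := Finset.sum_range_id_mul_two K
      have h' : ((∑ j ∈ range K, j : ℕ) : ℝ) * 2 = ((K * (K - 1) : ℕ) : ℝ) := by
        exact_mod_cast this
      rw [Nat.cast_sum] at h'
      rw [h', Nat.cast_mul, Nat.cast_sub hK, Nat.cast_one]
    nlinarith
  have e : ∑ j ∈ range K, prb η K j * (j / K) =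
      alph η K / K * (∑ j ∈ range K, (j : ℝ) * q ^ j) +
        Real.exp (-η / 2) / K ^ 2 * ∑ j ∈ range K, (j : ℝ) := by
    rw [mul_sum, mul_sum, ← sum_add_distrib]
    apply sum_congr rfl
    intro j _
    unfold prb
    rw [← hq]
    field_simp
  rw [e]
  have h1 : alph η K / K * (∑ j ∈ range K, (j : ℝ) * q ^ j) ≤ 2 / η := by
    calc alph η K / K * (∑ j ∈ range K, (j : ℝ) * q ^ j) ≤
        (2 * (1 - q)) / K * (q / (1 - q) ^ 2) := by
          apply mul_le_mul _ hs (Finset.sum_nonneg fun j _ => by positivity) (by positivity)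
          gcongr
      _ = 2 / K * (q / (1 - q)) := by field_simp
      _ ≤ 2 / K * (K / η) := by
          have : q / (1 - q) ≤ K / η := by
            rw [div_le_div_iff₀ hq1 hη0]
            have : q * (η / K) ≤ 1 - q := by linarith
            calc q * η = q * (η / K) * K := by field_simp
              _ ≤ (1 - q) * K := by gcongr
              _ = K * (1 - q) := by ring
          gcongr
      _ = 2 / η := by field_simp
  have h2 : Real.exp (-η / 2) / K ^ 2 * ∑ j ∈ range K, (j : ℝ) ≤ 1 / η := by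
    have hb := exp_half_le hη
    have he : (1 : ℝ) ≤ Real.exp 1 := by
      have := Real.add_one_le_exp (1 : ℝ); linarith
    have hb0 : 0 < Real.exp (-η / 2) := Real.exp_pos _
    have hb1 : η * Real.exp (-η / 2) ≤ 1 := by
      calc η * Real.exp (-η / 2) ≤ 2 * Real.exp 1 * η * Real.exp (-η / 2) := by
            apply mul_le_mul_of_nonneg_right _ hb0.le
            nlinarith
        _ ≤ 1 := hb
    calc Real.exp (-η / 2) / K ^ 2 * ∑ j ∈ range K, (j : ℝ) ≤
        Real.exp (-η / 2) / K ^ 2 * (K ^ 2 / 2) := by gcongr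
      _ = Real.exp (-η / 2) / 2 := by field_simp
      _ ≤ 1 / η := by
          rw [div_le_div_iff₀ (by norm_num) hη0]; nlinarith
  calc _ ≤ 2 / η + 1 / η := add_le_add h1 h2
    _ = 3 / η := by ring

end

end Crest.Agent.R314.Tk
end

-- ▼ part R314/Tok3
section

/-!
R314, Theorem A, part 3: the one-dimensional inequality (integration by parts in one noise
variable).
-/

set_option autoImplicit false

namespace Crest.Agent.R314.Tk

open Finset

theorem abel_identity (p a : ℕ → ℝ) (n : ℕ) :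
    ∑ j ∈ range n, p (j + 1) * (a (j + 1) - a j) =
      p n * a n - p 0 * a 0 + ∑ j ∈ range n, (p j - p (j + 1)) * a j := by
  induction n with
  | zero => simp
  | succ n ih => rw [sum_range_succ, sum_range_succ, ih]; ring

theorem telescope_le {k : ℝ} (N : ℕ → ℝ) (n : ℕ) (h0 : 0 ≤ N n) (hk : N 0 ≤ k) :
    ∑ j ∈ range n, (N j - N (j + 1)) ≤ k := by
  rw [sum_range_sub']; linarith

/-- Chebyshev: both sequences antitone. -/
theorem cheb {K : ℕ} (p N : ℕ → ℝ) (hp : ∀ i j, i ≤ j → j < K → p j ≤ p i)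
    (hN : ∀ i j, i ≤ j → j < K → N j ≤ N i) (hp1 : ∑ j ∈ range K, p j = 1) :
    ∑ j ∈ range K, N j ≤ K * ∑ j ∈ range K, p j * N j := by
  have h : MonovaryOn p N (range K) := by
    intro i hi j hj hij
    rw [coe_range, Set.mem_Iio] at hi hj
    by_contra hcon
    push Not at hcon
    rcases le_total i j with h | h
    · exact absurd (hN i j h hj) (not_le.2 hij)
    · exact absurd (hp j i h hi) (not_le.2 hcon)
  have := h.sum_mul_sum_le_card_mul_sum
  rw [hp1, one_mul, card_range] at this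
  exact this

section
variable {K' k T : ℕ} {η δ : ℝ}

theorem one_dim_step (hη : 8 ≤ η) (hδ : 0 < δ) {k : ℝ}
    (Δ N N' en : ℕ → ℝ) (hΔ : ∀ j ≤ K', 0 ≤ Δ j)
    (hen1 : en 0 ≤ 1)
    (hN0 : 0 ≤ N K') (hNk : N 0 ≤ k)
    (hanti : ∀ j < K', N (j + 1) ≤ N j)
    (hst : ∀ j ≤ K', N' j = N j + en j)
    (hinc : ∀ j < K', δ * N' (j + 1) - δ * N j ≤ Δ (j + 1) - Δ j) :
    ∑ j ∈ range (K' + 1), prb η (K' + 1) j * en j ≤
      prb η (K' + 1) 0 * (1 + k) + 1 / δ * (prb η (K' + 1) K' * Δ K') +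
        η / ((K' + 1 : ℕ) * δ) * ∑ j ∈ range (K' + 1), prb η (K' + 1) j * Δ j := by
  have hK : 0 < K' + 1 := Nat.succ_pos _
  have hKr : (0 : ℝ) < ((K' + 1 : ℕ) : ℝ) := by exact_mod_cast hK
  set p := prb η (K' + 1) with hp
  have hp0 : ∀ j, 0 ≤ p j := prb_nonneg hη hK
  rw [sum_range_succ']
  have h1 : ∀ j ∈ range K', p (j + 1) * en (j + 1) ≤
      1 / δ * (p (j + 1) * (Δ (j + 1) - Δ j)) + p 0 * (N j - N (j + 1)) := by
    intro j hj
    rw [mem_range] at hj
    have h2 := hinc j hj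
    rw [hst (j + 1) hj] at h2
    have h3 : en (j + 1) ≤ 1 / δ * (Δ (j + 1) - Δ j) + (N j - N (j + 1)) := by
      have : δ * en (j + 1) ≤ (Δ (j + 1) - Δ j) + δ * (N j - N (j + 1)) := by linarith
      have h4 : en (j + 1) = 1 / δ * (δ * en (j + 1)) := by field_simp
      rw [h4]
      calc 1 / δ * (δ * en (j + 1)) ≤ 1 / δ * ((Δ (j + 1) - Δ j) + δ * (N j - N (j + 1))) := by
            gcongr
        _ = _ := by field_simp
    calc p (j + 1) * en (j + 1) ≤ p (j + 1) * (1 / δ * (Δ (j + 1) - Δ j) + (N j - N (j + 1))) := by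
          apply mul_le_mul_of_nonneg_left h3 (hp0 _)
      _ = 1 / δ * (p (j + 1) * (Δ (j + 1) - Δ j)) + p (j + 1) * (N j - N (j + 1)) := by ring
      _ ≤ _ := by
          have h5 : p (j + 1) ≤ p 0 := prb_anti hη hK (Nat.zero_le _)
          have h6 : 0 ≤ N j - N (j + 1) := by have := hanti j hj; linarith
          have := mul_le_mul_of_nonneg_right h5 h6
          linarith
  have h2 : ∑ j ∈ range K', p (j + 1) * en (j + 1) ≤
      1 / δ * (∑ j ∈ range K', p (j + 1) * (Δ (j + 1) - Δ j)) +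
        p 0 * ∑ j ∈ range K', (N j - N (j + 1)) := by
    rw [mul_sum, mul_sum, ← sum_add_distrib]
    exact sum_le_sum h1
  have h3 : ∑ j ∈ range K', (N j - N (j + 1)) ≤ k := telescope_le N K' hN0 hNk
  have h4 : ∑ j ∈ range K', p (j + 1) * (Δ (j + 1) - Δ j) ≤
      p K' * Δ K' + η / (K' + 1 : ℕ) * ∑ j ∈ range (K' + 1), p j * Δ j := by
    rw [abel_identity]
    have h5 : ∑ j ∈ range K', (p j - p (j + 1)) * Δ j ≤
        ∑ j ∈ range K', η / (K' + 1 : ℕ) * (p j * Δ j) := by
      apply sum_le_sum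
      intro j hj
      rw [mem_range] at hj
      have := prb_sub hη hK j
      calc (p j - p (j + 1)) * Δ j ≤ (η / (K' + 1 : ℕ) * p j) * Δ j := by
            apply mul_le_mul_of_nonneg_right _ (hΔ j hj.le)
            exact this
        _ = _ := by ring
    have h6 : ∑ j ∈ range K', η / (K' + 1 : ℕ) * (p j * Δ j) ≤
        η / (K' + 1 : ℕ) * ∑ j ∈ range (K' + 1), p j * Δ j := by
      rw [← mul_sum, sum_range_succ]
      have : 0 ≤ η / (K' + 1 : ℕ) * (p K' * Δ K') := by
        have := hp0 K'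
        have := hΔ K' le_rfl
        positivity
      linarith
    have h7 : 0 ≤ p 0 * Δ 0 := mul_nonneg (hp0 0) (hΔ 0 (Nat.zero_le _))
    linarith
  have h8 : p 0 * en 0 ≤ p 0 * 1 := mul_le_mul_of_nonneg_left hen1 (hp0 0)
  have h9 : p 0 * ∑ j ∈ range K', (N j - N (j + 1)) ≤ p 0 * k :=
    mul_le_mul_of_nonneg_left h3 (hp0 0)
  have h10 : 1 / δ * (∑ j ∈ range K', p (j + 1) * (Δ (j + 1) - Δ j)) ≤
      1 / δ * (p K' * Δ K' + η / (K' + 1 : ℕ) * ∑ j ∈ range (K' + 1), p j * Δ j) := by
    gcongr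
  have h11 : 1 / δ * (p K' * Δ K' + η / (K' + 1 : ℕ) * ∑ j ∈ range (K' + 1), p j * Δ j) =
      1 / δ * (p K' * Δ K') +
        η / ((K' + 1 : ℕ) * δ) * ∑ j ∈ range (K' + 1), p j * Δ j := by
    field_simp
  linarith

/-- The one-dimensional inequality. -/
theorem one_dim (hη : 8 ≤ η) (hK2 : η ≤ (K' + 1 : ℕ)) (hδ : 0 < δ) {k : ℝ} (hk : 0 ≤ k)
    {B D T : ℕ} (hBD : B ≤ D) (hDT : D ≤ T)
    (g N en ex : ℕ → ℕ → ℝ)
    (Sin Su : ℕ → Prop) [DecidablePred Sin] [DecidablePred Su]
    (hSU : ∀ t, Sin t → Su t)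
    (hN0 : ∀ t j, 0 ≤ N t j) (hNk : ∀ t j, N t j ≤ k)
    (hNB : ∀ j, j ≤ K' → N B j = 0)
    (hstep : ∀ t j, j ≤ K' → N (t + 1) j = N t j + en t j - ex t j)
    (hen1 : ∀ t j, en t j ≤ 1) (hex0 : ∀ t j, 0 ≤ ex t j)
    (henS : ∀ t, B ≤ t → t < D → ¬ Sin t → ∀ j, j ≤ K' → en t j = 0)
    (hexS : ∀ t, B ≤ t → t < D → Sin t → ∀ j, j ≤ K' → ex t j = 0)
    (hmon : ∀ t j, B ≤ t → t < D → j ≤ K' → g t j ≤ g (t + 1) j)
    (hlow : ∀ t, B ≤ t → t ≤ D → ∀ j, j < K' → δ * N t (j + 1) ≤ g t (j + 1) - g t j)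
    (hup : ∀ t, B ≤ t → t ≤ D → ∀ j, j < K' → g t (j + 1) - g t j ≤ δ * N t j) :
    ∑ j ∈ range (K' + 1), prb η (K' + 1) j * ∑ t ∈ (Ico B D).filter Sin, en t j ≤
      η / ((K' + 1 : ℕ) * δ) * (∑ j ∈ range (K' + 1), prb η (K' + 1) j *
        ∑ t ∈ (Ico B D).filter Sin, (g (t + 1) j - g t j)) +
      2 * Real.exp (-η / 2) / ((K' + 1 : ℕ) * δ) *
        (∑ j ∈ range (K' + 1), prb η (K' + 1) j *
          ∑ t ∈ (Ico B D).filter Su, (g (t + 1) j - g t j)) +
      2 * Real.exp (-η / 2) * (∑ j ∈ range (K' + 1), prb η (K' + 1) j * N D j) +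
      2 * (∑ j ∈ range (K' + 1), prb η (K' + 1) j *
        ∑ t ∈ (Ico B D).filter (fun t => ¬ Su t), ex t j) +
      T * (k + 1) * (prb η (K' + 1) 0 + 2 / (K' + 1 : ℕ)) := by
  have hK : 0 < K' + 1 := Nat.succ_pos _
  have hKr : (0 : ℝ) < ((K' + 1 : ℕ) : ℝ) := by exact_mod_cast hK
  set p := prb η (K' + 1) with hp
  set b := Real.exp (-η / 2) with hb
  have hb0 : 0 < b := Real.exp_pos _
  have hb1 : b ≤ 1 / 32 := exp_half_le' hη
  have hp0 : ∀ j, 0 ≤ p j := prb_nonneg hη hK
  have hpsum : ∑ j ∈ range (K' + 1), p j = 1 := prb_sum hη hK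
  have hanti : ∀ t, B ≤ t → t ≤ D → ∀ j, j < K' → N t (j + 1) ≤ N t j := by
    intro t h1 h2 j hj
    have := (hlow t h1 h2 j hj).trans (hup t h1 h2 j hj)
    exact le_of_mul_le_mul_left this hδ
  have hanti' : ∀ t, B ≤ t → t ≤ D → ∀ i j, i ≤ j → j < K' + 1 → N t j ≤ N t i := by
    intro t h1 h2 i j hij hj
    induction j, hij using Nat.le_induction with
    | base => exact le_rfl
    | succ j _ ih =>
      exact (hanti t h1 h2 j (by omega)).trans (ih (by omega))
  have hΔ0 : ∀ t j, B ≤ t → t < D → j ≤ K' → 0 ≤ g (t + 1) j - g t j := by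
    intro t j h1 h2 h3
    have := hmon t j h1 h2 h3
    linarith
  -- Step A
  have hA : ∀ t ∈ (Ico B D).filter Sin, ∑ j ∈ range (K' + 1), p j * en t j ≤
      p 0 * (1 + k) + 1 / δ * (p K' * (g (t + 1) K' - g t K')) +
        η / ((K' + 1 : ℕ) * δ) * ∑ j ∈ range (K' + 1), p j * (g (t + 1) j - g t j) := by
    intro t ht
    rw [mem_filter, mem_Ico] at ht
    obtain ⟨⟨ht1, ht2⟩, ht3⟩ := ht
    apply one_dim_step hη hδ (fun j => g (t + 1) j - g t j) (fun j => N t j)
      (fun j => N (t + 1) j) (fun j => en t j)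
    · intro j hj; exact hΔ0 t j ht1 ht2 hj
    · exact hen1 t 0
    · exact hN0 t K'
    · exact hNk t 0
    · exact hanti t ht1 ht2.le
    · intro j hj
      rw [hstep t j hj, hexS t ht1 ht2 ht3 j hj, sub_zero]
    · intro j hj
      have h1 := hlow (t + 1) (by omega) (by omega) j hj
      have h2 := hup t ht1 ht2.le j hj
      linarith
  have hA' : ∑ j ∈ range (K' + 1), p j * ∑ t ∈ (Ico B D).filter Sin, en t j ≤
      T * (p 0 * (1 + k)) + 1 / δ * (p K' * ∑ t ∈ (Ico B D).filter Su, (g (t + 1) K' - g t K')) +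
      η / ((K' + 1 : ℕ) * δ) * (∑ j ∈ range (K' + 1), p j *
        ∑ t ∈ (Ico B D).filter Sin, (g (t + 1) j - g t j)) := by
    have e1 : ∑ j ∈ range (K' + 1), p j * ∑ t ∈ (Ico B D).filter Sin, en t j =
        ∑ t ∈ (Ico B D).filter Sin, ∑ j ∈ range (K' + 1), p j * en t j := by
      rw [sum_comm]
      apply sum_congr rfl; intro j _; rw [mul_sum]
    have e2 : ∑ j ∈ range (K' + 1), p j * ∑ t ∈ (Ico B D).filter Sin, (g (t + 1) j - g t j) =
        ∑ t ∈ (Ico B D).filter Sin, ∑ j ∈ range (K' + 1), p j * (g (t + 1) j - g t j) := by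
      rw [sum_comm]
      apply sum_congr rfl; intro j _; rw [mul_sum]
    rw [e1, e2]
    refine (sum_le_sum hA).trans ?_
    rw [sum_add_distrib, sum_add_distrib, sum_const, nsmul_eq_mul,
      ← mul_sum (s := (Ico B D).filter Sin) (a := 1 / δ), ← mul_sum (s := (Ico B D).filter Sin) (a := p K'),
      ← mul_sum (s := (Ico B D).filter Sin) (a := η / ((K' + 1 : ℕ) * δ))]
    have h1 : (((Ico B D).filter Sin).card : ℝ) ≤ T := by
      have : ((Ico B D).filter Sin).card ≤ T := by
        refine (card_filter_le _ _).trans ?_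
        rw [Nat.card_Ico]; omega
      exact_mod_cast this
    have h2 : ∑ t ∈ (Ico B D).filter Sin, (g (t + 1) K' - g t K') ≤
        ∑ t ∈ (Ico B D).filter Su, (g (t + 1) K' - g t K') := by
      apply sum_le_sum_of_subset_of_nonneg
      · intro t ht
        rw [mem_filter] at ht ⊢
        exact ⟨ht.1, hSU t ht.2⟩
      · intro t ht _
        rw [mem_filter, mem_Ico] at ht
        exact hΔ0 t K' ht.1.1 ht.1.2 le_rfl
    have h3 : 0 ≤ p 0 * (1 + k) := mul_nonneg (hp0 0) (by linarith)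
    have h4 : (((Ico B D).filter Sin).card : ℝ) * (p 0 * (1 + k)) ≤ T * (p 0 * (1 + k)) :=
      mul_le_mul_of_nonneg_right h1 h3
    have h5 : 1 / δ * (p K' * ∑ t ∈ (Ico B D).filter Sin, (g (t + 1) K' - g t K')) ≤
        1 / δ * (p K' * ∑ t ∈ (Ico B D).filter Su, (g (t + 1) K' - g t K')) := by
      have := hp0 K'
      gcongr
    linarith
  -- Step B
  set J : ℕ → ℝ := fun j => ∑ t ∈ (Ico B D).filter Su, (g (t + 1) j - g t j) with hJ
  set out := (Ico B D).filter (fun t => ¬ Su t) with hout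
  have houtT : (out.card : ℝ) ≤ T := by
    have : out.card ≤ T := by
      refine (card_filter_le _ _).trans ?_
      rw [Nat.card_Ico]; omega
    exact_mod_cast this
  have hJinc : ∀ s, s < K' → J (s + 1) - J s ≤
      δ * N D s + δ * (∑ t ∈ out, ex t (s + 1)) + δ * ∑ t ∈ out, (N t s - N t (s + 1)) := by
    intro s hs
    have e1 : ∀ j, J j = (g D j - g B j) - ∑ t ∈ out, (g (t + 1) j - g t j) := by
      intro j
      have h1 := sum_filter_add_sum_filter_not (Ico B D) Su (fun t => g (t + 1) j - g t j)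
      have h2 : ∑ t ∈ Ico B D, (g (t + 1) j - g t j) = g D j - g B j :=
        sum_Ico_sub (fun t => g t j) hBD
      rw [h2] at h1
      simp only [hJ, hout]
      linarith
    rw [e1, e1]
    have h1 := hup D hBD le_rfl s hs
    have h2 := hlow B le_rfl hBD s hs
    rw [hNB (s + 1) hs, mul_zero] at h2
    have h3 : ∑ t ∈ out, (g (t + 1) s - g t s) - ∑ t ∈ out, (g (t + 1) (s + 1) - g t (s + 1)) ≤
        δ * (∑ t ∈ out, ex t (s + 1)) + δ * ∑ t ∈ out, (N t s - N t (s + 1)) := by
      rw [← sum_sub_distrib, mul_sum, mul_sum, ← sum_add_distrib]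
      apply sum_le_sum
      intro t ht
      rw [hout, mem_filter, mem_Ico] at ht
      obtain ⟨⟨ht1, ht2⟩, ht3⟩ := ht
      have h4 := hlow (t + 1) (by omega) (by omega) s hs
      have h5 := hup t ht1 ht2.le s hs
      have h6 : en t (s + 1) = 0 := henS t ht1 ht2 (fun h => ht3 (hSU t h)) (s + 1) hs
      rw [hstep t (s + 1) hs, h6] at h4
      linarith
    linarith
  have hX0 : ∀ s, s < K' → 0 ≤ δ * N D s + δ * (∑ t ∈ out, ex t (s + 1)) +
      δ * ∑ t ∈ out, (N t s - N t (s + 1)) := by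
    intro s hs
    have h1 := hN0 D s
    have h2 : 0 ≤ ∑ t ∈ out, ex t (s + 1) := sum_nonneg fun t _ => hex0 t _
    have h3 : 0 ≤ ∑ t ∈ out, (N t s - N t (s + 1)) := by
      apply sum_nonneg
      intro t ht
      rw [hout, mem_filter, mem_Ico] at ht
      have := hanti t ht.1.1 ht.1.2.le s hs
      linarith
    positivity
  have hJj : ∀ j, j ≤ K' → J K' ≤ J j + (δ * (∑ s ∈ range (K' + 1), N D s) +
      δ * (∑ s ∈ range (K' + 1), ∑ t ∈ out, ex t s) + δ * (T * k)) := by
    intro j hj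
    have e1 : J K' - J j = ∑ s ∈ Ico j K', (J (s + 1) - J s) := (sum_Ico_sub J hj).symm
    have h1 : J K' - J j ≤ ∑ s ∈ range K', (δ * N D s + δ * (∑ t ∈ out, ex t (s + 1)) +
        δ * ∑ t ∈ out, (N t s - N t (s + 1))) := by
      rw [e1]
      refine (sum_le_sum (fun s hs => hJinc s (mem_Ico.1 hs).2)).trans ?_
      apply sum_le_sum_of_subset_of_nonneg
      · intro s hs
        rw [mem_Ico] at hs
        exact mem_range.2 hs.2
      · intro s hs _
        exact hX0 s (mem_range.1 hs)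
    rw [sum_add_distrib, sum_add_distrib, ← mul_sum, ← mul_sum, ← mul_sum] at h1
    have h2 : ∑ s ∈ range K', N D s ≤ ∑ s ∈ range (K' + 1), N D s := by
      rw [sum_range_succ]; have := hN0 D K'; linarith
    have h3 : ∑ s ∈ range K', ∑ t ∈ out, ex t (s + 1) ≤
        ∑ s ∈ range (K' + 1), ∑ t ∈ out, ex t s := by
      rw [sum_range_succ']
      have : 0 ≤ ∑ t ∈ out, ex t 0 := sum_nonneg fun t _ => hex0 t _
      linarith
    have h4 : ∑ s ∈ range K', ∑ t ∈ out, (N t s - N t (s + 1)) ≤ T * k := by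
      rw [sum_comm]
      have : ∀ t ∈ out, ∑ s ∈ range K', (N t s - N t (s + 1)) ≤ k := by
        intro t _
        exact telescope_le (fun s => N t s) K' (hN0 t K') (hNk t 0)
      refine (sum_le_sum this).trans ?_
      rw [sum_const, nsmul_eq_mul]
      exact mul_le_mul_of_nonneg_right houtT hk
    have h5 : δ * ∑ s ∈ range K', N D s ≤ δ * ∑ s ∈ range (K' + 1), N D s := by gcongr
    have h6 : δ * ∑ s ∈ range K', ∑ t ∈ out, ex t (s + 1) ≤
        δ * ∑ s ∈ range (K' + 1), ∑ t ∈ out, ex t s := by gcongr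
    have h7 : δ * ∑ s ∈ range K', ∑ t ∈ out, (N t s - N t (s + 1)) ≤ δ * (T * k) := by gcongr
    linarith
  have hB : J K' ≤ (∑ j ∈ range (K' + 1), p j * J j) + (δ * (∑ s ∈ range (K' + 1), N D s) +
      δ * (∑ s ∈ range (K' + 1), ∑ t ∈ out, ex t s) + δ * (T * k)) := by
    set Q := δ * (∑ s ∈ range (K' + 1), N D s) +
      δ * (∑ s ∈ range (K' + 1), ∑ t ∈ out, ex t s) + δ * (T * k) with hQ
    calc J K' = ∑ j ∈ range (K' + 1), p j * J K' := by rw [← sum_mul, hpsum, one_mul]
      _ ≤ ∑ j ∈ range (K' + 1), (p j * J j + p j * Q) := by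
          apply sum_le_sum
          intro j hj
          have := hJj j (Nat.lt_succ_iff.1 (mem_range.1 hj))
          have h2 := mul_le_mul_of_nonneg_left this (hp0 j)
          linarith
      _ = _ := by rw [sum_add_distrib, ← sum_mul, hpsum, one_mul]
  have hC1 : ∑ s ∈ range (K' + 1), N D s ≤ (K' + 1 : ℕ) * ∑ j ∈ range (K' + 1), p j * N D j := by
    apply cheb p (fun j => N D j) (fun i j hij _ => prb_anti hη hK hij)
      (hanti' D hBD le_rfl) hpsum
  have hC2 : ∑ s ∈ range (K' + 1), ∑ t ∈ out, ex t s ≤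
      (K' + 1 : ℕ) / b * ∑ j ∈ range (K' + 1), p j * ∑ t ∈ out, ex t j := by
    rw [mul_sum]
    apply sum_le_sum
    intro s _
    have h1 : b / (K' + 1 : ℕ) ≤ p s := prb_ge hη hK s
    have h2 : 0 ≤ ∑ t ∈ out, ex t s := sum_nonneg fun t _ => hex0 t _
    have h3 : 1 ≤ (K' + 1 : ℕ) / b * p s := by
      calc (1 : ℝ) = (K' + 1 : ℕ) / b * (b / (K' + 1 : ℕ)) := by field_simp
        _ ≤ _ := by gcongr
    calc ∑ t ∈ out, ex t s = 1 * ∑ t ∈ out, ex t s := by rw [one_mul]
      _ ≤ ((K' + 1 : ℕ) / b * p s) * ∑ t ∈ out, ex t s := by gcongr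
      _ = _ := by ring
  have hlast : (K' + 1 : ℕ) * p K' ≤ 2 * b := by
    have := prb_last hη hK hK2
    simpa using this
  have hlast' : p K' ≤ 2 * b / (K' + 1 : ℕ) := by
    rw [le_div_iff₀ hKr]; linarith
  -- Combine
  have hJK0 : 0 ≤ J K' := by
    apply sum_nonneg
    intro t ht
    rw [mem_filter, mem_Ico] at ht
    exact hΔ0 t K' ht.1.1 ht.1.2 le_rfl
  have hF : 1 / δ * (p K' * J K') ≤
      2 * b / ((K' + 1 : ℕ) * δ) * (∑ j ∈ range (K' + 1), p j * J j) +
      2 * b * (∑ j ∈ range (K' + 1), p j * N D j) +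
      2 * (∑ j ∈ range (K' + 1), p j * ∑ t ∈ out, ex t j) +
      2 * b / (K' + 1 : ℕ) * (T * k) := by
    calc 1 / δ * (p K' * J K') ≤ 1 / δ * (2 * b / (K' + 1 : ℕ) * J K') := by gcongr
      _ ≤ 1 / δ * (2 * b / (K' + 1 : ℕ) * ((∑ j ∈ range (K' + 1), p j * J j) +
          (δ * ((K' + 1 : ℕ) * ∑ j ∈ range (K' + 1), p j * N D j) +
          δ * ((K' + 1 : ℕ) / b * ∑ j ∈ range (K' + 1), p j * ∑ t ∈ out, ex t j) +
          δ * (T * k)))) := by
          have hQ : J K' ≤ (∑ j ∈ range (K' + 1), p j * J j) +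
              (δ * ((K' + 1 : ℕ) * ∑ j ∈ range (K' + 1), p j * N D j) +
              δ * ((K' + 1 : ℕ) / b * ∑ j ∈ range (K' + 1), p j * ∑ t ∈ out, ex t j) +
              δ * (T * k)) := by
            refine hB.trans ?_
            have q1 := mul_le_mul_of_nonneg_left hC1 hδ.le
            have q2 := mul_le_mul_of_nonneg_left hC2 hδ.le
            linarith
          gcongr
      _ = _ := by
          field_simp
          ring
  have hG : T * (p 0 * (1 + k)) + 2 * b / (K' + 1 : ℕ) * (T * k) ≤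
      T * (k + 1) * (p 0 + 2 / (K' + 1 : ℕ)) := by
    have hT : (0 : ℝ) ≤ T := Nat.cast_nonneg T
    have h1 : 2 * b / (K' + 1 : ℕ) * (T * k) ≤ 2 / (K' + 1 : ℕ) * (T * (k + 1)) := by
      have h2 : 2 * b / ((K' + 1 : ℕ) : ℝ) ≤ 2 / ((K' + 1 : ℕ) : ℝ) := by
        gcongr; linarith
      have h3 : (T : ℝ) * k ≤ T * (k + 1) := by nlinarith
      exact mul_le_mul h2 h3 (by positivity) (by positivity)
    nlinarith
  have hfin := hA'
  change _ ≤ _ + 1 / δ * (p K' * J K') + _ at hfin
  linarith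

end

end Crest.Agent.R314.Tk
end

-- ▼ part R314/Tok4
section

/-!
R314, Theorem A, part 4: the noisy token system and the shift lemma.
-/

set_option autoImplicit false
set_option linter.unusedSectionVars false
set_option linter.unusedSimpArgs false

namespace Crest.Agent.R314.Tk

open Finset Function

/-- A token system: `E a` = the noise nodes containing the token `a`; `w`, `η` = weight and noise
parameter; a node lives during `[B v, D v)`; `In v t` = "request `t` lies in the parent cluster of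
`v`"; `κ` = additional nonnegative prices. -/
structure FData (k : ℕ) (V : Type*) where
  E : Tok k → Finset V
  E_inl : ∀ i, E (Sum.inl i) = ∅
  w : V → ℝ
  w_pos : ∀ v, 0 < w v
  η : V → ℝ
  η_ge : ∀ v, 8 ≤ η v
  B : V → ℕ
  D : V → ℕ
  B_le_D : ∀ v, B v ≤ D v
  life : ∀ t v, v ∈ E (Sum.inr t) → B v ≤ t ∧ t < D v
  In : V → ℕ → Prop
  In_of_mem : ∀ t v, v ∈ E (Sum.inr t) → In v t
  κ : ℕ → Tok k → ℝ
  κ_nonneg : ∀ t a, 0 ≤ κ t a

namespace FData

variable {k : ℕ} {V : Type*} [DecidableEq V] (F : FData k V)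

/-- The noisy prices. -/
noncomputable def mcost (ξ : V → ℝ) (t : ℕ) (a : Tok k) : ℝ :=
  F.κ t a + ∑ v ∈ F.E (Sum.inr t) \ F.E a, ξ v +
    ∑ v ∈ (F.E a \ F.E (Sum.inr t)).filter (fun v => t < F.D v), (F.w v / 4 - ξ v)

/-- Number of servers at tokens of `v`. -/
noncomputable def Nv (v : V) (x : Fin k → Tok k) : ℝ :=
  ∑ i, if v ∈ F.E (x i) then 1 else 0

theorem Nv_nonneg (v : V) (x : Fin k → Tok k) : 0 ≤ F.Nv v x :=
  sum_nonneg fun i _ => by split_ifs <;> norm_num

theorem Nv_le (v : V) (x : Fin k → Tok k) : F.Nv v x ≤ k := by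
  unfold Nv
  calc _ ≤ ∑ i : Fin k, (1 : ℝ) := sum_le_sum fun i _ => by split_ifs <;> norm_num
    _ = k := by simp

theorem Nv_update (v : V) (x : Fin k → Tok k) (i : Fin k) (a : Tok k) :
    F.Nv v (update x i a) = F.Nv v x + (if v ∈ F.E a then 1 else 0) -
      (if v ∈ F.E (x i) then 1 else 0) := by
  unfold Nv
  rw [← add_sum_erase univ _ (mem_univ i), ← add_sum_erase univ (fun j => if v ∈ F.E (x j) then (1 : ℝ) else 0) (mem_univ i)]
  have : ∑ j ∈ univ.erase i, (if v ∈ F.E (update x i a j) then (1 : ℝ) else 0) =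
      ∑ j ∈ univ.erase i, (if v ∈ F.E (x j) then (1 : ℝ) else 0) := by
    apply sum_congr rfl
    intro j hj
    rw [update_of_ne (ne_of_mem_erase hj)]
  rw [this]
  simp only [update_self]
  ring

theorem Nv_start (v : V) : F.Nv v Sum.inl = 0 := by
  unfold Nv
  apply sum_eq_zero
  intro i _
  simp [F.E_inl]

theorem sum_update_shift (ξ : V → ℝ) (v : V) (δ : ℝ) (S : Finset V) :
    ∑ u ∈ S, update ξ v (ξ v + δ) u = ∑ u ∈ S, ξ u + if v ∈ S then δ else 0 := by
  by_cases hv : v ∈ S
  · rw [if_pos hv, ← add_sum_erase S _ hv, ← add_sum_erase S ξ hv]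
    have : ∑ u ∈ S.erase v, update ξ v (ξ v + δ) u = ∑ u ∈ S.erase v, ξ u := by
      apply sum_congr rfl
      intro u hu
      rw [update_of_ne (ne_of_mem_erase hu)]
    rw [this]; simp only [update_self]; ring
  · rw [if_neg hv, add_zero]
    apply sum_congr rfl
    intro u hu
    have hne : u ≠ v := by rintro rfl; exact hv hu
    rw [update_of_ne hne]

theorem mcost_shift (ξ : V → ℝ) (v : V) (δ : ℝ) (t : ℕ) (ht : t < F.D v) (a : Tok k) :
    F.mcost (update ξ v (ξ v + δ)) t a = F.mcost ξ t a +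
      δ * ((if v ∈ F.E (Sum.inr t) then 1 else 0) - (if v ∈ F.E a then 1 else 0)) := by
  unfold mcost
  rw [sum_sub_distrib, sum_sub_distrib, sum_update_shift, sum_update_shift]
  by_cases h1 : v ∈ F.E (Sum.inr t) <;> by_cases h2 : v ∈ F.E a <;>
    simp [h1, h2, ht] <;> ring

theorem ur_shift {ξ : V → ℝ} (v : V) (δ : ℝ) {T : ℕ} {x : Fin k → Tok k} {c : ℝ}
    (h : UR (F.mcost ξ) T x c) (hT : T ≤ F.D v) :
    UR (F.mcost (update ξ v (ξ v + δ))) T x (c + δ * F.Nv v x) := by
  induction h with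
  | zero σ =>
    have : F.Nv v (fun i => Sum.inl (σ i)) = 0 := by
      unfold Nv
      apply sum_eq_zero
      intro i _
      simp [F.E_inl]
    rw [this, mul_zero, add_zero]
    exact UR.zero σ
  | @step t x c i hx ih =>
    have h1 := UR.step i (ih (by omega))
    convert h1 using 1
    rw [F.mcost_shift ξ v δ t (by omega), F.Nv_update]
    ring

theorem ur_shift_neg {ξ : V → ℝ} (v : V) (δ : ℝ) {T : ℕ} {x : Fin k → Tok k} {c : ℝ}
    (h : UR (F.mcost (update ξ v (ξ v + δ))) T x c) (hT : T ≤ F.D v) :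
    UR (F.mcost ξ) T x (c - δ * F.Nv v x) := by
  have h1 := F.ur_shift v (-δ) h hT
  have e : update (update ξ v (ξ v + δ)) v (update ξ v (ξ v + δ) v + -δ) = ξ := by
    funext u
    by_cases hu : u = v
    · subst hu; simp
    · simp [hu]
  rw [e] at h1
  convert h1 using 1
  ring

section
variable [NeZero k]

theorem G_shift_up (ξ : V → ℝ) (v : V) (δ : ℝ) {t : ℕ} (ht : t ≤ F.D v) :
    G (F.mcost (update ξ v (ξ v + δ))) t - G (F.mcost ξ) t ≤
      δ * F.Nv v (pos (F.mcost ξ) t) := by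
  have := G_le (F.ur_shift v δ (pos_opt (F.mcost ξ) t) ht)
  linarith

theorem G_shift_low (ξ : V → ℝ) (v : V) (δ : ℝ) {t : ℕ} (ht : t ≤ F.D v) :
    δ * F.Nv v (pos (F.mcost (update ξ v (ξ v + δ))) t) ≤
      G (F.mcost (update ξ v (ξ v + δ))) t - G (F.mcost ξ) t := by
  have := G_le (F.ur_shift_neg v δ (pos_opt (F.mcost (update ξ v (ξ v + δ))) t) ht)
  linarith

theorem mcost_nonneg {ξ : V → ℝ} (h0 : ∀ v, 0 ≤ ξ v) (h1 : ∀ v, ξ v ≤ F.w v / 4) (t : ℕ)
    (a : Tok k) : 0 ≤ F.mcost ξ t a := by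
  unfold mcost
  have e1 := F.κ_nonneg t a
  have e2 : 0 ≤ ∑ v ∈ F.E (Sum.inr t) \ F.E a, ξ v := sum_nonneg fun v _ => h0 v
  have e3 : 0 ≤ ∑ v ∈ (F.E a \ F.E (Sum.inr t)).filter (fun v => t < F.D v), (F.w v / 4 - ξ v) :=
    sum_nonneg fun v _ => by have := h1 v; linarith
  linarith

end

end FData

theorem pos_tok {k : ℕ} [NeZero k] (m : ℕ → Tok k → ℝ) (t : ℕ) (i : Fin k) :
    (∃ j, pos m t i = Sum.inl j) ∨ ∃ s < t, pos m t i = Sum.inr s := by
  induction t with
  | zero => exact Or.inl ⟨i, rfl⟩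
  | succ t ih =>
    rw [pos_succ]
    by_cases h : i = srv m t
    · right; exact ⟨t, Nat.lt_succ_self t, by rw [h, update_self]⟩
    · rw [update_of_ne h]
      rcases ih with ⟨j, hj⟩ | ⟨s, hs, hs'⟩
      · exact Or.inl ⟨j, hj⟩
      · exact Or.inr ⟨s, hs.trans (Nat.lt_succ_self t), hs'⟩


/-! ### Resampling one coordinate of the noise -/

section Resample

variable {V : Type*} [Fintype V] [DecidableEq V]

/-- The grid. -/
noncomputable def Om (V : Type*) [Fintype V] [DecidableEq V] (K : ℕ) : Finset (V → ℕ) :=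
  Fintype.piFinset fun _ => range K

/-- The product weight. -/
noncomputable def pwt (p : V → ℕ → ℝ) (n : V → ℕ) : ℝ := ∏ v, p v (n v)

/-- Expectation. -/
noncomputable def Ex (p : V → ℕ → ℝ) (K : ℕ) (f : (V → ℕ) → ℝ) : ℝ :=
  ∑ n ∈ Om V K, pwt p n * f n

theorem pwt_sum (p : V → ℕ → ℝ) (K : ℕ) (hp : ∀ v, ∑ j ∈ range K, p v j = 1) :
    ∑ n ∈ Om V K, pwt p n = 1 := by
  unfold Om pwt
  rw [← prod_univ_sum]
  exact prod_eq_one fun v _ => hp v

theorem pwt_nonneg {p : V → ℕ → ℝ} (hp : ∀ v j, 0 ≤ p v j) (n : V → ℕ) : 0 ≤ pwt p n :=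
  prod_nonneg fun v _ => hp v _

theorem Ex_mono {p : V → ℕ → ℝ} (hp : ∀ v j, 0 ≤ p v j) {K : ℕ} {f g : (V → ℕ) → ℝ}
    (h : ∀ n ∈ Om V K, f n ≤ g n) : Ex p K f ≤ Ex p K g :=
  sum_le_sum fun n hn => mul_le_mul_of_nonneg_left (h n hn) (pwt_nonneg hp n)

theorem Ex_const {p : V → ℕ → ℝ} {K : ℕ} (hp : ∀ v, ∑ j ∈ range K, p v j = 1) (c : ℝ) :
    Ex p K (fun _ => c) = c := by
  unfold Ex; rw [← sum_mul, pwt_sum p K hp, one_mul]

theorem Ex_add (p : V → ℕ → ℝ) (K : ℕ) (f g : (V → ℕ) → ℝ) :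
    Ex p K (fun n => f n + g n) = Ex p K f + Ex p K g := by
  unfold Ex; rw [← sum_add_distrib]; exact sum_congr rfl fun n _ => by ring

theorem Ex_mul (p : V → ℕ → ℝ) (K : ℕ) (c : ℝ) (f : (V → ℕ) → ℝ) :
    Ex p K (fun n => c * f n) = c * Ex p K f := by
  unfold Ex; rw [mul_sum]; exact sum_congr rfl fun n _ => by ring

theorem Ex_sum {ι : Type*} (p : V → ℕ → ℝ) (K : ℕ) (s : Finset ι) (f : ι → (V → ℕ) → ℝ) :
    Ex p K (fun n => ∑ i ∈ s, f i n) = ∑ i ∈ s, Ex p K (f i) := by
  unfold Ex; rw [sum_comm]; exact sum_congr rfl fun n _ => by rw [mul_sum]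

theorem pwt_update (p : V → ℕ → ℝ) (n : V → ℕ) (v : V) (j : ℕ) :
    pwt p n * p v j = pwt p (update n v j) * p v (n v) := by
  unfold pwt
  rw [← mul_prod_erase univ _ (mem_univ v),
    ← mul_prod_erase univ (fun u => p u (update n v j u)) (mem_univ v)]
  have : ∏ u ∈ univ.erase v, p u (update n v j u) = ∏ u ∈ univ.erase v, p u (n u) := by
    apply prod_congr rfl
    intro u hu
    rw [update_of_ne (ne_of_mem_erase hu)]
  rw [this]
  simp only [update_self]
  ring

theorem Ex_resample {p : V → ℕ → ℝ} {K : ℕ} (hp : ∀ v, ∑ j ∈ range K, p v j = 1) (v : V)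
    (f : (V → ℕ) → ℝ) :
    Ex p K f = Ex p K (fun n => ∑ j ∈ range K, p v j * f (update n v j)) := by
  have e1 : Ex p K f = ∑ q ∈ Om V K ×ˢ range K, (pwt p q.1 * p v q.2) * f q.1 := by
    rw [sum_product]
    unfold Ex
    apply sum_congr rfl
    intro n _
    simp only
    rw [← sum_mul, ← mul_sum, hp v, mul_one]
  have e2 : Ex p K (fun n => ∑ j ∈ range K, p v j * f (update n v j)) =
      ∑ q ∈ Om V K ×ˢ range K, (pwt p q.1 * p v q.2) * f (update q.1 v q.2) := by
    rw [sum_product]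
    unfold Ex
    apply sum_congr rfl
    intro n _
    simp only
    rw [mul_sum]
    exact sum_congr rfl fun j _ => by ring
  rw [e1, e2]
  apply sum_nbij' (fun q => (update q.1 v q.2, q.1 v)) (fun q => (update q.1 v q.2, q.1 v))
  · rintro ⟨n, j⟩ h
    rw [mem_product] at h ⊢
    simp only [Om, Fintype.mem_piFinset] at h ⊢
    refine ⟨fun u => ?_, h.1 v⟩
    by_cases hu : u = v
    · subst hu; rw [update_self]; exact h.2
    · rw [update_of_ne hu]; exact h.1 u
  · rintro ⟨n, j⟩ h
    rw [mem_product] at h ⊢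
    simp only [Om, Fintype.mem_piFinset] at h ⊢
    refine ⟨fun u => ?_, h.1 v⟩
    by_cases hu : u = v
    · subst hu; rw [update_self]; exact h.2
    · rw [update_of_ne hu]; exact h.1 u
  · rintro ⟨n, j⟩ _
    simp
  · rintro ⟨n, j⟩ _
    simp
  · rintro ⟨n, j⟩ _
    simp only [update_self, update_idem, update_eq_self]
    rw [← pwt_update]

end Resample

end Crest.Agent.R314.Tk
end

-- ▼ part R314/Tok5
section

/-!
R314, Theorem A, part 5: the FPL inequality for one token system.
-/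

set_option autoImplicit false
set_option linter.unusedSectionVars false

namespace Crest.Agent.R314.Tk

open Finset Function

namespace FData

variable {k : ℕ} [NeZero k] {V : Type*} [Fintype V] [DecidableEq V] (F : FData k V)

/-- The noise values. -/
noncomputable def xi (K : ℕ) (n : V → ℕ) (v : V) : ℝ := n v * (F.w v / 4 / K)

/-- The prices at noise `n`. -/
noncomputable def mm (K : ℕ) (n : V → ℕ) : ℕ → Tok k → ℝ := F.mcost (F.xi K n)

/-- The token left by the algorithm at step `t`. -/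
noncomputable def X (K : ℕ) (n : V → ℕ) (t : ℕ) : Tok k :=
  pos (F.mm K n) t (srv (F.mm K n) t)

/-- Increment of the optimum. -/
noncomputable def dl (K : ℕ) (n : V → ℕ) (t : ℕ) : ℝ := G (F.mm K n) (t + 1) - G (F.mm K n) t

/-- Entering. -/
noncomputable def en (K : ℕ) (v : V) (n : V → ℕ) (t : ℕ) : ℝ :=
  if v ∈ F.E (Sum.inr t) ∧ v ∉ F.E (F.X K n t) then 1 else 0

/-- Leaving. -/
noncomputable def exi (K : ℕ) (v : V) (n : V → ℕ) (t : ℕ) : ℝ :=
  if v ∈ F.E (F.X K n t) ∧ v ∉ F.E (Sum.inr t) then 1 else 0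

theorem xi_update (K : ℕ) (n : V → ℕ) (v : V) (j : ℕ) :
    F.xi K (update n v (j + 1)) =
      update (F.xi K (update n v j)) v (F.xi K (update n v j) v + F.w v / 4 / K) := by
  funext u
  by_cases hu : u = v
  · subst hu
    simp only [xi, update_self]
    push_cast; ring
  · simp only [xi, update_of_ne hu]

theorem Nv_step (K : ℕ) (v : V) (n : V → ℕ) (t : ℕ) :
    F.Nv v (pos (F.mm K n) (t + 1)) = F.Nv v (pos (F.mm K n) t) + F.en K v n t - F.exi K v n t := by
  rw [pos_succ, F.Nv_update, en, exi, X]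
  by_cases h1 : v ∈ F.E (Sum.inr t) <;>
    by_cases h2 : v ∈ F.E (pos (F.mm K n) t (srv (F.mm K n) t)) <;> simp [h1, h2]

theorem xi_nonneg (K : ℕ) (n : V → ℕ) (v : V) : 0 ≤ F.xi K n v := by
  unfold xi
  have := F.w_pos v
  positivity

theorem xi_le {K : ℕ} (hK : 0 < K) {n : V → ℕ} {v : V} (hn : n v ≤ K) : F.xi K n v ≤ F.w v / 4 := by
  unfold xi
  have h1 := F.w_pos v
  have hK' : (0 : ℝ) < K := by exact_mod_cast hK
  have h2 : (n v : ℝ) ≤ K := by exact_mod_cast hn
  calc (n v : ℝ) * (F.w v / 4 / K) ≤ K * (F.w v / 4 / K) := by gcongr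
    _ = F.w v / 4 := by field_simp

theorem mm_nonneg {K : ℕ} (hK : 0 < K) {n : V → ℕ} (hn : ∀ v, n v ≤ K) (t : ℕ) (a : Tok k) :
    0 ≤ F.mm K n t a :=
  F.mcost_nonneg (F.xi_nonneg K n) (fun v => F.xi_le hK (hn v)) t a

theorem dl_nonneg {K : ℕ} (hK : 0 < K) {n : V → ℕ} (hn : ∀ v, n v ≤ K) (t : ℕ) :
    0 ≤ F.dl K n t := by
  have := G_mono_step (F.mm_nonneg hK hn t)
  unfold dl
  linarith

theorem N_birth (K : ℕ) (v : V) (n : V → ℕ) {t : ℕ} (ht : t ≤ F.B v) :
    F.Nv v (pos (F.mm K n) t) = 0 := by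
  unfold Nv
  apply sum_eq_zero
  intro i _
  rw [if_neg]
  intro h
  rcases pos_tok (F.mm K n) t i with ⟨j, hj⟩ | ⟨s, hs, hs'⟩
  · rw [hj, F.E_inl] at h; simp at h
  · rw [hs'] at h
    have := (F.life s v h).1
    omega

theorem en_nonneg (K : ℕ) (v : V) (n : V → ℕ) (t : ℕ) : 0 ≤ F.en K v n t := by
  unfold en; split_ifs <;> norm_num

theorem exi_nonneg (K : ℕ) (v : V) (n : V → ℕ) (t : ℕ) : 0 ≤ F.exi K v n t := by
  unfold exi; split_ifs <;> norm_num

open Classical in
/-- The inequality for one node. -/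
theorem node_ineq {K' T : ℕ} (v : V) (hK2 : F.η v ≤ (K' + 1 : ℕ)) :
    Ex (fun u => prb (F.η u) (K' + 1)) (K' + 1) (fun n =>
        ∑ t ∈ (Ico (min (F.B v) T) (min (F.D v) T)).filter (fun t => v ∈ F.E (Sum.inr t)),
          F.en (K' + 1) v n t) ≤
      F.η v / (F.w v / 4) * Ex (fun u => prb (F.η u) (K' + 1)) (K' + 1) (fun n =>
        ∑ t ∈ (Ico (min (F.B v) T) (min (F.D v) T)).filter (fun t => v ∈ F.E (Sum.inr t)),
          F.dl (K' + 1) n t) +
      2 * Real.exp (-F.η v / 2) / (F.w v / 4) * Ex (fun u => prb (F.η u) (K' + 1)) (K' + 1)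
        (fun n => ∑ t ∈ (Ico (min (F.B v) T) (min (F.D v) T)).filter (fun t => F.In v t),
          F.dl (K' + 1) n t) +
      2 * Real.exp (-F.η v / 2) * Ex (fun u => prb (F.η u) (K' + 1)) (K' + 1)
        (fun n => F.Nv v (pos (F.mm (K' + 1) n) (min (F.D v) T))) +
      2 * Ex (fun u => prb (F.η u) (K' + 1)) (K' + 1) (fun n =>
        ∑ t ∈ (Ico (min (F.B v) T) (min (F.D v) T)).filter (fun t => ¬ F.In v t),
          F.exi (K' + 1) v n t) +
      T * (k + 1) * (prb (F.η v) (K' + 1) 0 + 2 / (K' + 1 : ℕ)) := by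
  set K := K' + 1 with hKdef
  have hK : 0 < K := Nat.succ_pos _
  have hKr : (0 : ℝ) < (K : ℝ) := by exact_mod_cast hK
  set p : V → ℕ → ℝ := fun u => prb (F.η u) K with hp
  have hp0 : ∀ u j, 0 ≤ p u j := fun u j => prb_nonneg (F.η_ge u) hK j
  have hpsum : ∀ u, ∑ j ∈ range K, p u j = 1 := fun u => prb_sum (F.η_ge u) hK
  have hw := F.w_pos v
  have hδ : 0 < F.w v / 4 / K := by positivity
  have hKδ : (K : ℝ) * (F.w v / 4 / K) = F.w v / 4 := by field_simp
  have hkr : (0 : ℝ) ≤ k := Nat.cast_nonneg k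
  rw [Ex_resample hpsum v (fun n =>
      ∑ t ∈ (Ico (min (F.B v) T) (min (F.D v) T)).filter (fun t => v ∈ F.E (Sum.inr t)),
        F.en K v n t),
    Ex_resample hpsum v (fun n =>
      ∑ t ∈ (Ico (min (F.B v) T) (min (F.D v) T)).filter (fun t => v ∈ F.E (Sum.inr t)),
        F.dl K n t),
    Ex_resample hpsum v (fun n =>
      ∑ t ∈ (Ico (min (F.B v) T) (min (F.D v) T)).filter (fun t => F.In v t), F.dl K n t),
    Ex_resample hpsum v (fun n => F.Nv v (pos (F.mm K n) (min (F.D v) T))),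
    Ex_resample hpsum v (fun n =>
      ∑ t ∈ (Ico (min (F.B v) T) (min (F.D v) T)).filter (fun t => ¬ F.In v t), F.exi K v n t),
    ← Ex_mul, ← Ex_mul, ← Ex_mul, ← Ex_mul, ← Ex_const hpsum (T * (k + 1) *
      (prb (F.η v) K 0 + 2 / (K : ℕ))), ← Ex_add, ← Ex_add, ← Ex_add, ← Ex_add]
  apply Ex_mono hp0
  intro n hn
  have hn' : ∀ u, n u < K := by
    intro u
    have := (Fintype.mem_piFinset.1 hn) u
    exact mem_range.1 this
  have hnj : ∀ j, j ≤ K' → ∀ u, update n v j u ≤ K := by
    intro j hj u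
    by_cases hu : u = v
    · subst hu; rw [update_self]; omega
    · rw [update_of_ne hu]; exact (hn' u).le
  have key := one_dim (K' := K') (F.η_ge v) hK2 hδ hkr
    (B := min (F.B v) T) (D := min (F.D v) T) (T := T)
    (min_le_min_right T (F.B_le_D v)) (min_le_right _ _)
    (fun t j => G (F.mm K (update n v j)) t)
    (fun t j => F.Nv v (pos (F.mm K (update n v j)) t))
    (fun t j => F.en K v (update n v j) t)
    (fun t j => F.exi K v (update n v j) t)
    (fun t => v ∈ F.E (Sum.inr t)) (fun t => F.In v t)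
    (fun t ht => F.In_of_mem t v ht)
    (fun t j => F.Nv_nonneg _ _) (fun t j => F.Nv_le _ _)
    (fun j _ => F.N_birth K v _ (min_le_left _ _))
    (fun t j _ => F.Nv_step K v _ t)
    (fun t j => by unfold en; split_ifs <;> norm_num)
    (fun t j => F.exi_nonneg _ _ _ _)
    (fun t _ _ hS j _ => by unfold en; rw [if_neg]; exact fun h => hS h.1)
    (fun t _ _ hS j _ => by unfold exi; rw [if_neg]; exact fun h => h.2 hS)
    (fun t j _ _ hj => G_mono_step (F.mm_nonneg hK (hnj j hj) t))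
    (fun t _ ht j _ => by
      have h := F.G_shift_low (F.xi K (update n v j)) v (F.w v / 4 / K)
        (ht.trans (min_le_left _ _))
      rw [← F.xi_update] at h
      exact h)
    (fun t _ ht j _ => by
      have h := F.G_shift_up (F.xi K (update n v j)) v (F.w v / 4 / K)
        (ht.trans (min_le_left _ _))
      rw [← F.xi_update] at h
      exact h)
  rw [← hKdef, hKδ] at key
  refine key.trans (le_of_eq ?_)
  rfl

/-- Total weight of a configuration. -/
noncomputable def Wt (x : Fin k → Tok k) : ℝ := ∑ i, ∑ v ∈ F.E (x i), F.w v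

theorem Wt_nonneg (x : Fin k → Tok k) : 0 ≤ F.Wt x :=
  sum_nonneg fun _ _ => sum_nonneg fun v _ => (F.w_pos v).le

theorem Wt_update (x : Fin k → Tok k) (i : Fin k) (a : Tok k) :
    F.Wt (update x i a) = F.Wt x + ∑ v ∈ F.E a, F.w v - ∑ v ∈ F.E (x i), F.w v := by
  unfold Wt
  rw [← add_sum_erase univ _ (mem_univ i),
    ← add_sum_erase univ (fun j => ∑ v ∈ F.E (x j), F.w v) (mem_univ i)]
  have : ∑ j ∈ univ.erase i, ∑ v ∈ F.E (update x i a j), F.w v =
      ∑ j ∈ univ.erase i, ∑ v ∈ F.E (x j), F.w v := by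
    apply sum_congr rfl
    intro j hj
    rw [update_of_ne (ne_of_mem_erase hj)]
  rw [this]
  simp only [update_self]
  ring

theorem sdiff_diff (S U : Finset V) (f : V → ℝ) :
    ∑ v ∈ S \ U, f v - ∑ v ∈ U \ S, f v = ∑ v ∈ S, f v - ∑ v ∈ U, f v := by
  have h1 := sum_inter_add_sum_sdiff S U f
  have h2 := sum_inter_add_sum_sdiff U S f
  rw [inter_comm] at h2
  linarith

/-- Total entering weight of a path of tokens `a 0, a 1, ...`. -/
noncomputable def EnW (a : ℕ → Tok k) (T : ℕ) : ℝ :=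
  ∑ t ∈ range T, ∑ v ∈ F.E (Sum.inr t) \ F.E (a t), F.w v

/-- Total leaving weight. -/
noncomputable def ExW (a : ℕ → Tok k) (T : ℕ) : ℝ :=
  ∑ t ∈ range T, ∑ v ∈ F.E (a t) \ F.E (Sum.inr t), F.w v

theorem ExW_le_EnW (K : ℕ) (n : V → ℕ) (T : ℕ) : F.ExW (F.X K n) T ≤ F.EnW (F.X K n) T := by
  have h : ∀ T, F.EnW (F.X K n) T - F.ExW (F.X K n) T = F.Wt (pos (F.mm K n) T) := by
    intro T
    induction T with
    | zero =>
      simp only [EnW, ExW, range_zero, sum_empty, sub_zero]
      unfold Wt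
      symm
      apply sum_eq_zero
      intro i _
      change ∑ v ∈ F.E (Sum.inl i), F.w v = 0
      rw [F.E_inl, sum_empty]
    | succ T ih =>
      rw [pos_succ, F.Wt_update, ← ih, EnW, ExW, sum_range_succ, sum_range_succ]
      have := sdiff_diff (F.E (Sum.inr T)) (F.E (F.X K n T)) F.w
      have e : F.E (F.X K n T) = F.E (pos (F.mm K n) T (srv (F.mm K n) T)) := rfl
      rw [← e]
      unfold EnW ExW
      linarith
  have := h T
  have := F.Wt_nonneg (pos (F.mm K n) T)
  linarith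

open Classical in
theorem EnW_eq (K : ℕ) (n : V → ℕ) (T : ℕ) :
    F.EnW (F.X K n) T = ∑ v, F.w v *
      ∑ t ∈ (Ico (min (F.B v) T) (min (F.D v) T)).filter (fun t => v ∈ F.E (Sum.inr t)),
        F.en K v n t := by
  have h1 : ∀ v, ∑ t ∈ (Ico (min (F.B v) T) (min (F.D v) T)).filter
      (fun t => v ∈ F.E (Sum.inr t)), F.en K v n t = ∑ t ∈ range T, F.en K v n t := by
    intro v
    apply sum_subset_zero_on_sdiff
    · intro t ht
      rw [mem_filter, mem_Ico] at ht
      rw [mem_range]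
      have := ht.1.2
      exact lt_of_lt_of_le this (min_le_right _ _)
    · intro t ht
      rw [mem_sdiff, mem_range, mem_filter, mem_Ico] at ht
      unfold en
      rw [if_neg]
      intro h
      apply ht.2
      have h2 := F.life t v h.1
      refine ⟨⟨(min_le_left _ _).trans h2.1, lt_min h2.2 ht.1⟩, h.1⟩
    · intro t _; rfl
  simp_rw [h1]
  have h2 : ∀ v, F.w v * ∑ t ∈ range T, F.en K v n t =
      ∑ t ∈ range T, F.w v * F.en K v n t := fun v => by rw [mul_sum]
  simp_rw [h2]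
  rw [sum_comm]
  unfold EnW
  apply sum_congr rfl
  intro t _
  have h3 : ∀ v, F.w v * F.en K v n t = if v ∈ F.E (Sum.inr t) \ F.E (F.X K n t) then F.w v else 0 := by
    intro v
    unfold en
    by_cases h : v ∈ F.E (Sum.inr t) ∧ v ∉ F.E (F.X K n t)
    · rw [if_pos h, if_pos (mem_sdiff.2 h), mul_one]
    · rw [if_neg h, if_neg (fun h' => h (mem_sdiff.1 h')), mul_zero]
  simp_rw [h3]
  rw [sum_ite_mem, univ_inter]

theorem Nv_le_en (K : ℕ) (v : V) (n : V → ℕ) {T D' : ℕ} (hD : D' ≤ T) :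
    F.Nv v (pos (F.mm K n) D') ≤ ∑ t ∈ range T, F.en K v n t := by
  have h : ∀ D', F.Nv v (pos (F.mm K n) D') ≤ ∑ t ∈ range D', F.en K v n t := by
    intro D'
    induction D' with
    | zero => rw [range_zero, sum_empty]; exact (F.Nv_start v).le
    | succ D' ih =>
      rw [F.Nv_step, sum_range_succ]
      have := F.exi_nonneg K v n D'
      linarith
  refine (h D').trans ?_
  apply sum_le_sum_of_subset_of_nonneg
  · intro t ht; rw [mem_range] at ht ⊢; omega
  · intro t _ _; exact F.en_nonneg K v n t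

end FData

end Crest.Agent.R314.Tk
end

-- ▼ part R314/Tok6
section

/-!
R314, Theorem A, part 6: the total FPL inequality.
-/

set_option autoImplicit false
set_option linter.unusedSectionVars false

namespace Crest.Agent.R314.Tk

open Finset Function

namespace FData

variable {k : ℕ} [NeZero k] {V : Type*} [Fintype V] [DecidableEq V] (F : FData k V)

/-- Expectation over the noise of the system `F`. -/
noncomputable def EE (K : ℕ) (f : (V → ℕ) → ℝ) : ℝ := Ex (fun u => prb (F.η u) K) K f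

theorem EE_mono {K : ℕ} (hK : 0 < K) {f g : (V → ℕ) → ℝ} (h : ∀ n ∈ Om V K, f n ≤ g n) :
    F.EE K f ≤ F.EE K g := Ex_mono (fun u j => prb_nonneg (F.η_ge u) hK j) h

theorem EE_const {K : ℕ} (hK : 0 < K) (c : ℝ) : F.EE K (fun _ => c) = c :=
  Ex_const (fun u => prb_sum (F.η_ge u) hK) c

theorem EE_add (K : ℕ) (f g : (V → ℕ) → ℝ) :
    F.EE K (fun n => f n + g n) = F.EE K f + F.EE K g := Ex_add _ _ _ _

theorem EE_mul (K : ℕ) (c : ℝ) (f : (V → ℕ) → ℝ) :
    F.EE K (fun n => c * f n) = c * F.EE K f := Ex_mul _ _ _ _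

theorem EE_sum {ι : Type*} (K : ℕ) (s : Finset ι) (f : ι → (V → ℕ) → ℝ) :
    F.EE K (fun n => ∑ i ∈ s, f i n) = ∑ i ∈ s, F.EE K (f i) := Ex_sum _ _ _ _

theorem G_telescope (K : ℕ) (n : V → ℕ) (T : ℕ) :
    ∑ t ∈ range T, F.dl K n t = G (F.mm K n) T := by
  unfold dl
  rw [sum_range_sub (fun t => G (F.mm K n) t), G_zero, sub_zero]

open Classical in
/-- **Theorem A** (algorithm side). -/
theorem main_ineq {K' T : ℕ} (hK2 : ∀ v, F.η v ≤ (K' + 1 : ℕ)) {Lam β : ℝ}
    (hLam : 0 ≤ Lam) (hβ : 0 ≤ β)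
    (H1 : ∀ t < T, ∑ v ∈ F.E (Sum.inr t), F.η v ≤ Lam)
    (H2 : ∀ t < T, ∑ v ∈ univ.filter (fun v => F.B v ≤ t ∧ t < F.D v ∧ F.In v t),
      Real.exp (-F.η v / 2) ≤ β)
    (H3 : ∀ t < T, ∀ s < t, ∑ v ∈ (F.E (Sum.inr s)).filter (fun v => t < F.D v ∧ ¬ F.In v t), F.w v ≤
      1 / 8 * ∑ v ∈ F.E (Sum.inr s) \ F.E (Sum.inr t), F.w v) :
    F.EE (K' + 1) (fun n => F.EnW (F.X (K' + 1) n) T) ≤
      (8 * Lam + 16 * β) * F.EE (K' + 1) (fun n => G (F.mm (K' + 1) n) T) +
      2 * ∑ v, F.w v * (T * (k + 1) * (prb (F.η v) (K' + 1) 0 + 2 / (K' + 1 : ℕ))) := by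
  set K := K' + 1 with hKdef
  have hK : 0 < K := Nat.succ_pos _
  have hOm : ∀ n ∈ Om V K, ∀ u, n u ≤ K := by
    intro n hn u
    have := (Fintype.mem_piFinset.1 hn) u
    exact (mem_range.1 this).le
  have hdl : ∀ n ∈ Om V K, ∀ t, 0 ≤ F.dl K n t := fun n hn t => F.dl_nonneg hK (hOm n hn) t
  -- the sum over the nodes
  have hsum : F.EE K (fun n => F.EnW (F.X K n) T) = ∑ v, F.w v * F.EE K (fun n =>
      ∑ t ∈ (Ico (min (F.B v) T) (min (F.D v) T)).filter (fun t => v ∈ F.E (Sum.inr t)),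
        F.en K v n t) := by
    simp_rw [F.EnW_eq]
    rw [F.EE_sum]
    exact sum_congr rfl fun v _ => F.EE_mul _ _ _
  have hnode : ∀ v, F.w v * F.EE K (fun n =>
      ∑ t ∈ (Ico (min (F.B v) T) (min (F.D v) T)).filter (fun t => v ∈ F.E (Sum.inr t)),
        F.en K v n t) ≤
      4 * F.EE K (fun n => ∑ t ∈ range T, if v ∈ F.E (Sum.inr t) then F.η v * F.dl K n t else 0) +
      8 * F.EE K (fun n => ∑ t ∈ range T, if F.B v ≤ t ∧ t < F.D v ∧ F.In v t then
        Real.exp (-F.η v / 2) * F.dl K n t else 0) +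
      1 / 16 * F.EE K (fun n => F.w v * ∑ t ∈ range T, F.en K v n t) +
      2 * F.EE K (fun n => ∑ t ∈ range T,
        if v ∈ F.E (F.X K n t) ∧ t < F.D v ∧ ¬ F.In v t then F.w v else 0) +
      F.w v * (T * (k + 1) * (prb (F.η v) (K' + 1) 0 + 2 / (K' + 1 : ℕ))) := by
    intro v
    have hw := F.w_pos v
    have h0 : F.EE K (fun n =>
        ∑ t ∈ (Ico (min (F.B v) T) (min (F.D v) T)).filter (fun t => v ∈ F.E (Sum.inr t)),
          F.en K v n t) ≤
      F.η v / (F.w v / 4) * F.EE K (fun n =>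
        ∑ t ∈ (Ico (min (F.B v) T) (min (F.D v) T)).filter (fun t => v ∈ F.E (Sum.inr t)),
          F.dl K n t) +
      2 * Real.exp (-F.η v / 2) / (F.w v / 4) * F.EE K
        (fun n => ∑ t ∈ (Ico (min (F.B v) T) (min (F.D v) T)).filter (fun t => F.In v t),
          F.dl K n t) +
      2 * Real.exp (-F.η v / 2) * F.EE K
        (fun n => F.Nv v (pos (F.mm K n) (min (F.D v) T))) +
      2 * F.EE K (fun n =>
        ∑ t ∈ (Ico (min (F.B v) T) (min (F.D v) T)).filter (fun t => ¬ F.In v t),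
          F.exi K v n t) +
      T * (k + 1) * (prb (F.η v) (K' + 1) 0 + 2 / (K' + 1 : ℕ)) :=
      F.node_ineq (K' := K') (T := T) v (hK2 v)
    have h1 := mul_le_mul_of_nonneg_left h0 hw.le
    have e1 : F.w v * (F.η v / (F.w v / 4) * F.EE K (fun n =>
        ∑ t ∈ (Ico (min (F.B v) T) (min (F.D v) T)).filter (fun t => v ∈ F.E (Sum.inr t)),
          F.dl K n t)) ≤ 4 * F.EE K (fun n => ∑ t ∈ range T,
            if v ∈ F.E (Sum.inr t) then F.η v * F.dl K n t else 0) := by
      have e : F.w v * (F.η v / (F.w v / 4) * F.EE K (fun n =>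
        ∑ t ∈ (Ico (min (F.B v) T) (min (F.D v) T)).filter (fun t => v ∈ F.E (Sum.inr t)),
          F.dl K n t)) = 4 * (F.η v * F.EE K (fun n =>
        ∑ t ∈ (Ico (min (F.B v) T) (min (F.D v) T)).filter (fun t => v ∈ F.E (Sum.inr t)),
          F.dl K n t)) := by
        field_simp
      rw [e, ← F.EE_mul]
      apply mul_le_mul_of_nonneg_left _ (by norm_num)
      apply F.EE_mono hK
      intro n hn
      rw [mul_sum, ← sum_filter]
      apply sum_le_sum_of_subset_of_nonneg
      · intro t ht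
        rw [mem_filter, mem_Ico] at ht
        rw [mem_filter, mem_range]
        exact ⟨lt_of_lt_of_le ht.1.2 (min_le_right _ _), ht.2⟩
      · intro t _ _
        have := hdl n hn t
        have := F.η_ge v
        positivity
    have e2 : F.w v * (2 * Real.exp (-F.η v / 2) / (F.w v / 4) *
        F.EE K
        (fun n => ∑ t ∈ (Ico (min (F.B v) T) (min (F.D v) T)).filter (fun t => F.In v t),
          F.dl K n t)) ≤ 8 * F.EE K (fun n => ∑ t ∈ range T,
            if F.B v ≤ t ∧ t < F.D v ∧ F.In v t then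
              Real.exp (-F.η v / 2) * F.dl K n t else 0) := by
      have e : F.w v * (2 * Real.exp (-F.η v / 2) / (F.w v / 4) *
        F.EE K
        (fun n => ∑ t ∈ (Ico (min (F.B v) T) (min (F.D v) T)).filter (fun t => F.In v t),
          F.dl K n t)) = 8 * (Real.exp (-F.η v / 2) * F.EE K (fun n =>
        ∑ t ∈ (Ico (min (F.B v) T) (min (F.D v) T)).filter (fun t => F.In v t),
          F.dl K n t)) := by
        field_simp
        ring
      rw [e, ← F.EE_mul]
      apply mul_le_mul_of_nonneg_left _ (by norm_num)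
      apply F.EE_mono hK
      intro n hn
      rw [mul_sum, ← sum_filter]
      apply sum_le_sum_of_subset_of_nonneg
      · intro t ht
        rw [mem_filter, mem_Ico] at ht
        rw [mem_filter, mem_range]
        have h3 : t < T := lt_of_lt_of_le ht.1.2 (min_le_right _ _)
        refine ⟨h3, ?_, lt_of_lt_of_le ht.1.2 (min_le_left _ _), ht.2⟩
        rcases min_le_iff.1 ht.1.1 with h | h
        · exact h
        · omega
      · intro t _ _
        have := hdl n hn t
        positivity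
    have e3 : F.w v * (2 * Real.exp (-F.η v / 2) * F.EE K
        (fun n => F.Nv v (pos (F.mm K n) (min (F.D v) T)))) ≤
        1 / 16 * F.EE K (fun n => F.w v * ∑ t ∈ range T, F.en K v n t) := by
      have hb := exp_half_le' (F.η_ge v)
      have h2 : F.EE K (fun n => F.Nv v (pos (F.mm K n) (min (F.D v) T))) ≤
          F.EE K (fun n => ∑ t ∈ range T, F.en K v n t) :=
        F.EE_mono hK fun n _ => F.Nv_le_en K v n (min_le_right _ _)
      have h3 : 0 ≤ F.EE K (fun n => F.Nv v (pos (F.mm K n) (min (F.D v) T))) := by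
        have := F.EE_mono hK (f := fun _ => 0)
          (g := fun n => F.Nv v (pos (F.mm K n) (min (F.D v) T)))
          (fun n _ => F.Nv_nonneg _ _)
        rwa [F.EE_const hK] at this
      rw [F.EE_mul]
      have h4 : 0 < Real.exp (-F.η v / 2) := Real.exp_pos _
      calc F.w v * (2 * Real.exp (-F.η v / 2) *
            F.EE K (fun n => F.Nv v (pos (F.mm K n) (min (F.D v) T)))) ≤
          F.w v * (2 * (1 / 32) * F.EE K (fun n => ∑ t ∈ range T, F.en K v n t)) := by
            gcongr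
        _ = _ := by ring
    have e4 : F.w v * (2 * F.EE K (fun n =>
        ∑ t ∈ (Ico (min (F.B v) T) (min (F.D v) T)).filter (fun t => ¬ F.In v t),
          F.exi K v n t)) ≤ 2 * F.EE K (fun n => ∑ t ∈ range T,
        if v ∈ F.E (F.X K n t) ∧ t < F.D v ∧ ¬ F.In v t then F.w v else 0) := by
      have e : F.w v * (2 * F.EE K (fun n =>
        ∑ t ∈ (Ico (min (F.B v) T) (min (F.D v) T)).filter (fun t => ¬ F.In v t),
          F.exi K v n t)) = 2 * (F.w v * F.EE K (fun n =>
        ∑ t ∈ (Ico (min (F.B v) T) (min (F.D v) T)).filter (fun t => ¬ F.In v t),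
          F.exi K v n t)) := by
        ring
      rw [e, ← F.EE_mul]
      apply mul_le_mul_of_nonneg_left _ (by norm_num)
      apply F.EE_mono hK
      intro n hn
      rw [mul_sum]
      have h5 : ∑ t ∈ (Ico (min (F.B v) T) (min (F.D v) T)).filter (fun t => ¬ F.In v t),
          F.w v * F.exi K v n t ≤
          ∑ t ∈ (Ico (min (F.B v) T) (min (F.D v) T)).filter (fun t => ¬ F.In v t),
          (if v ∈ F.E (F.X K n t) ∧ t < F.D v ∧ ¬ F.In v t then F.w v else 0) := by
        apply sum_le_sum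
        intro t ht
        rw [mem_filter, mem_Ico] at ht
        unfold exi
        by_cases h6 : v ∈ F.E (F.X K n t) ∧ v ∉ F.E (Sum.inr t)
        · rw [if_pos h6, if_pos ⟨h6.1, lt_of_lt_of_le ht.1.2 (min_le_left _ _), ht.2⟩, mul_one]
        · rw [if_neg h6, mul_zero]
          split_ifs
          · exact hw.le
          · exact le_rfl
      refine h5.trans ?_
      apply sum_le_sum_of_subset_of_nonneg
      · intro t ht
        rw [mem_filter, mem_Ico] at ht
        rw [mem_range]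
        exact lt_of_lt_of_le ht.1.2 (min_le_right _ _)
      · intro t _ _
        split_ifs
        · exact hw.le
        · exact le_rfl
    refine h1.trans ?_
    rw [mul_add, mul_add, mul_add, mul_add]
    linarith
  -- sum up
  have hA : ∑ v, (4 * F.EE K (fun n => ∑ t ∈ range T,
      if v ∈ F.E (Sum.inr t) then F.η v * F.dl K n t else 0)) ≤
      4 * Lam * F.EE K (fun n => G (F.mm K n) T) := by
    rw [← mul_sum, ← F.EE_sum, mul_assoc, ← F.EE_mul K Lam]
    apply mul_le_mul_of_nonneg_left _ (by norm_num)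
    apply F.EE_mono hK
    intro n hn
    rw [← F.G_telescope, mul_sum, sum_comm]
    apply sum_le_sum
    intro t ht
    rw [sum_ite_mem, univ_inter, ← sum_mul]
    exact mul_le_mul_of_nonneg_right (H1 t (mem_range.1 ht)) (hdl n hn t)
  have hB : ∑ v, (8 * F.EE K (fun n => ∑ t ∈ range T,
      if F.B v ≤ t ∧ t < F.D v ∧ F.In v t then Real.exp (-F.η v / 2) * F.dl K n t else 0)) ≤
      8 * β * F.EE K (fun n => G (F.mm K n) T) := by
    rw [← mul_sum, ← F.EE_sum, mul_assoc, ← F.EE_mul K β]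
    apply mul_le_mul_of_nonneg_left _ (by norm_num)
    apply F.EE_mono hK
    intro n hn
    rw [← F.G_telescope, mul_sum, sum_comm]
    apply sum_le_sum
    intro t ht
    rw [← sum_filter, ← sum_mul]
    exact mul_le_mul_of_nonneg_right (H2 t (mem_range.1 ht)) (hdl n hn t)
  have hC : ∑ v, (1 / 16 * F.EE K (fun n => F.w v * ∑ t ∈ range T, F.en K v n t)) =
      1 / 16 * F.EE K (fun n => F.EnW (F.X K n) T) := by
    rw [← mul_sum, ← F.EE_sum]
    congr 2
    funext n
    have h2 : ∀ v, F.w v * ∑ t ∈ range T, F.en K v n t =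
        ∑ t ∈ range T, F.w v * F.en K v n t := fun v => by rw [mul_sum]
    simp_rw [h2]
    rw [sum_comm]
    unfold EnW
    apply sum_congr rfl
    intro t _
    have h3 : ∀ v, F.w v * F.en K v n t =
        if v ∈ F.E (Sum.inr t) \ F.E (F.X K n t) then F.w v else 0 := by
      intro v
      unfold en
      by_cases h : v ∈ F.E (Sum.inr t) ∧ v ∉ F.E (F.X K n t)
      · rw [if_pos h, if_pos (mem_sdiff.2 h), mul_one]
      · rw [if_neg h, if_neg (fun h' => h (mem_sdiff.1 h')), mul_zero]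
    simp_rw [h3]
    rw [sum_ite_mem, univ_inter]
  have hD : ∑ v, (2 * F.EE K (fun n => ∑ t ∈ range T,
        if v ∈ F.E (F.X K n t) ∧ t < F.D v ∧ ¬ F.In v t then F.w v else 0)) ≤
      1 / 4 * F.EE K (fun n => F.EnW (F.X K n) T) := by
    rw [← mul_sum, ← F.EE_sum]
    have : (1 : ℝ) / 4 * F.EE K (fun n => F.EnW (F.X K n) T) =
        2 * F.EE K (fun n => 1 / 8 * F.EnW (F.X K n) T) := by rw [F.EE_mul]; ring
    rw [this]
    apply mul_le_mul_of_nonneg_left _ (by norm_num)
    apply F.EE_mono hK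
    intro n hn
    have h1 := F.ExW_le_EnW K n T
    refine le_trans ?_ (mul_le_mul_of_nonneg_left h1 (by norm_num : (0 : ℝ) ≤ 1 / 8))
    unfold ExW
    rw [mul_sum, sum_comm]
    apply sum_le_sum
    intro t ht
    rw [← sum_filter]
    rcases pos_tok (F.mm K n) t (srv (F.mm K n) t) with ⟨j, hj⟩ | ⟨s, hs, hs'⟩
    · have e : F.X K n t = Sum.inl j := hj
      rw [e, F.E_inl]
      simp
    · have e : F.X K n t = Sum.inr s := hs'
      rw [e]
      have h2 := H3 t (mem_range.1 ht) s hs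
      refine le_trans (le_of_eq ?_) h2
      apply sum_congr _ (fun _ _ => rfl)
      ext v
      simp
  have hTot : F.EE K (fun n => F.EnW (F.X K n) T) ≤
      4 * Lam * F.EE K (fun n => G (F.mm K n) T) + 8 * β * F.EE K (fun n => G (F.mm K n) T) +
      1 / 16 * F.EE K (fun n => F.EnW (F.X K n) T) + 1 / 4 * F.EE K (fun n => F.EnW (F.X K n) T) +
      ∑ v, F.w v * (T * (k + 1) * (prb (F.η v) (K' + 1) 0 + 2 / (K' + 1 : ℕ))) := by
    calc F.EE K (fun n => F.EnW (F.X K n) T) = _ := hsum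
      _ ≤ _ := sum_le_sum fun v _ => hnode v
      _ ≤ _ := by
        rw [sum_add_distrib, sum_add_distrib, sum_add_distrib, sum_add_distrib, hC]
        linarith
  have hG0 : 0 ≤ F.EE K (fun n => G (F.mm K n) T) := by
    have := F.EE_mono hK (f := fun _ => 0) (g := fun n => G (F.mm K n) T) (fun n hn => by
      rw [← F.G_telescope]
      exact sum_nonneg fun t _ => hdl n hn t)
    rwa [F.EE_const hK] at this
  have hE0 : 0 ≤ ∑ v, F.w v * (T * (k + 1) * (prb (F.η v) (K' + 1) 0 + 2 / (K' + 1 : ℕ))) := by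
    apply sum_nonneg
    intro v _
    have := F.w_pos v
    have := prb_nonneg (F.η_ge v) hK 0
    positivity
  have hLG : 0 ≤ Lam * F.EE K (fun n => G (F.mm K n) T) := mul_nonneg hLam hG0
  have hBG : 0 ≤ β * F.EE K (fun n => G (F.mm K n) T) := mul_nonneg hβ hG0
  nlinarith

end FData

end Crest.Agent.R314.Tk
end

-- ▼ part R314/Tok7
section

/-!
R314, Theorem A, part 7: the comparator side, and the final inequality for one token system.
-/

set_option autoImplicit false
set_option linter.unusedSectionVars false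

namespace Crest.Agent.R314.Tk

open Finset Function

namespace FData

variable {k : ℕ} [NeZero k] {V : Type*} [Fintype V] [DecidableEq V] (F : FData k V)

theorem EE_coord {K : ℕ} (hK : 0 < K) (v : V) (f : ℕ → ℝ) :
    F.EE K (fun n => f (n v)) = ∑ j ∈ range K, prb (F.η v) K j * f j := by
  have hpsum : ∀ u, ∑ j ∈ range K, prb (F.η u) K j = 1 := fun u => prb_sum (F.η_ge u) hK
  rw [EE, Ex_resample hpsum v (fun n => f (n v))]
  simp only [update_self]
  exact Ex_const hpsum _

theorem EE_xi_le {K : ℕ} (hK : 0 < K) (v : V) :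
    F.EE K (fun n => F.xi K n v) ≤ 3 / F.η v * (F.w v / 4) := by
  have h1 : F.EE K (fun n => F.xi K n v) =
      (F.w v / 4) * ∑ j ∈ range K, prb (F.η v) K j * (j / K) := by
    have := F.EE_coord hK v (fun j => (j : ℝ) * (F.w v / 4 / K))
    unfold xi
    rw [this, mul_sum]
    apply sum_congr rfl
    intro j _
    ring
  rw [h1, mul_comm]
  have := prb_mean (F.η_ge v) hK
  have hw := F.w_pos v
  gcongr

/-- The price of the step `a → inr t` for the comparator. -/
noncomputable def cstep (a : Tok k) (t : ℕ) : ℝ :=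
  F.κ t a + ∑ v ∈ F.E (Sum.inr t) \ F.E a, 3 / F.η v * (F.w v / 4) +
    ∑ v ∈ (F.E a \ F.E (Sum.inr t)).filter (fun v => t < F.D v), F.w v / 4

theorem EE_mm_le {K : ℕ} (hK : 0 < K) (t : ℕ) (a : Tok k) :
    F.EE K (fun n => F.mm K n t a) ≤ F.cstep a t := by
  have h1 : ∀ n, F.mm K n t a ≤ (F.κ t a + ∑ v ∈ (F.E a \ F.E (Sum.inr t)).filter
      (fun v => t < F.D v), F.w v / 4) + ∑ v ∈ F.E (Sum.inr t) \ F.E a, F.xi K n v := by
    intro n
    unfold mm mcost
    have : ∑ v ∈ (F.E a \ F.E (Sum.inr t)).filter (fun v => t < F.D v), (F.w v / 4 - F.xi K n v) ≤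
        ∑ v ∈ (F.E a \ F.E (Sum.inr t)).filter (fun v => t < F.D v), F.w v / 4 := by
      apply sum_le_sum
      intro v _
      have := F.xi_nonneg K n v
      linarith
    linarith
  refine (F.EE_mono hK (fun n _ => h1 n)).trans ?_
  rw [F.EE_add, F.EE_const hK, F.EE_sum]
  unfold cstep
  have : ∑ v ∈ F.E (Sum.inr t) \ F.E a, F.EE K (fun n => F.xi K n v) ≤
      ∑ v ∈ F.E (Sum.inr t) \ F.E a, 3 / F.η v * (F.w v / 4) :=
    sum_le_sum fun v _ => F.EE_xi_le hK v
  linarith

theorem EE_G_le {K : ℕ} (hK : 0 < K) (j : ℕ → Fin k) (T : ℕ) :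
    F.EE K (fun n => G (F.mm K n) T) ≤ ∑ t ∈ range T, F.cstep (cpos j t (j t)) t := by
  refine (F.EE_mono hK (fun n _ => G_le_path (F.mm K n) j T)).trans ?_
  rw [F.EE_sum]
  exact sum_le_sum fun t _ => F.EE_mm_le hK t _

/-- The discretisation error. -/
noncomputable def err (w η : V → ℝ) (T k : ℕ) (K : ℕ) : ℝ :=
  2 * ∑ v, w v * (T * (k + 1) * ((2 * η v + 3) / K))

open Classical in
/-- **Theorem A** for one token system. -/
theorem thmA {K T : ℕ} (hK : 0 < K) (hK2 : ∀ v, F.η v ≤ K) {Lam β : ℝ}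
    (hLam : 0 ≤ Lam) (hβ : 0 ≤ β)
    (H1 : ∀ t < T, ∑ v ∈ F.E (Sum.inr t), F.η v ≤ Lam)
    (H2 : ∀ t < T, ∑ v ∈ univ.filter (fun v => F.B v ≤ t ∧ t < F.D v ∧ F.In v t),
      Real.exp (-F.η v / 2) ≤ β)
    (H3 : ∀ t < T, ∀ s < t, ∑ v ∈ (F.E (Sum.inr s)).filter (fun v => t < F.D v ∧ ¬ F.In v t), F.w v ≤
      1 / 8 * ∑ v ∈ F.E (Sum.inr s) \ F.E (Sum.inr t), F.w v) (j : ℕ → Fin k) :
    F.EE K (fun n => F.EnW (F.X K n) T) ≤
      (8 * Lam + 16 * β) * ∑ t ∈ range T, F.cstep (cpos j t (j t)) t + err F.w F.η T k K := by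
  obtain ⟨K', rfl⟩ : ∃ K', K = K' + 1 := ⟨K - 1, by omega⟩
  have h1 := F.main_ineq (K' := K') (T := T) hK2 hLam hβ H1 H2 H3
  have h2 := F.EE_G_le hK j T
  have h3 : (8 * Lam + 16 * β) * F.EE (K' + 1) (fun n => G (F.mm (K' + 1) n) T) ≤
      (8 * Lam + 16 * β) * ∑ t ∈ range T, F.cstep (cpos j t (j t)) t := by
    gcongr
  have h4 : 2 * ∑ v, F.w v * (T * (k + 1) * (prb (F.η v) (K' + 1) 0 + 2 / (K' + 1 : ℕ))) ≤
      err F.w F.η T k (K' + 1) := by
    unfold err
    apply mul_le_mul_of_nonneg_left _ (by norm_num)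
    apply sum_le_sum
    intro v _
    have h5 := prb_zero_le (F.η_ge v) hK
    have h6 := F.w_pos v
    have h7 : prb (F.η v) (K' + 1) 0 + 2 / ((K' + 1 : ℕ) : ℝ) ≤
        (2 * F.η v + 3) / ((K' + 1 : ℕ) : ℝ) := by
      calc _ ≤ (2 * F.η v + 1) / ((K' + 1 : ℕ) : ℝ) + 2 / ((K' + 1 : ℕ) : ℝ) := by gcongr
        _ = _ := by ring
    gcongr
  linarith

end FData

theorem err_small {V : Type*} [Fintype V] (w η : V → ℝ) (T k : ℕ) {ε : ℝ} (hε : 0 < ε) :
    ∃ K : ℕ, 0 < K ∧ (∀ v, η v ≤ K) ∧ FData.err w η T k K ≤ ε := by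
  classical
  set S : ℝ := 2 * ∑ v, w v * (T * (k + 1) * (2 * η v + 3)) with hS
  obtain ⟨K1, hK1⟩ := exists_nat_ge (|S| / ε)
  obtain ⟨K2, hK2⟩ := exists_nat_ge (∑ v, |η v|)
  refine ⟨K1 + K2 + 1, by omega, ?_, ?_⟩
  · intro v
    have h1 : |η v| ≤ ∑ v, |η v| :=
      single_le_sum (f := fun v => |η v|) (fun _ _ => abs_nonneg _) (mem_univ v)
    have h2 := le_abs_self (η v)
    push_cast
    have : (0 : ℝ) ≤ K1 := Nat.cast_nonneg _
    linarith
  · have e : FData.err w η T k (K1 + K2 + 1) = S / ((K1 + K2 + 1 : ℕ) : ℝ) := by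
      rw [hS, FData.err, mul_div_assoc, sum_div]
      congr 1
      apply sum_congr rfl
      intro v _
      ring
    rw [e]
    have hK : (0 : ℝ) < ((K1 + K2 + 1 : ℕ) : ℝ) := by positivity
    rw [div_le_iff₀ hK]
    have h1 : |S| ≤ K1 * ε := by rwa [div_le_iff₀ hε] at hK1
    have h2 := le_abs_self S
    have h3 : (K1 : ℝ) * ε ≤ ε * ((K1 + K2 + 1 : ℕ) : ℝ) := by
      push_cast
      have : (0 : ℝ) ≤ K2 := Nat.cast_nonneg _
      nlinarith
    linarith

end Crest.Agent.R314.Tk
end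

-- ▼ part R314/Tok8

/-!
R314, Theorem A, part 8: online policies from an adapted family of token systems, and the link to
`pathCost`, `dcost`.
-/

set_option autoImplicit false
set_option linter.unusedSectionVars false

namespace Crest.Agent.R314.Tk

open Finset Function Crest.LogicCS.KServer

/-- The token `a` exists before step `t`. -/
def Old {k : ℕ} (t : ℕ) (a : Tok k) : Prop := ∀ r, a = Sum.inr r → r < t

theorem UR.old {k : ℕ} {m : ℕ → Tok k → ℝ} {t : ℕ} {x : Fin k → Tok k} {c : ℝ}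
    (h : UR m t x c) : ∀ i, Old t (x i) := by
  induction h with
  | zero σ => intro i r hr; simp at hr
  | @step t x c i hx ih =>
    intro l r hr
    by_cases hl : l = i
    · subst hl
      rw [update_self] at hr
      have := Sum.inr.inj hr
      omega
    · rw [update_of_ne hl] at hr
      have := ih l r hr
      omega

theorem UR.congr_old {k : ℕ} {m m' : ℕ → Tok k → ℝ} {t : ℕ} {x : Fin k → Tok k} {c : ℝ}
    (h : UR m t x c) (hm : ∀ s < t, ∀ a, Old s a → m s a = m' s a) : UR m' t x c := by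
  induction h with
  | zero σ => exact UR.zero σ
  | @step t x c i hx ih =>
    rw [hm t (Nat.lt_succ_self t) (x i) (hx.old i)]
    exact UR.step i (ih fun s hs => hm s (hs.trans (Nat.lt_succ_self t)))

theorem UR.congr_old_eq {k : ℕ} {m m' : ℕ → Tok k → ℝ} {t : ℕ}
    (hm : ∀ s < t, ∀ a, Old s a → m s a = m' s a) : UR m t = UR m' t := by
  funext x c
  exact propext ⟨fun h => h.congr_old hm,
    fun h => h.congr_old fun s hs a ha => (hm s hs a ha).symm⟩

theorem G_congr_old {k : ℕ} {m m' : ℕ → Tok k → ℝ} {t : ℕ}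
    (hm : ∀ s < t, ∀ a, Old s a → m s a = m' s a) : G m t = G m' t := by
  rw [G, G, UR.congr_old_eq hm]

theorem pos_congr_old {k : ℕ} [NeZero k] {m m' : ℕ → Tok k → ℝ} {t : ℕ}
    (hm : ∀ s < t, ∀ a, Old s a → m s a = m' s a) : pos m t = pos m' t := by
  induction t with
  | zero => rfl
  | succ t ih =>
    have h1 := ih fun s hs => hm s (hs.trans (Nat.lt_succ_self t))
    simp only [pos]
    rw [h1, UR.congr_old_eq hm, G_congr_old hm]

theorem srv_congr_old {k : ℕ} [NeZero k] {m m' : ℕ → Tok k → ℝ} {t : ℕ}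
    (hm : ∀ s ≤ t, ∀ a, Old s a → m s a = m' s a) : srv m t = srv m' t := by
  have h1 : pos m t = pos m' t := pos_congr_old fun s hs => hm s hs.le
  have h2 : ∀ s < t + 1, ∀ a, Old s a → m s a = m' s a := fun s hs => hm s (Nat.lt_succ_iff.1 hs)
  simp only [srv]
  rw [h1, UR.congr_old_eq h2, G_congr_old h2]

/-! ### Link to `pathCost` -/

section Link

variable {Y : Type*} {k : ℕ} [NeZero k]

/-- The location of a token. -/
def loc (s : Fin k → Y) (σ : List Y) : Tok k → Y
  | Sum.inl i => s i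
  | Sum.inr t => σ.getD t (s 0)

/-- The server sequence of a path. -/
def srvs (q : List (Y × Fin k)) (t : ℕ) : Fin k := (q.map Prod.snd).getD t 0

theorem cpos_congr {j j' : ℕ → Fin k} {t : ℕ} (h : ∀ s < t, j s = j' s) : cpos j t = cpos j' t := by
  induction t with
  | zero => rfl
  | succ t ih =>
    rw [cpos, cpos, ih fun s hs => h s (hs.trans (Nat.lt_succ_self t)), h t (Nat.lt_succ_self t)]

theorem loc_congr {s : Fin k → Y} {σ τ : List Y} {t : ℕ} {a : Tok k}
    (ha : Old t a) (h : ∀ r < t, σ.getD r (s 0) = τ.getD r (s 0)) : loc s σ a = loc s τ a := by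
  rcases a with i | r
  · rfl
  · exact h r (ha r rfl)

theorem getD_append_lt (σ τ : List Y) (d : Y) {t : ℕ} (ht : t < σ.length) :
    (σ ++ τ).getD t d = σ.getD t d := by
  simp [List.getD_eq_getElem?_getD, List.getElem?_append_left ht]

theorem cpos_old (j : ℕ → Fin k) (t : ℕ) (i : Fin k) : Old t (cpos j t i) :=
  (UR.cpos (fun _ _ => 0) j t).old i

theorem srvs_append (q : List (Y × Fin k)) (a : Y × Fin k) {t : ℕ} (ht : t < q.length) :
    srvs (q ++ [a]) t = srvs q t := by
  unfold srvs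
  rw [List.map_append]
  exact getD_append_lt _ _ _ (by simpa using ht)

theorem srvs_append_last (q : List (Y × Fin k)) (a : Y × Fin k) :
    srvs (q ++ [a]) q.length = a.2 := by
  unfold srvs
  simp [List.getD_eq_getElem?_getD]

theorem fst_append_last (q : List (Y × Fin k)) (a : Y × Fin k) (d : Y) :
    ((q ++ [a]).map Prod.fst).getD q.length d = a.1 := by
  simp [List.getD_eq_getElem?_getD]

theorem endConf_eq (s : Fin k → Y) (q : List (Y × Fin k)) [MetricSpace Y] :
    endConf s q = fun i => loc s (q.map Prod.fst) (cpos (srvs q) q.length i) := by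
  induction q using List.reverseRecOn with
  | nil => rfl
  | append_singleton q a ih =>
    rw [endConf_append, ih]
    simp only [endConf_cons, endConf_nil]
    funext i
    have hc : cpos (srvs (q ++ [a])) (q ++ [a]).length =
        update (cpos (srvs q) q.length) a.2 (Sum.inr q.length) := by
      rw [List.length_append, List.length_singleton, cpos, srvs_append_last,
        cpos_congr fun s hs => srvs_append q a hs]
    rw [hc]
    by_cases hi : i = a.2
    · subst hi
      rw [update_self, update_self]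
      exact (fst_append_last q a (s 0)).symm
    · rw [update_of_ne hi, update_of_ne hi]
      refine loc_congr (cpos_old _ _ _) fun r hr => ?_
      rw [List.map_append]
      exact (getD_append_lt _ _ _ (by simpa using hr)).symm

theorem pathCost_eq [MetricSpace Y] (s : Fin k → Y) (q : List (Y × Fin k)) :
    pathCost s q = ∑ t ∈ range q.length,
      dist (loc s (q.map Prod.fst) (cpos (srvs q) t (srvs q t)))
        (loc s (q.map Prod.fst) (Sum.inr t)) := by
  induction q using List.reverseRecOn with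
  | nil => simp
  | append_singleton q a ih =>
    rw [pathCost_append, ih, List.length_append, List.length_singleton, sum_range_succ]
    congr 1
    · apply sum_congr rfl
      intro t ht
      rw [mem_range] at ht
      have h1 : loc s ((q ++ [a]).map Prod.fst) (Sum.inr t : Tok k) =
          loc s (q.map Prod.fst) (Sum.inr t) := by
        unfold loc
        rw [List.map_append]
        exact getD_append_lt _ _ _ (by simpa using ht)
      rw [h1, srvs_append q a ht, cpos_congr fun r hr => srvs_append q a (hr.trans ht)]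
      congr 1
      refine loc_congr (cpos_old _ _ _) fun r hr => ?_
      rw [List.map_append]
      exact (getD_append_lt _ _ _ (by simpa using hr.trans ht)).symm
    · rw [pathCost_cons, pathCost_nil, add_zero, endConf_eq]
      have h1 : loc s ((q ++ [a]).map Prod.fst) (Sum.inr q.length : Tok k) = a.1 :=
        fst_append_last q a (s 0)
      rw [h1, srvs_append_last, cpos_congr fun r hr => srvs_append q a hr]
      congr 1
      refine loc_congr (cpos_old _ _ _) fun r hr => ?_
      rw [List.map_append]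
      exact (getD_append_lt _ _ _ (by simpa using hr)).symm

theorem srvs_run (d : DPol Y k) (σ : List Y) {t : ℕ} (ht : t < σ.length) :
    srvs (run d [] σ) t = d (σ.take (t + 1)) := by
  have h : ∀ (σ pre : List Y) (t : ℕ), t < σ.length →
      ((run d pre σ).map Prod.snd).getD t 0 = d (pre ++ σ.take (t + 1)) := by
    intro σ
    induction σ with
    | nil => intro pre t ht; simp at ht
    | cons r rest ih =>
      intro pre t ht
      cases t with
      | zero => simp
      | succ t =>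
        have := ih (pre ++ [r]) t (by simpa using ht)
        simpa using this
  have h1 := h σ [] t ht
  rw [List.nil_append] at h1
  exact h1

/-- Physical cost of a sequence of tokens left. -/
noncomputable def phys [MetricSpace Y] (s : Fin k → Y) (σ : List Y) (a : ℕ → Tok k) (T : ℕ) : ℝ :=
  ∑ t ∈ range T, dist (loc s σ (a t)) (loc s σ (Sum.inr t))

theorem dcost_eq [MetricSpace Y] (s : Fin k → Y) (d : DPol Y k) (σ : List Y)
    (m : ℕ → Tok k → ℝ) (h : ∀ t < σ.length, d (σ.take (t + 1)) = srv m t) :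
    dcost d s σ = phys s σ (fun t => pos m t (srv m t)) σ.length := by
  unfold dcost phys
  rw [pathCost_eq, run_length, run_map_fst]
  apply sum_congr rfl
  intro t ht
  rw [mem_range] at ht
  have h1 : ∀ r < σ.length, srvs (run d [] σ) r = srv m r := fun r hr => by
    rw [srvs_run d σ hr, h r hr]
  rw [h1 t ht, cpos_congr fun r hr => h1 r (hr.trans ht), ← pos_eq_cpos]

end Link

/-! ### Adapted families -/

section Family

variable {Y : Type*} [MetricSpace Y] {k : ℕ} [NeZero k] {V : Type*} [Fintype V] [DecidableEq V]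

/-- A family of token systems indexed by the request list, online and with common noise law. -/
structure Adapted (F : List Y → FData k V) (w η : V → ℝ) : Prop where
  w_eq : ∀ σ, (F σ).w = w
  η_eq : ∀ σ, (F σ).η = η
  E_eq : ∀ (σ : List Y) (t : ℕ), t < σ.length →
    (F (σ.take (t + 1))).E (Sum.inr t) = (F σ).E (Sum.inr t)
  D_iff : ∀ (σ : List Y) (t : ℕ), t < σ.length → ∀ (a : Tok k), Old t a → ∀ v ∈ (F σ).E a,
    (t < (F (σ.take (t + 1))).D v ↔ t < (F σ).D v)
  κ_eq : ∀ (σ : List Y) (t : ℕ), t < σ.length → ∀ (a : Tok k), Old t a →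
    (F (σ.take (t + 1))).κ t a = (F σ).κ t a

variable {F : List Y → FData k V} {w η : V → ℝ}

theorem Adapted.E_eq' (h : Adapted F w η) {σ : List Y} {s t : ℕ} (hs : s < t) (ht : t ≤ σ.length) :
    (F (σ.take t)).E (Sum.inr s) = (F σ).E (Sum.inr s) := by
  have h1 := h.E_eq (σ.take t) s (by rw [List.length_take]; omega)
  rw [List.take_take, min_eq_left (by omega)] at h1
  rw [← h1]
  exact h.E_eq σ s (by omega)

theorem Adapted.E_old (h : Adapted F w η) {σ : List Y} {t : ℕ} (ht : t < σ.length) {a : Tok k}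
    (ha : Old t a) : (F (σ.take (t + 1))).E a = (F σ).E a := by
  rcases a with i | s
  · rw [(F _).E_inl, (F _).E_inl]
  · have := ha s rfl
    exact h.E_eq' (by omega) (by omega)

theorem Adapted.mcost_eq (h : Adapted F w η) {σ : List Y} {t : ℕ} (ht : t < σ.length) {a : Tok k}
    (ha : Old t a) (ξ : V → ℝ) :
    (F (σ.take (t + 1))).mcost ξ t a = (F σ).mcost ξ t a := by
  unfold FData.mcost
  rw [h.κ_eq σ t ht a ha, h.E_eq σ t ht, h.E_old ht ha, h.w_eq, h.w_eq]
  congr 1
  apply sum_congr _ (fun _ _ => rfl)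
  ext v
  simp only [mem_filter, mem_sdiff]
  constructor
  · rintro ⟨⟨h1, h2⟩, h3⟩
    exact ⟨⟨h1, h2⟩, (h.D_iff σ t ht a ha v h1).1 h3⟩
  · rintro ⟨⟨h1, h2⟩, h3⟩
    exact ⟨⟨h1, h2⟩, (h.D_iff σ t ht a ha v h1).2 h3⟩

theorem Adapted.mm_eq (h : Adapted F w η) (K : ℕ) (n : V → ℕ) {σ : List Y} {t : ℕ}
    (ht : t < σ.length) {a : Tok k} (ha : Old t a) :
    (F (σ.take (t + 1))).mm K n t a = (F σ).mm K n t a := by
  unfold FData.mm
  have : (F (σ.take (t + 1))).xi K n = (F σ).xi K n := by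
    funext v; unfold FData.xi; rw [h.w_eq, h.w_eq]
  rw [this]
  exact h.mcost_eq ht ha _

/-- The online policy. -/
noncomputable def dpol (F : List Y → FData k V) (K : ℕ) (n : V → ℕ) : DPol Y k :=
  fun pre => srv ((F pre).mm K n) (pre.length - 1)

theorem Adapted.dpol_eq (h : Adapted F w η) (K : ℕ) (n : V → ℕ) {σ : List Y} {t : ℕ}
    (ht : t < σ.length) : dpol F K n (σ.take (t + 1)) = srv ((F σ).mm K n) t := by
  unfold dpol
  have hl : (σ.take (t + 1)).length - 1 = t := by rw [List.length_take]; omega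
  rw [hl]
  apply srv_congr_old
  intro s hs a ha
  have h1 : s < (σ.take (t + 1)).length := by rw [List.length_take]; omega
  have h2 := h.mm_eq K n h1 ha
  rw [List.take_take, min_eq_left (by omega)] at h2
  rw [← h2]
  exact h.mm_eq K n (by omega) ha

theorem Adapted.dcost_eq (h : Adapted F w η) (K : ℕ) (n : V → ℕ) (s : Fin k → Y) (σ : List Y) :
    dcost (dpol F K n) s σ = phys s σ ((F σ).X K n) σ.length :=
  Tk.dcost_eq s _ σ ((F σ).mm K n) fun _ ht => h.dpol_eq K n ht

/-- Averaging over the noise: a deterministic policy at least as good as the random one. -/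
theorem exists_dpol (h : Adapted F w η) {K : ℕ} (hK : 0 < K) (hη : ∀ v, 8 ≤ η v)
    (s : Fin k → Y) {ι : Type} [Fintype ι] (p : ι → ℝ) (q : ι → List (Y × Fin k)) :
    ∃ d : DPol Y k, ∑ i, p i * dcost d s ((q i).map Prod.fst) ≤
      ∑ i, p i * (F ((q i).map Prod.fst)).EE K (fun n =>
        phys s ((q i).map Prod.fst) ((F ((q i).map Prod.fst)).X K n) (q i).length) := by
  classical
  set P : V → ℕ → ℝ := fun u => prb (η u) K with hP
  have hP0 : ∀ u j, 0 ≤ P u j := fun u j => prb_nonneg (hη u) hK j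
  have hP1 : ∀ u, ∑ j ∈ range K, P u j = 1 := fun u => prb_sum (hη u) hK
  set f : (V → ℕ) → ℝ := fun n => ∑ i, p i * dcost (dpol F K n) s ((q i).map Prod.fst) with hf
  have e : ∑ i, p i * (F ((q i).map Prod.fst)).EE K (fun n =>
      phys s ((q i).map Prod.fst) ((F ((q i).map Prod.fst)).X K n) (q i).length) = Ex P K f := by
    rw [hf, Ex_sum]
    apply sum_congr rfl
    intro i _
    rw [Ex_mul]
    congr 1
    unfold FData.EE
    rw [h.η_eq]
    congr 1
    funext n
    rw [h.dcost_eq, List.length_map]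
  rw [e]
  by_contra hcon
  push Not at hcon
  have h1 : ∀ n ∈ Om V K, Ex P K f ≤ f n := fun n _ => (hcon (dpol F K n)).le
  have h2 : ∃ n ∈ Om V K, 0 < pwt P n := by
    by_contra h3
    push Not at h3
    have h4 := pwt_sum P K hP1
    have h5 : ∑ n ∈ Om V K, pwt P n ≤ 0 := sum_nonpos h3
    linarith
  obtain ⟨n0, hn0, hn0'⟩ := h2
  have h3 : Ex P K (fun _ => Ex P K f) < Ex P K f := by
    conv_rhs => rw [Ex]
    rw [Ex]
    apply sum_lt_sum
    · intro n hn
      exact mul_le_mul_of_nonneg_left (h1 n hn) (pwt_nonneg hP0 n)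
    · exact ⟨n0, hn0, mul_lt_mul_of_pos_left (hcon (dpol F K n0)) hn0'⟩
  rw [Ex_const hP1] at h3
  exact lt_irrefl _ h3

end Family

end Crest.Agent.R314.Tk
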