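import Crest.Agent.R314.GOut
import Crest.Agent.R314.C0
import Mathlib
import Crest.Agent.R314.Asm4
import Crest.Agent.R314.Frame5

-- ▼ part R314/Fin1
section

/-!
R314, block FIN, part 1: from the output of module G (`GOut b`) to the input of module C
(`C.Par`, `C.Valid`, key distance `C.dk`).
-/

set_option autoImplicit false
set_option linter.unusedSectionVars false

namespace Crest.Agent.R314.Fin

open Finset Crest.Agent.R314 Crest.Agent.R314.Tk Crest.Agent.R314.Bay Crest.LogicCS.KServer
open Crest.Agent.R314.C (Par key Valid dk)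

universe u

/-- The parameters of module C for scales `R0 * b ^ l`, `l < L`. -/
noncomputable def mkPar (b : ℕ) (hb : 64 ≤ b) (R0 : ℝ) (hR0 : 0 < R0) (L cm : ℕ) : Par where
  B := b
  hB := by exact_mod_cast hb
  W := R0 * (b : ℝ) ^ L
  hW := by
    have : (0 : ℝ) < b := by exact_mod_cast (by omega : 0 < b)
    positivity
  CG := 2
  hCG := by norm_num
  I := L
  cm := cm

/-- Label stream of a point, top level first. -/
def labs {Y Lab : Type*} (L : ℕ) (lam : List Y → ℕ → Y → Lab) (h : List Y) (x : Y) (j : ℕ) : Lab :=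
  lam h (L - 1 - j) x

section
variable {b : ℕ} (hb : 64 ≤ b) {R0 : ℝ} (hR0 : 0 < R0) (L cm : ℕ)

theorem mkPar_w {j : ℕ} (hj : j ≤ L) :
    (mkPar b hb R0 hR0 L cm).w j = R0 * (b : ℝ) ^ (L - j) := by
  have hb' : (b : ℝ) ≠ 0 := by
    have : 0 < b := by omega
    positivity
  unfold Par.w mkPar
  simp only
  rw [div_eq_iff (pow_ne_zero _ hb'), mul_assoc, ← pow_add]
  congr 2
  omega

theorem key_eq_iff {Lab : Type*} (u v : ℕ → Lab) (j : ℕ) :
    key u j = key v j ↔ ∀ i < j, u i = v i := by
  induction j with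
  | zero => simp
  | succ j ih =>
    rw [C.key_succ, C.key_succ, List.cons.injEq, ih]
    constructor
    · rintro ⟨h1, h2⟩ i hi
      rcases Nat.lt_succ_iff_lt_or_eq.1 hi with h | rfl
      · exact h2 i h
      · exact h1
    · intro h
      exact ⟨h j (Nat.lt_succ_self j), fun i hi => h i (by omega)⟩

variable {Y : Type u} [MetricSpace Y] [Fintype Y] {Lab : Type u}

theorem valid_of_G1 (lam : List Y → ℕ → Y → Lab)
    (hsep : ∀ x y : Y, x ≠ y → 2 * R0 < dist x y)
    (hdiam : ∀ x y : Y, dist x y ≤ R0 * (b : ℝ) ^ L)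
    (hG1 : ∀ (h : List Y) (l : ℕ), l < L → ∀ x x' : Y,
      (∀ l', l ≤ l' → l' < L → lam h l' x = lam h l' x') → dist x x' ≤ 2 * (R0 * (b : ℝ) ^ l))
    (h : List Y) : Valid (mkPar b hb R0 hR0 L cm) (labs L lam h) := by
  have key1 : ∀ x y j, j ≤ L → key (labs L lam h x) j = key (labs L lam h y) j →
      dist x y ≤ 2 * (R0 * (b : ℝ) ^ (L - j)) := by
    intro x y j hj hk
    rw [key_eq_iff] at hk
    rcases Nat.eq_zero_or_pos j with rfl | hj0
    · have h1 := hdiam x y
      have h2 : 0 ≤ R0 * (b : ℝ) ^ L := by positivity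
      rw [Nat.sub_zero]
      linarith
    · apply hG1 h (L - j) (by omega) x y
      intro l' h1 h2
      have := hk (L - 1 - l') (by omega)
      unfold labs at this
      have e : L - 1 - (L - 1 - l') = l' := by omega
      rw [e] at this
      exact this
  constructor
  · intro x y j hj hk
    have hj' : j ≤ L := hj
    have := key1 x y j hj' hk
    rw [mkPar_w hb hR0 L cm hj']
    exact this
  · intro x y hk
    have := key1 x y L le_rfl hk
    rw [Nat.sub_self, pow_zero, mul_one] at this
    by_contra hne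
    have h1 := hsep x y hne
    linarith

theorem sum_pow_le {x : ℝ} (hx0 : 0 ≤ x) (hx : x ≤ 1 / 64) (n : ℕ) :
    ∑ i ∈ range n, x ^ i ≤ 64 / 63 := by
  have h1 : (∑ i ∈ range n, x ^ i) * (1 - x) = 1 - x ^ n := by
    rw [mul_comm]
    exact mul_neg_geom_sum x n
  have h2 : 0 ≤ x ^ n := pow_nonneg hx0 n
  have h3 : 0 ≤ ∑ i ∈ range n, x ^ i := sum_nonneg fun i _ => pow_nonneg hx0 i
  nlinarith

/-- The key distance is at most `64/63` times the label cost. -/
theorem dk_le_lcost (lam : List Y → ℕ → Y → Lab) (h h' : List Y) (x x' : Y) :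
    dk (mkPar b hb R0 hR0 L cm) (labs L lam h x) (labs L lam h' x') ≤
      64 / 63 * GO.lcost L (fun l => R0 * (b : ℝ) ^ l) lam h x h' x' := by
  classical
  set P := mkPar b hb R0 hR0 L cm with hP
  have hI : P.I = L := rfl
  have hbpos : (0 : ℝ) < b := by exact_mod_cast (by omega : 0 < b)
  set u := labs L lam h x with hu
  set v := labs L lam h' x' with hv
  have h0 : ∀ j ∈ range L, (if key u (j + 1) = key v (j + 1) then 0 else P.w (j + 1)) ≤
      ∑ i ∈ range L, if i ≤ j then (if u i = v i then 0 else P.w (j + 1)) else 0 := by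
    intro j hj
    rw [mem_range] at hj
    have hw : P.w (j + 1) = R0 * (b : ℝ) ^ (L - (j + 1)) := mkPar_w hb hR0 L cm (by omega)
    have hw0 : 0 ≤ P.w (j + 1) := by rw [hw]; positivity
    split_ifs with hk
    · apply sum_nonneg
      intro i _
      split_ifs <;> first | exact le_rfl | exact hw0
    · rw [key_eq_iff] at hk
      push Not at hk
      obtain ⟨i, hi, hne⟩ := hk
      have := single_le_sum (f := fun i => if i ≤ j then (if u i = v i then 0 else P.w (j + 1))
        else 0) (s := range L) (fun i _ => by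
          split_ifs <;> first | exact le_rfl | exact hw0) (mem_range.2 (by omega : i < L))
      simp only [show i ≤ j by omega, if_true, hne, if_false] at this
      exact this
  have h1 : dk P u v ≤ ∑ i ∈ range L, ∑ j ∈ range L,
      if i ≤ j then (if u i = v i then 0 else P.w (j + 1)) else 0 := by
    unfold dk
    rw [hI, sum_comm]
    refine le_trans (sum_le_sum fun j hj => ?_) (sum_le_sum h0)
    split_ifs <;> exact le_rfl
  refine h1.trans ?_
  unfold GO.lcost
  rw [mul_sum]
  -- reflect the levels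
  rw [← sum_range_reflect (fun l => 64 / 63 * (R0 * (b : ℝ) ^ l *
    (if lam h l x = lam h' l x' then 0 else 1))) L]
  apply sum_le_sum
  intro i hi
  rw [mem_range] at hi
  have huv : (u i = v i) ↔ (lam h (L - 1 - i) x = lam h' (L - 1 - i) x') := Iff.rfl
  by_cases he : lam h (L - 1 - i) x = lam h' (L - 1 - i) x'
  · have he' := huv.2 he
    simp only [he, if_true, mul_zero]
    apply le_of_eq
    apply sum_eq_zero
    intro j _
    simp only [he', if_true, ite_self]
  · have he' : ¬ u i = v i := fun h => he (huv.1 h)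
    simp only [he, if_false, mul_one, he']
    have h2 : ∑ j ∈ range L, (if i ≤ j then P.w (j + 1) else 0) ≤
        ∑ j ∈ range L, R0 * (b : ℝ) ^ (L - 1 - i) * (if i ≤ j then (1 / (b : ℝ)) ^ (j - i) else 0) := by
      apply sum_le_sum
      intro j hj
      rw [mem_range] at hj
      split_ifs with hij
      · rw [mkPar_w hb hR0 L cm (by omega : j + 1 ≤ L), mul_assoc]
        apply le_of_eq
        congr 1
        rw [one_div, inv_pow, eq_mul_inv_iff_mul_eq₀ (pow_ne_zero _ hbpos.ne'), ← pow_add]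
        congr 1
        omega
      · rw [mul_zero]
    refine h2.trans ?_
    rw [← mul_sum, ← sum_filter]
    have h3 : ∑ j ∈ (range L).filter (fun j => i ≤ j), (1 / (b : ℝ)) ^ (j - i) =
        ∑ j ∈ range (L - i), (1 / (b : ℝ)) ^ j := by
      apply sum_nbij' (fun j => j - i) (fun j => j + i)
      · intro j hj; rw [mem_filter, mem_range] at hj; rw [mem_range]; omega
      · intro j hj; rw [mem_range] at hj; rw [mem_filter, mem_range]; omega
      · intro j hj; rw [mem_filter, mem_range] at hj; omega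
      · intro j hj; omega
      · intro j _; rfl
    rw [h3]
    have h4 : ∑ j ∈ range (L - i), (1 / (b : ℝ)) ^ j ≤ 64 / 63 := by
      apply sum_pow_le (by positivity)
      apply one_div_le_one_div_of_le (by norm_num)
      exact_mod_cast hb
    have h5 : 0 ≤ R0 * (b : ℝ) ^ (L - 1 - i) := by positivity
    calc R0 * (b : ℝ) ^ (L - 1 - i) * ∑ j ∈ range (L - i), (1 / (b : ℝ)) ^ j
        ≤ R0 * (b : ℝ) ^ (L - 1 - i) * (64 / 63) := mul_le_mul_of_nonneg_left h4 h5
      _ = _ := by ring

end

/-- Label bill of module C at the nonempty history `h` (key distance). -/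
noncomputable def dbill {Y Lab : Type*} [Fintype Y] {k : ℕ} [NeZero k] (Q : Prior Y k) (P : Par)
    (lab : List Y → Y → ℕ → Lab) (h : List Y) : ℝ :=
  ∑ x, Q.mm h x * dk P (lab h.dropLast x) (lab h x) +
    ∑ i ∈ Q.I h, Q.p i * dk P (lab h (Q.src i (h.length - 1))) (lab h (Q.rq i (h.length - 1)))

theorem dbill_le_gbill {Y : Type u} [MetricSpace Y] [Fintype Y] {Lab : Type u} {b : ℕ}
    (hb : 64 ≤ b) {R0 : ℝ} (hR0 : 0 < R0) (L cm : ℕ) {k : ℕ} [NeZero k] (Q : Prior Y k)
    (lam : List Y → ℕ → Y → Lab) (h : List Y) :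
    dbill Q (mkPar b hb R0 hR0 L cm) (labs L lam) h ≤
      64 / 63 * GO.gbill Q L (fun l => R0 * (b : ℝ) ^ l) lam h := by
  unfold dbill GO.gbill
  rw [mul_add, mul_sum, mul_sum]
  apply add_le_add
  · apply sum_le_sum
    intro x _
    have := mul_le_mul_of_nonneg_left (dk_le_lcost hb hR0 L cm lam h.dropLast h x x)
      (Q.mm_nonneg h x)
    linarith
  · apply sum_le_sum
    intro i _
    have := mul_le_mul_of_nonneg_left (dk_le_lcost hb hR0 L cm lam h h
      (Q.src i (h.length - 1)) (Q.rq i (h.length - 1))) (Q.p_nonneg i)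
    linarith

end Crest.Agent.R314.Fin
end

-- ▼ part R314/Asm5
section

/-!
R314, block ASM-T, part 5: from a `TreeSys` to a deterministic online policy for a finite prior.
-/

set_option autoImplicit false
set_option linter.unusedSectionVars false

namespace Crest.Agent.R314.Asm

open Finset Function Crest.LogicCS.KServer Tk

variable {X : Type*} [MetricSpace X] {V : Type*} [DecidableEq V] {Good : List X → Prop}

theorem err_mono {V : Type*} [Fintype V] (w η : V → ℝ) (hw : ∀ v, 0 ≤ w v) (hη : ∀ v, 0 ≤ η v)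
    {T T' : ℕ} (h : T ≤ T') (k K : ℕ) : FData.err w η T k K ≤ FData.err w η T' k K := by
  unfold FData.err
  apply mul_le_mul_of_nonneg_left _ (by norm_num)
  apply sum_le_sum
  intro v _
  have h1 := hw v
  have h2 := hη v
  have h3 : (T : ℝ) ≤ T' := by exact_mod_cast h
  gcongr

namespace TreeSys

variable (S : TreeSys X V Good) (hG : ∀ h x, Good (h ++ [x]) → Good h)
variable {k : ℕ} [NeZero k] [Fintype V]

/-- One request list. -/
theorem one_list (hLam : 0 ≤ S.Lam) (hβ : 0 ≤ S.β) (s : Fin k → X) (q : List (X × Fin k))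
    (hσ : ∀ t, Good ((q.map Prod.fst).take t)) {K : ℕ} (hK : 0 < K) (hK2 : ∀ v, S.η v ≤ K) :
    (S.toF hG k (q.map Prod.fst)).EE K (fun n =>
        phys s (q.map Prod.fst) ((S.toF hG k (q.map Prod.fst)).X K n) q.length) ≤
      (2 * S.CP + S.CT) * ((8 * S.Lam + 16 * S.β) * bill S s q +
        FData.err S.w S.η q.length k K) +
      k * S.trav (q.map Prod.fst) none + ∑ l, dist (s l) (S.ctr [] none) := by
  classical
  set σ := q.map Prod.fst with hσdef
  have hl : σ.length = q.length := by rw [hσdef, List.length_map]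
  have hX : ∀ n, (S.toF hG k σ).X K n =
      fun t => cpos (srv ((S.toF hG k σ).mm K n)) t (srv ((S.toF hG k σ).mm K n) t) := by
    intro n
    funext t
    unfold FData.X
    rw [pos_eq_cpos]
  have h1 : ∀ n, phys s σ ((S.toF hG k σ).X K n) q.length ≤
      (2 * S.CP + S.CT) * (S.toF hG k σ).EnW ((S.toF hG k σ).X K n) σ.length +
      (k * S.trav σ none + ∑ l, dist (s l) (S.ctr [] none)) := by
    intro n
    rw [← hl, hX n, ← add_assoc]
    exact S.phys_le' hG hσ s _
  refine ((S.toF hG k σ).EE_mono hK fun n _ => h1 n).trans ?_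
  rw [(S.toF hG k σ).EE_add, (S.toF hG k σ).EE_mul, (S.toF hG k σ).EE_const hK]
  have hA := (S.toF hG k σ).thmA hK (T := σ.length) hK2 hLam hβ (S.toF_H1 hG hσ k)
    (S.toF_H2 hG hσ k) (S.toF_H3 hG hσ k) (srvs q)
  have hc := S.sum_cstep_le hG s q hσ
  rw [← hl] at hc
  have hC : 0 ≤ 2 * S.CP + S.CT := by linarith [S.CP_nonneg, S.CT_nonneg]
  have hL : 0 ≤ 8 * S.Lam + 16 * S.β := by linarith
  have h2 := mul_le_mul_of_nonneg_left hc hL
  have h3 : (S.toF hG k σ).EE K (fun n => (S.toF hG k σ).EnW ((S.toF hG k σ).X K n) σ.length) ≤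
      (8 * S.Lam + 16 * S.β) * bill S s q + FData.err S.w S.η q.length k K := by
    rw [← hl]
    refine hA.trans ?_
    change _ + FData.err S.w S.η σ.length k K ≤ _
    linarith
  have h4 := mul_le_mul_of_nonneg_left h3 hC
  linarith

include hG in
/-- **ASM-T**: from a `TreeSys` to a policy. -/
theorem exists_policy (hLam : 0 ≤ S.Lam) (hβ : 0 ≤ S.β) (s : Fin k → X) {ι : Type} [Fintype ι]
    (p : ι → ℝ) (hp : ∀ i, 0 ≤ p i) (q : ι → List (X × Fin k))
    (hσ : ∀ i t, Good (((q i).map Prod.fst).take t)) {ε : ℝ} (hε : 0 < ε) :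
    ∃ d : DPol X k, ∑ i, p i * dcost d s ((q i).map Prod.fst) ≤
      (2 * S.CP + S.CT) * ((8 * S.Lam + 16 * S.β) * ∑ i, p i * bill S s (q i)) +
      k * ∑ i, p i * S.trav ((q i).map Prod.fst) none +
      (∑ i, p i) * ∑ l, dist (s l) (S.ctr [] none) + ε := by
  classical
  have hC : 0 ≤ 2 * S.CP + S.CT := by linarith [S.CP_nonneg, S.CT_nonneg]
  have hp0 : 0 ≤ ∑ i, p i := sum_nonneg fun i _ => hp i
  set T : ℕ := ∑ i, (q i).length with hT
  set ε' : ℝ := ε / ((2 * S.CP + S.CT) * (∑ i, p i) + 1) with hε'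
  have hden : 0 < (2 * S.CP + S.CT) * (∑ i, p i) + 1 := by positivity
  have hε'0 : 0 < ε' := div_pos hε hden
  obtain ⟨K, hK, hK2, herr⟩ := err_small S.w S.η T k hε'0
  obtain ⟨d, hd⟩ := exists_dpol (S.adapted hG k) hK S.η_ge s p q
  refine ⟨d, hd.trans ?_⟩
  have h1 : ∀ i ∈ univ, p i * (S.toF hG k ((q i).map Prod.fst)).EE K (fun n =>
        phys s ((q i).map Prod.fst) ((S.toF hG k ((q i).map Prod.fst)).X K n) (q i).length) ≤
      (2 * S.CP + S.CT) * (8 * S.Lam + 16 * S.β) * (p i * bill S s (q i)) +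
      (2 * S.CP + S.CT) * ε' * p i + k * (p i * S.trav ((q i).map Prod.fst) none) +
      (∑ l, dist (s l) (S.ctr [] none)) * p i := by
    intro i _
    have h2 := S.one_list hG hLam hβ s (q i) (hσ i) hK hK2
    have h3 : FData.err S.w S.η (q i).length k K ≤ ε' :=
      (err_mono S.w S.η (fun v => (S.w_pos v).le) (fun v => by linarith [S.η_ge v])
        (single_le_sum (f := fun i => (q i).length) (fun _ _ => Nat.zero_le _)
          (mem_univ i)) k K).trans herr
    have h4 := mul_le_mul_of_nonneg_left h3 hC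
    calc _ ≤ p i * ((2 * S.CP + S.CT) * ((8 * S.Lam + 16 * S.β) * bill S s (q i) +
          ε') + k * S.trav ((q i).map Prod.fst) none + ∑ l, dist (s l) (S.ctr [] none)) := by
          apply mul_le_mul_of_nonneg_left _ (hp i)
          refine h2.trans ?_
          linarith
      _ = _ := by ring
  refine (sum_le_sum h1).trans ?_
  rw [sum_add_distrib, sum_add_distrib, sum_add_distrib, ← mul_sum, ← mul_sum, ← mul_sum,
    ← mul_sum]
  have h5 : (2 * S.CP + S.CT) * ε' * ∑ i, p i ≤ ε := by
    rw [hε']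
    have : (2 * S.CP + S.CT) * (ε / ((2 * S.CP + S.CT) * (∑ i, p i) + 1)) * ∑ i, p i =
        ε * (((2 * S.CP + S.CT) * ∑ i, p i) / ((2 * S.CP + S.CT) * (∑ i, p i) + 1)) := by
      ring
    rw [this]
    have h6 : ((2 * S.CP + S.CT) * ∑ i, p i) / ((2 * S.CP + S.CT) * (∑ i, p i) + 1) ≤ 1 := by
      rw [div_le_one hden]; linarith
    calc _ ≤ ε * 1 := mul_le_mul_of_nonneg_left h6 hε.le
      _ = ε := mul_one _
  linarith

end TreeSys

end Crest.Agent.R314.Asm
end

-- ▼ part R314/Frame6
section

/-!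
R314, block F6: from the Bayes property on finite metric spaces to the statement S0486.
-/

set_option autoImplicit false
set_option linter.unusedSectionVars false

namespace Crest.Agent.R314

open Crest.LogicCS.KServer

section Subtype

variable {X : Type*} [MetricSpace X] {k : ℕ} (F : Finset X)

open Classical in
/-- lift a list of points to the finite subtype -/
noncomputable def liftL (l : List X) : List F :=
  l.filterMap fun x => if h : x ∈ F then some ⟨x, h⟩ else none

theorem liftL_map_val (l : List F) : liftL F (l.map Subtype.val) = l := by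
  unfold liftL
  rw [List.filterMap_map]
  conv_rhs => rw [← List.filterMap_some (l := l)]
  congr 1
  funext x
  simp

theorem run_val (d : DPol F k) (σ : List F) : ∀ pre : List F,
    run (fun l => d (liftL F l)) (pre.map Subtype.val) (σ.map Subtype.val) =
      (run d pre σ).map fun a => ((a.1 : X), a.2) := by
  induction σ with
  | nil => intro pre; rfl
  | cons r σ ih =>
    intro pre
    have e : pre.map Subtype.val ++ [(r : X)] = (pre ++ [r]).map Subtype.val := by simp
    simp only [List.map_cons, run_cons]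
    rw [e, liftL_map_val, ih]

theorem pathCost_val (p : List (F × Fin k)) : ∀ c : Fin k → F,
    pathCost (fun i => (c i : X)) (p.map fun a => ((a.1 : X), a.2)) = pathCost c p := by
  induction p with
  | nil => intro c; rfl
  | cons a p ih =>
    intro c
    simp only [List.map_cons, pathCost_cons]
    rw [← ih]
    congr 2
    funext j
    by_cases h : j = a.2
    · subst h; simp
    · simp [Function.update_of_ne h]

theorem bayesOn_of_subtype (s : Fin k → F) {R B : ℝ} (h : BayesOn s R B Finset.univ) :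
    BayesOn (fun i => (s i : X)) R B F := by
  intro ι inst p q hp hp1 hq
  let q' : ι → List (F × Fin k) := fun i => (q i).attach.map fun a => (⟨a.1.1, hq i _ a.2⟩, a.1.2)
  have hq' : ∀ i, (q' i).map (fun a => ((a.1 : X), a.2)) = q i := by
    intro i
    simp only [q', List.map_map]
    conv_rhs => rw [← List.attach_map_subtype_val (q i)]
    rfl
  have hq1 : ∀ i, ((q' i).map Prod.fst).map Subtype.val = (q i).map Prod.fst := by
    intro i
    conv_rhs => rw [← hq' i]
    simp only [List.map_map]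
    rfl
  obtain ⟨d, hd⟩ := h ι p q' hp hp1 (fun _ _ _ => Finset.mem_univ _)
  refine ⟨fun l => d (liftL F l), ?_⟩
  have h1 : ∀ i, dcost (fun l => d (liftL F l)) (fun i => (s i : X)) ((q i).map Prod.fst) =
      dcost d s ((q' i).map Prod.fst) := by
    intro i
    unfold dcost
    rw [← hq1 i]
    have := run_val F d ((q' i).map Prod.fst) []
    rw [List.map_nil] at this
    rw [this, pathCost_val]
  have h2 : ∀ i, pathCost (fun i => (s i : X)) (q i) = pathCost s (q' i) := by
    intro i
    conv_lhs => rw [← hq' i]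
    exact pathCost_val F _ _
  simp only [h1, h2]
  exact hd

end Subtype

variable {X : Type*} [MetricSpace X] {k : ℕ}

/-- change of the start configuration -/
theorem BayesOn.start {s s' : Fin k → X} {R B : ℝ} (hR : 0 ≤ R) {F : Finset X}
    (h : BayesOn s' R B F) : BayesOn s R (B + (1 + R) * cdist s s') F := by
  intro ι inst p q hp hp1 hq
  obtain ⟨d, hd⟩ := h ι p q hp hp1 hq
  refine ⟨d, ?_⟩
  have h1 : ∑ i, p i * dcost d s ((q i).map Prod.fst) ≤
      ∑ i, p i * dcost d s' ((q i).map Prod.fst) + cdist s s' := by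
    have : ∀ i, p i * dcost d s ((q i).map Prod.fst) ≤
        p i * dcost d s' ((q i).map Prod.fst) + p i * cdist s s' := by
      intro i
      rw [← mul_add]
      exact mul_le_mul_of_nonneg_left (pathCost_le_start _ _ _) (hp i)
    refine (Finset.sum_le_sum fun i _ => this i).trans ?_
    rw [Finset.sum_add_distrib, ← Finset.sum_mul, hp1, one_mul]
  have h2 : ∑ i, p i * pathCost s' (q i) ≤ ∑ i, p i * pathCost s (q i) + cdist s s' := by
    have : ∀ i, p i * pathCost s' (q i) ≤ p i * pathCost s (q i) + p i * cdist s s' := by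
      intro i
      rw [← mul_add]
      refine mul_le_mul_of_nonneg_left ?_ (hp i)
      rw [cdist_comm]
      exact pathCost_le_start _ _ _
    refine (Finset.sum_le_sum fun i _ => this i).trans ?_
    rw [Finset.sum_add_distrib, ← Finset.sum_mul, hp1, one_mul]
  nlinarith

theorem exists_policy_of_bayesOn [NeZero k] (s : Fin k → X) (R B : ℝ)
    (H : ∀ F : Finset X, InF F s → BayesOn s R B F) :
    ∃ A : Policy X k, ∀ q : List (X × Fin k),
      expCost A s (q.map Prod.fst) ≤ R * pathCost s q + B := by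
  classical
  refine exists_policy_of_finite s (fun q => R * pathCost s q + B) fun Q => ?_
  refine exists_policy_of_bayes s R B Q fun w hw0 hw1 => ?_
  let F : Finset X := Finset.univ.image s ∪ Q.biUnion fun q => (q.map Prod.fst).toFinset
  have hFs : InF F s := fun i => Finset.mem_union_left _ (Finset.mem_image_of_mem _ (Finset.mem_univ _))
  let e := Q.equivFin
  have hsum : ∀ f : List (X × Fin k) → ℝ, ∑ i : Fin Q.card, f (e.symm i).1 = ∑ q ∈ Q, f q := by
    intro f
    rw [← Finset.sum_coe_sort Q f]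
    exact Equiv.sum_comp e.symm fun x : Q => f x.1
  obtain ⟨d, hd⟩ := H F hFs (Fin Q.card) (fun i => w (e.symm i).1) (fun i => (e.symm i).1)
    (fun i => hw0 _) (by rw [hsum w]; exact hw1) (by
      intro i a ha
      refine Finset.mem_union_right _ (Finset.mem_biUnion.2 ⟨(e.symm i).1, (e.symm i).2, ?_⟩)
      rw [List.mem_toFinset]
      exact List.mem_map_of_mem ha)
  refine ⟨d, ?_⟩
  rw [hsum fun q => w q * dcost d s (q.map Prod.fst), hsum fun q => w q * pathCost s q] at hd
  exact hd

universe u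

/-- **Frame theorem.** If on every finite metric space the Bayes property holds with ratio
`C * log (k+1) ^ 2` and an arbitrary horizon-independent additive constant, then S0486 holds. -/
theorem frame (C : ℝ) (hC : 0 ≤ C)
    (H : ∀ k : ℕ, 2 ≤ k → ∀ (Y : Type u) [MetricSpace Y] [Fintype Y] (s : Fin k → Y),
      Function.Injective s → ∃ B : ℝ, BayesOn s (C * Real.log (k + 1) ^ 2) B Finset.univ) :
    ∃ C : ℝ, ∀ (k : ℕ), 2 ≤ k → ∀ (X : Type u) [MetricSpace X], Nonempty (Fin (k + 1) ↪ X) →
      ∀ s : Fin k → X, ∃ (A : Policy X k) (B : ℝ), 0 ≤ B ∧ (Function.Injective s → B = 0) ∧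
        ∀ (σ : List X) (j : Fin σ.length → Fin k),
          expCost A s σ ≤ C * Real.log (k + 1) ^ 2 * pathCost s (σ.zip (List.ofFn j)) + B := by
  classical
  refine ⟨2 * C, fun k hk X _ hX s => ?_⟩
  haveI : NeZero k := ⟨by omega⟩
  set R : ℝ := C * Real.log (k + 1) ^ 2 with hR
  have hR0 : 0 ≤ R := mul_nonneg hC (sq_nonneg _)
  -- an injective start
  obtain ⟨s', hs', hss'⟩ : ∃ s' : Fin k → X, Function.Injective s' ∧
      (Function.Injective s → s = s') := by
    by_cases h : Function.Injective s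
    · exact ⟨s, h, fun _ => rfl⟩
    · obtain ⟨f⟩ := hX
      exact ⟨fun i => f (Fin.castSucc i), fun a b hab => by simpa using f.injective hab,
        fun h' => absurd h' h⟩
  have key : ∀ F : Finset X, InF F s → BayesOn s (2 * R) ((1 + 2 * R) * cdist s s') F := by
    intro F _
    let F' : Finset X := F ∪ Finset.univ.image s'
    have hF' : InF F' s' := fun i =>
      Finset.mem_union_right _ (Finset.mem_image_of_mem _ (Finset.mem_univ _))
    let s'' : Fin k → F' := fun i => ⟨s' i, hF' i⟩
    have hs'' : Function.Injective s'' := by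
      intro a b hab
      apply hs'
      exact congrArg Subtype.val hab
    obtain ⟨B, hB⟩ := H k hk F' s'' hs''
    have h1 := (bayesOn_of_subtype F' s'' hB).double hs' hF' hR0
    have h2 := h1.start (s := s) (by positivity)
    rw [zero_add] at h2
    intro ι inst p q hp hp1 hq
    exact h2 ι p q hp hp1 fun i a ha => Finset.mem_union_left _ (hq i a ha)
  obtain ⟨A, hA⟩ := exists_policy_of_bayesOn s (2 * R) ((1 + 2 * R) * cdist s s') key
  refine ⟨A, (1 + 2 * R) * cdist s s', mul_nonneg (by positivity) (cdist_nonneg _ _), ?_, ?_⟩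
  · intro h
    rw [← hss' h, cdist_self, mul_zero]
  · intro σ j
    have h1 := hA (σ.zip (List.ofFn j))
    rw [List.map_fst_zip (by simp)] at h1
    rw [hR] at h1 ⊢
    calc expCost A s σ ≤ _ := h1
      _ = _ := by ring

end Crest.Agent.R314
end

-- ▼ part R314/Fin2
section

/-!
R314, block FIN, part 2: `GOut 256` (geometry) + `COut` (module C) ⟹ the statement S0486.
-/

set_option autoImplicit false
set_option linter.unusedSectionVars false

namespace Crest.Agent.R314.Fin

open Finset Crest.Agent.R314 Crest.Agent.R314.Tk Crest.Agent.R314.Bay Crest.LogicCS.KServer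
open Crest.Agent.R314.C (Par key Valid dk)

universe u

/-- The histories of positive probability (the priors below have `p i > 0` for all `i`). -/
def Good {Y : Type u} {k : ℕ} [NeZero k] (Q : Prior Y k) (h : List Y) : Prop := (Q.I h).Nonempty

theorem Good.back {Y : Type u} {k : ℕ} [NeZero k] {Q : Prior Y k} (h : List Y) (x : Y)
    (hh : Good Q (h ++ [x])) : Good Q h := by
  obtain ⟨i, hi⟩ := hh
  exact ⟨i, Q.I_mono (List.prefix_append h [x]) hi⟩

theorem good_take {Y : Type u} {k : ℕ} [NeZero k] (Q : Prior Y k) (i : Q.ι) (t : ℕ) :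
    Good Q ((Q.req i).take t) := ⟨i, Q.mem_I.2 (List.take_prefix _ _)⟩

/-- **Output of module C** (dynamics + `TreeSys` instance), for `B = 256`, `CG = 2`, `cm = k`. -/
def COut : Prop :=
  ∃ C : ℝ, 0 ≤ C ∧ ∀ (k : ℕ) [NeZero k], 2 ≤ k → ∀ (Y : Type u) [MetricSpace Y] [Fintype Y]
    (P : Par), P.B = 256 → P.CG = 2 → P.cm = k → ∃ B' : ℝ, 0 ≤ B' ∧
    ∀ Q : Prior Y k, (∀ i, 0 < Q.p i) → ∀ (Lab : Type u) [Fintype Lab]
      (lab : List Y → Y → ℕ → Lab), (∀ h, Valid P (lab h)) →
      ∃ (V : Type u) (_ : DecidableEq V) (_ : Fintype V) (S : Asm.TreeSys Y V (Good Q)),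
        0 ≤ S.Lam ∧ 0 ≤ S.β ∧ S.Lam ≤ C * Real.log (k + 1) ∧ S.β ≤ C * Real.log (k + 1) ∧
        S.CP ≤ C ∧ S.CT ≤ C ∧
        ∑ i, Q.p i * Asm.bill S Q.s (Q.q i) ≤
          C * (∑ h ∈ Q.H, dbill Q P lab h + Real.log (k + 1) * Q.opt) + B' * ∑ i, Q.p i ∧
        k * ∑ i, Q.p i * S.trav (Q.req i) none ≤
          C * (∑ h ∈ Q.H, dbill Q P lab h + Real.log (k + 1) * Q.opt) + B' * ∑ i, Q.p i

theorem one_le_log {k : ℕ} (hk : 2 ≤ k) : 1 ≤ Real.log ((k : ℝ) + 1) := by
  have h1 : Real.exp 1 ≤ (k : ℝ) + 1 := by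
    have := Real.exp_one_lt_d9
    have h2 : (2 : ℝ) ≤ k := by exact_mod_cast hk
    linarith
  calc (1 : ℝ) = Real.log (Real.exp 1) := (Real.log_exp 1).symm
    _ ≤ _ := Real.log_le_log (Real.exp_pos 1) h1

/-- The prior of positive scenarios. -/
def posPrior {Y : Type u} {k : ℕ} (s : Fin k → Y) {ι : Type} [Fintype ι] (p : ι → ℝ)
    [DecidablePred fun i => 0 < p i] (q : ι → List (Y × Fin k)) : Prior Y k where
  ι := {i : ι // 0 < p i}
  s := s
  p := fun i => p i.1
  p_nonneg := fun i => i.2.le
  q := fun i => q i.1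

theorem sum_pos {ι : Type} [Fintype ι] (p : ι → ℝ) (hp : ∀ i, 0 ≤ p i)
    [DecidablePred fun i => 0 < p i] (f : ι → ℝ) :
    ∑ i : {i : ι // 0 < p i}, p i.1 * f i.1 = ∑ i, p i * f i := by
  rw [← sum_subtype (univ.filter fun i => 0 < p i) (by simp) (fun i => p i * f i), sum_filter]
  apply sum_congr rfl
  intro i _
  split_ifs with h
  · rfl
  · have : p i = 0 := le_antisymm (not_lt.1 h) (hp i)
    rw [this, zero_mul]

theorem bayes_of (hG : GO.GOut.{u} 256) (hC : COut.{u}) : ∃ C : ℝ, 0 ≤ C ∧ ∀ k : ℕ, 2 ≤ k →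
    ∀ (Y : Type u) [MetricSpace Y] [Fintype Y] (s : Fin k → Y), Function.Injective s →
      ∃ B : ℝ, BayesOn s (C * Real.log (k + 1) ^ 2) B Finset.univ := by
  classical
  obtain ⟨Cg, hCg, hG⟩ := hG
  obtain ⟨C, hC0, hC⟩ := hC
  refine ⟨(72 * C ^ 2 + 1) * (C * (2 * Cg + 1)), by positivity, ?_⟩
  intro k hk Y _ _ s _
  have : NeZero k := ⟨by omega⟩
  obtain ⟨L, R0, Bg, hR0, hBg, hsep, hdiam, hG⟩ := hG k hk Y
  set P := mkPar 256 (by norm_num) R0 hR0 L k with hP
  obtain ⟨Bc, hBc, hC⟩ := hC k hk Y P (by simp [hP, mkPar]) rfl rfl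
  set lg := Real.log ((k : ℝ) + 1) with hlg
  have hlg1 : 1 ≤ lg := one_le_log hk
  set Z : ℝ := 2 * C * Bg + Bc with hZ
  have hZ0 : 0 ≤ Z := by positivity
  set Dm : ℝ := ∑ l, ∑ y : Y, dist (s l) y with hDm
  have hDm0 : 0 ≤ Dm := sum_nonneg fun _ _ => sum_nonneg fun _ _ => dist_nonneg
  refine ⟨(72 * C ^ 2 * lg + 1) * Z + Dm + 1, ?_⟩
  intro ι _ p q hp hp1 _
  set Q : Prior Y k := posPrior s p q with hQ
  obtain ⟨Lab, hLab, lam, h1, h2⟩ := hG Q
  obtain ⟨V, hV1, hV2, S, hLam0, hβ0, hLam, hβ, hCP, hCT, hb, ht⟩ := hC Q (fun i => i.2) Lab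
    (labs L lam) (fun h => valid_of_G1 (by norm_num) hR0 L k lam hsep hdiam h1 h)
  have hsum : ∑ i, Q.p i = 1 := by
    have := sum_pos p hp (fun _ => 1)
    simp only [mul_one] at this
    rw [hp1] at this
    exact this
  have hopt : Q.opt = ∑ i, p i * pathCost s (q i) := sum_pos p hp (fun i => pathCost s (q i))
  have hopt0 : 0 ≤ Q.opt := by
    rw [hopt]
    exact sum_nonneg fun i _ => mul_nonneg (hp i) (pathCost_nonneg _ _)
  -- the label bill
  have hD : ∑ h ∈ Q.H, dbill Q P (labs L lam) h ≤ 2 * (Cg * lg * Q.opt + Bg) := by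
    have e1 : ∑ h ∈ Q.H, dbill Q P (labs L lam) h ≤
        64 / 63 * ∑ h ∈ Q.H, GO.gbill Q L (fun l => R0 * ((256 : ℕ) : ℝ) ^ l) lam h := by
      rw [mul_sum]
      exact sum_le_sum fun h _ => dbill_le_gbill (by norm_num) hR0 L k Q lam h
    rw [hsum, mul_one] at h2
    have e2 : 0 ≤ Cg * lg * Q.opt + Bg := by positivity
    have e3 : 64 / 63 * ∑ h ∈ Q.H, GO.gbill Q L (fun l => R0 * ((256 : ℕ) : ℝ) ^ l) lam h ≤
        64 / 63 * (Cg * lg * Q.opt + Bg) := mul_le_mul_of_nonneg_left h2 (by norm_num)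
    linarith
  rw [hsum, mul_one] at hb ht
  have hX : C * (∑ h ∈ Q.H, dbill Q P (labs L lam) h + lg * Q.opt) + Bc ≤
      C * (2 * Cg + 1) * lg * Q.opt + Z := by
    have := mul_le_mul_of_nonneg_left hD hC0
    rw [hZ]
    nlinarith
  obtain ⟨d, hd⟩ := S.exists_policy Good.back hLam0 hβ0 s Q.p Q.p_nonneg Q.q
    (fun i t => good_take Q i t) one_pos
  refine ⟨d, ?_⟩
  have e0 : ∑ i, p i * dcost d s ((q i).map Prod.fst) =
      ∑ i, Q.p i * dcost d s ((Q.q i).map Prod.fst) :=
    (sum_pos p hp (fun i => dcost d s ((q i).map Prod.fst))).symm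
  rw [e0, ← hopt]
  have e1 : ∑ l, dist (s l) (S.ctr [] none) ≤ Dm :=
    sum_le_sum fun l _ => single_le_sum (f := fun y => dist (s l) y) (fun y _ => dist_nonneg)
      (mem_univ _)
  have e2 : (2 * S.CP + S.CT) * ((8 * S.Lam + 16 * S.β) * ∑ i, Q.p i * Asm.bill S Q.s (Q.q i)) ≤
      (3 * C) * ((24 * C * lg) * (C * (2 * Cg + 1) * lg * Q.opt + Z)) := by
    have a1 : 0 ≤ 2 * S.CP + S.CT := by linarith [S.CP_nonneg, S.CT_nonneg]
    have a2 : 0 ≤ 8 * S.Lam + 16 * S.β := by linarith
    have a3 : ∑ i, Q.p i * Asm.bill S Q.s (Q.q i) ≤ C * (2 * Cg + 1) * lg * Q.opt + Z :=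
      hb.trans hX
    have a4 : 0 ≤ C * (2 * Cg + 1) * lg * Q.opt + Z := by positivity
    have a5 : 8 * S.Lam + 16 * S.β ≤ 24 * C * lg := by linarith
    have a6 : 2 * S.CP + S.CT ≤ 3 * C := by linarith
    calc _ ≤ (2 * S.CP + S.CT) * ((8 * S.Lam + 16 * S.β) *
          (C * (2 * Cg + 1) * lg * Q.opt + Z)) := by gcongr
      _ ≤ (2 * S.CP + S.CT) * ((24 * C * lg) * (C * (2 * Cg + 1) * lg * Q.opt + Z)) := by gcongr
      _ ≤ _ := by gcongr
  have e3 : (k : ℝ) * ∑ i, Q.p i * S.trav (Q.req i) none ≤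
      C * (2 * Cg + 1) * lg * Q.opt + Z := ht.trans hX
  have e4 : (∑ i, Q.p i) * ∑ l, dist (s l) (S.ctr [] none) ≤ Dm := by
    rw [hsum, one_mul]; exact e1
  have e5 : C * (2 * Cg + 1) * lg * Q.opt ≤ C * (2 * Cg + 1) * lg ^ 2 * Q.opt := by
    have : lg ≤ lg ^ 2 := by nlinarith
    gcongr
  have hd' : ∑ i, Q.p i * dcost d s ((Q.q i).map Prod.fst) ≤
      (2 * S.CP + S.CT) * ((8 * S.Lam + 16 * S.β) * ∑ i, Q.p i * Asm.bill S Q.s (Q.q i)) +
        k * ∑ i, Q.p i * S.trav (Q.req i) none + (∑ i, Q.p i) * ∑ l, dist (s l) (S.ctr [] none) +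
        1 := hd
  calc ∑ i, Q.p i * dcost d s ((Q.q i).map Prod.fst)
      ≤ (3 * C) * ((24 * C * lg) * (C * (2 * Cg + 1) * lg * Q.opt + Z)) +
        (C * (2 * Cg + 1) * lg * Q.opt + Z) + Dm + 1 := by linarith
    _ ≤ (3 * C) * ((24 * C * lg) * (C * (2 * Cg + 1) * lg * Q.opt + Z)) +
        (C * (2 * Cg + 1) * lg ^ 2 * Q.opt + Z) + Dm + 1 := by linarith
    _ = _ := by ring

/-- **Final assembly**. -/
theorem final (hG : GO.GOut.{u} 256) (hC : COut.{u}) :
    ∃ C : ℝ, ∀ (k : ℕ), 2 ≤ k → ∀ (X : Type u) [MetricSpace X], Nonempty (Fin (k + 1) ↪ X) →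
      ∀ s : Fin k → X, ∃ (A : Policy X k) (B : ℝ), 0 ≤ B ∧ (Function.Injective s → B = 0) ∧
        ∀ (σ : List X) (j : Fin σ.length → Fin k),
          expCost A s σ ≤ C * Real.log (k + 1) ^ 2 * pathCost s (σ.zip (List.ofFn j)) + B := by
  obtain ⟨C, hC0, H⟩ := bayes_of hG hC
  exact frame C hC0 H

end Crest.Agent.R314.Fin
end

-- ▼ part R314/C1b

/-!
R314, module C, block C1b: existence of the update (finite minimisation of potential + price).
-/

set_option autoImplicit false
set_option linter.unusedSectionVars false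

namespace Crest.Agent.R314.C

open Finset Classical

variable {Y Lab : Type*} [Fintype Y] [MetricSpace Y] [Fintype Lab] {P : Par}

namespace Upd

theorem mass_nonneg {m : Y → ℝ} (hm : ∀ x, 0 ≤ m x) (lab : Y → ℕ → Lab) (N : List Lab) :
    0 ≤ mass m lab N := by
  unfold mass
  refine Finset.sum_nonneg fun x _ => ?_
  split_ifs
  · exact hm x
  · exact le_rfl

theorem fd_nonneg {m : Y → ℝ} (hm : ∀ x, 0 ≤ m x) (lab : Y → ℕ → Lab) (N : List Lab) (a : Y) :
    0 ≤ fd m lab N a := by
  unfold fd
  refine Finset.sum_nonneg fun x _ => ?_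
  split_ifs
  · exact mul_nonneg (hm x) dist_nonneg
  · exact le_rfl

theorem mass_anc {m : Y → ℝ} (hm : ∀ x, 0 ≤ m x) (lab : Y → ℕ → Lab) {N H : List Lab}
    (h : N <:+ H) : mass m lab H ≤ mass m lab N := by
  unfold mass
  refine Finset.sum_le_sum fun x _ => ?_
  by_cases hH : Mem lab x H
  · rw [if_pos hH, if_pos (hH.anc h)]
  · rw [if_neg hH]
    split_ifs
    · exact hm x
    · exact le_rfl

theorem w_pos (P : Par) (j : ℕ) : 0 < P.w j := by
  unfold Par.w
  have hB : (0 : ℝ) < P.B := lt_of_lt_of_le (by norm_num) P.hB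
  exact div_pos P.hW (pow_pos hB j)

theorem A_pos (P : Par) : 0 < P.A := by
  unfold Par.A
  linarith [P.hCG]

theorem A'_pos (P : Par) : 0 < P.A' := by
  unfold Par.A' Par.Q
  linarith [P.hCG, A_pos P]

theorem le_al (P : Par) {κ : Kind} (h : κ ≠ Kind.sp) : P.A ≤ P.al κ := by
  have hA := A_pos P
  cases κ with
  | sp => exact absurd rfl h
  | inf => simp only [Par.al]; linarith
  | fin c =>
    simp only [Par.al]
    have h1 : ((1 : ℝ) / 2) ^ c ≤ 1 := pow_le_one₀ (by norm_num) (by norm_num)
    nlinarith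

theorem be_nonneg (P : Par) (κ : Kind) : 0 ≤ P.be κ := by
  have hA := A_pos P
  cases κ with
  | sp => exact (A'_pos P).le
  | inf => exact le_rfl
  | fin c =>
    simp only [Par.be]
    positivity

theorem eta_pos (c : ℕ) : 0 < eta c := by
  unfold eta
  positivity

theorem pr_nonneg (κ : Kind) : 0 ≤ pr κ := by
  cases κ with
  | sp => exact le_rfl
  | inf => exact le_rfl
  | fin c =>
    have := eta_pos c
    simp only [pr]
    positivity

theorem phiN_sp (P : Par) (S : St Y Lab) (m : Y → ℝ) (lab : Y → ℕ → Lab) {N : List Lab}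
    (h : (S N).kind = Kind.sp) :
    phiN P S m lab N = P.w N.length * (P.A' * (mass m lab (up S N) - mass m lab N)) := by
  unfold phiN
  rw [if_pos h, h]
  simp only [Par.al, Par.be]
  ring

theorem phiN_ch (P : Par) (S : St Y Lab) (m : Y → ℝ) (lab : Y → ℕ → Lab) {N : List Lab}
    (h : (S N).kind ≠ Kind.sp) :
    phiN P S m lab N =
      P.w N.length * (P.al (S N).kind * mass m lab N + P.be (S N).kind * mass m lab (up S N)) +
        (8 * fd m lab N (S N).ctr + (S N).trav * mass m lab N) := by
  unfold phiN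
  rw [if_neg h]

theorem le_phiN_ch (P : Par) (S : St Y Lab) {m : Y → ℝ} (hm : ∀ x, 0 ≤ m x) (lab : Y → ℕ → Lab)
    {N : List Lab} (h : (S N).kind ≠ Kind.sp) (ht : 0 ≤ (S N).trav) :
    P.w N.length * (P.A * mass m lab N) ≤ phiN P S m lab N := by
  rw [phiN_ch P S m lab h]
  have h1 := mass_nonneg hm lab N
  have h2 := mass_nonneg hm lab (up S N)
  have h3 := fd_nonneg hm lab N (S N).ctr
  have h4 := le_al P h
  have h5 := be_nonneg P (S N).kind
  have h6 := w_pos P N.length
  have h7 : P.A * mass m lab N ≤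
      P.al (S N).kind * mass m lab N + P.be (S N).kind * mass m lab (up S N) := by
    nlinarith [mul_nonneg h5 h2, mul_le_mul_of_nonneg_right h4 h1]
  have h8 := mul_le_mul_of_nonneg_left h7 h6.le
  have h9 := mul_nonneg ht h1
  linarith

theorem phiN_nonneg (P : Par) (S : St Y Lab) {m : Y → ℝ} (hm : ∀ x, 0 ≤ m x)
    (lab : Y → ℕ → Lab) {N : List Lab} (ht : 0 ≤ (S N).trav) : 0 ≤ phiN P S m lab N := by
  by_cases h : (S N).kind = Kind.sp
  · rw [phiN_sp P S m lab h]
    have h1 := mass_anc hm lab (up_suffix S N)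
    exact mul_nonneg (w_pos P _).le (mul_nonneg (A'_pos P).le (by linarith))
  · refine le_trans ?_ (le_phiN_ch P S hm lab h ht)
    exact mul_nonneg (w_pos P _).le (mul_nonneg (A_pos P).le (mass_nonneg hm lab N))

theorem up_congr {S S' : St Y Lab} {N : List Lab}
    (h : ∀ J, J <:+ N → J ≠ N → ((S J).kind = Kind.sp ↔ (S' J).kind = Kind.sp)) :
    up S N = up S' N := by
  induction N with
  | nil => rfl
  | cons a N ih =>
    have h1 := h N (List.suffix_cons a N) (fun e => by
      have := congrArg List.length e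
      simp at this)
    have h2 : up S N = up S' N := ih fun J hJ hne => h J (hJ.trans (List.suffix_cons a N))
      (fun e => by
        have h3 := hJ.length_le
        have := congrArg List.length e
        simp at this
        omega)
    rw [up_cons, up_cons, h2]
    by_cases hk : (S N).kind = Kind.sp
    · rw [if_pos hk, if_pos (h1.1 hk)]
    · rw [if_neg hk, if_neg (fun e => hk (h1.2 e))]

/-- price of one node -/
noncomputable def prN (P : Par) (S S' : St Y Lab) (m : Y → ℝ) (lab : Y → ℕ → Lab)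
    (N : List Lab) : ℝ :=
  if (S' N).kind = (S N).kind ∧ (S' N).birth = (S N).birth then 0
    else P.w N.length * pr (S' N).kind * mass m lab N

theorem prN_nonneg (P : Par) (S S' : St Y Lab) {m : Y → ℝ} (hm : ∀ x, 0 ≤ m x)
    (lab : Y → ℕ → Lab) (N : List Lab) : 0 ≤ prN P S S' m lab N := by
  unfold prN
  split_ifs
  · exact le_rfl
  · exact mul_nonneg (mul_nonneg (w_pos P _).le (pr_nonneg _)) (mass_nonneg hm lab N)

theorem prN_le (P : Par) (S S' : St Y Lab) {m : Y → ℝ} (hm : ∀ x, 0 ≤ m x)
    (lab : Y → ℕ → Lab) (N : List Lab) :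
    prN P S S' m lab N ≤ P.w N.length * pr (S' N).kind * mass m lab N := by
  unfold prN
  split_ifs
  · exact mul_nonneg (mul_nonneg (w_pos P _).le (pr_nonneg _)) (mass_nonneg hm lab N)
  · exact le_rfl

theorem Phi_eq (P : Par) (S : St Y Lab) (m : Y → ℝ) (lab : Y → ℕ → Lab) :
    Phi P S m lab = 8 * fd m lab [] (S []).ctr + ∑ N ∈ nodes Lab P.I, phiN P S m lab N := by
  unfold Phi ps
  simp only [mul_add, Finset.mul_sum]
  rw [Finset.sum_add_distrib]
  congr 1
  · unfold fd
    rw [Finset.mul_sum]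
    refine Finset.sum_congr rfl fun x _ => ?_
    rw [if_pos (mem_nil lab x)]
    ring
  · rw [Finset.sum_comm]
    refine Finset.sum_congr rfl fun N _ => ?_
    unfold phiN mass fd
    by_cases h : (S N).kind = Kind.sp
    · simp only [h, if_true, add_zero]
      rw [mul_add, mul_comm (P.al Kind.sp), mul_comm (P.be Kind.sp), Finset.sum_mul,
        Finset.sum_mul, Finset.mul_sum, Finset.mul_sum, ← Finset.sum_add_distrib]
      refine Finset.sum_congr rfl fun x _ => ?_
      split_ifs <;> ring
    · simp only [h, if_false]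
      rw [mul_add, mul_comm (P.al _), mul_comm (P.be _), Finset.sum_mul,
        Finset.sum_mul, Finset.mul_sum, Finset.mul_sum, Finset.mul_sum, Finset.mul_sum,
        ← Finset.sum_add_distrib, ← Finset.sum_add_distrib, ← Finset.sum_add_distrib]
      refine Finset.sum_congr rfl fun x _ => ?_
      split_ifs <;> ring

theorem Price_eq (P : Par) (S S' : St Y Lab) (m : Y → ℝ) (lab : Y → ℕ → Lab) :
    Price P S S' m lab = dist (S []).ctr (S' []).ctr * mass m lab [] +
      ∑ N ∈ nodes Lab P.I, prN P S S' m lab N := by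
  unfold Price prx
  simp only [mul_add, Finset.mul_sum]
  rw [Finset.sum_add_distrib]
  congr 1
  · unfold mass
    rw [Finset.mul_sum]
    refine Finset.sum_congr rfl fun x _ => ?_
    rw [if_pos (mem_nil lab x)]
    ring
  · rw [Finset.sum_comm]
    refine Finset.sum_congr rfl fun N _ => ?_
    unfold prN mass
    split_ifs with h
    · simp
    · rw [Finset.mul_sum]
      refine Finset.sum_congr rfl fun x _ => ?_
      split_ifs <;> ring

/-- total value of a candidate -/
noncomputable def val (P : Par) (S S' : St Y Lab) (m : Y → ℝ) (lab : Y → ℕ → Lab) : ℝ :=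
  Phi P S' m lab + Price P S S' m lab

theorem val_eq (P : Par) (S S' : St Y Lab) (m : Y → ℝ) (lab : Y → ℕ → Lab) :
    val P S S' m lab = (8 * fd m lab [] (S' []).ctr + dist (S []).ctr (S' []).ctr * mass m lab []) +
      ∑ N ∈ nodes Lab P.I, (phiN P S' m lab N + prN P S S' m lab N) := by
  unfold val
  rw [Phi_eq, Price_eq, Finset.sum_add_distrib]
  ring

theorem val_self (P : Par) (S : St Y Lab) (m : Y → ℝ) (lab : Y → ℕ → Lab) :
    val P S S m lab = Phi P S m lab := by
  unfold val
  rw [Price_eq]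
  simp [prN]

/-- comparison: two candidates with the same root which agree outside of `D` -/
theorem compare {S S' S'' : St Y Lab} {m : Y → ℝ} {lab : Y → ℕ → Lab}
    (hmin : val P S S' m lab ≤ val P S S'' m lab) {D : Finset (List Lab)}
    (hD : D ⊆ nodes Lab P.I) (hroot : (S'' []).ctr = (S' []).ctr)
    (hout : ∀ N ∈ nodes Lab P.I, N ∉ D → phiN P S'' m lab N + prN P S S'' m lab N =
      phiN P S' m lab N + prN P S S' m lab N) :
    ∑ N ∈ D, (phiN P S' m lab N + prN P S S' m lab N) ≤
      ∑ N ∈ D, (phiN P S'' m lab N + prN P S S'' m lab N) := by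
  rw [val_eq, val_eq, hroot, ← Finset.sum_sdiff hD,
    ← Finset.sum_sdiff (f := fun N => phiN P S'' m lab N + prN P S S'' m lab N) hD] at hmin
  have h : ∑ N ∈ nodes Lab P.I \ D, (phiN P S'' m lab N + prN P S S'' m lab N) =
      ∑ N ∈ nodes Lab P.I \ D, (phiN P S' m lab N + prN P S S' m lab N) := by
    refine Finset.sum_congr rfl fun N hN => ?_
    rw [Finset.mem_sdiff] at hN
    exact hout N hN.1 hN.2
  linarith

/-- a node whose state and whose ancestors' spine status do not change has the same terms -/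
theorem term_congr {S S' S'' : St Y Lab} {m : Y → ℝ} {lab : Y → ℕ → Lab} {N : List Lab}
    (h : S'' N = S' N)
    (hup : ∀ J, J <:+ N → J ≠ N → ((S'' J).kind = Kind.sp ↔ (S' J).kind = Kind.sp)) :
    phiN P S'' m lab N + prN P S S'' m lab N = phiN P S' m lab N + prN P S S' m lab N := by
  unfold phiN prN
  rw [h, up_congr hup]

/-- admissible candidates -/
def Adm (P : Par) (now : ℕ) (S S' : St Y Lab) : Prop :=
  Trans P now S S' ∧ ∀ N, N ≠ [] → N ∉ nodes Lab P.I → S' N = S N

theorem OkN_self (now : ℕ) (a : NS Y) : OkN now a a := Or.inl ⟨rfl, rfl, by simp⟩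

theorem Adm_self (P : Par) (now : ℕ) (S : St Y Lab) : Adm P now S S :=
  ⟨⟨fun N _ => OkN_self now _, fun _ _ h => h, fun _ _ => Or.inl Iff.rfl, rfl, rfl, by simp⟩,
    fun _ _ _ => rfl⟩

theorem finite_ok (P : Par) : {κ : Kind | P.ok κ}.Finite := by
  refine Set.Finite.subset (((Finset.range (P.cm + 1)).image Kind.fin ∪
    {Kind.sp, Kind.inf} : Finset Kind).finite_toSet) ?_
  intro κ hκ
  cases κ with
  | sp => simp
  | inf => simp
  | fin c =>
    have h : c ≤ P.cm := hκ
    simp only [Finset.coe_union, Set.mem_union, Finset.mem_coe, Finset.mem_image,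
      Finset.mem_range]
    exact Or.inl ⟨c, by omega, rfl⟩

theorem finite_OkN (P : Par) (now : ℕ) (a : NS Y) :
    {b : NS Y | OkN now a b ∧ P.ok b.kind}.Finite := by
  have h1 : ((fun q : Kind × Y => (⟨q.1, now, q.2, 0⟩ : NS Y)) ''
      ({κ : Kind | P.ok κ} ×ˢ (Set.univ : Set Y))).Finite :=
    Set.Finite.image _ ((finite_ok P).prod Set.finite_univ)
  have h2 : ((fun y : Y => (⟨a.kind, a.birth, y, a.trav + dist a.ctr y⟩ : NS Y)) ''
      (Set.univ : Set Y)).Finite := Set.Finite.image _ Set.finite_univ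
  refine Set.Finite.subset (h1.union h2) ?_
  rintro ⟨κ, b, c, t⟩ ⟨h, hk⟩
  rcases h with ⟨e1, e2, e3⟩ | ⟨e1, e2⟩
  · right
    refine ⟨c, Set.mem_univ _, ?_⟩
    simp only at e1 e2 e3
    subst e1 e2 e3
    rfl
  · left
    refine ⟨(κ, c), ⟨hk, Set.mem_univ _⟩, ?_⟩
    simp only at e1 e2
    subst e1 e2
    rfl

theorem finite_Adm (P : Par) (now : ℕ) (S : St Y Lab)
    (hk : ∀ N ∈ nodes Lab P.I, P.ok (S N).kind) : {S' : St Y Lab | Adm P now S S'}.Finite := by
  set E : Finset (List Lab) := insert [] (nodes Lab P.I) with hE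
  have hmemE : ∀ N : List Lab, N ∈ E → N ≠ [] → N ∈ nodes Lab P.I := fun N h1 h2 => by
    rw [hE, Finset.mem_insert] at h1
    exact h1.resolve_left h2
  let r : St Y Lab → (E → NS Y) := fun S' N => S' N.1
  have hinj : Set.InjOn r {S' : St Y Lab | Adm P now S S'} := by
    intro S₁ h₁ S₂ h₂ e
    funext N
    by_cases hN : N ∈ E
    · exact congrFun e ⟨N, hN⟩
    · rw [hE, Finset.mem_insert, not_or] at hN
      rw [h₁.2 N hN.1 hN.2, h₂.2 N hN.1 hN.2]
  refine Set.Finite.of_finite_image ?_ hinj
  let T : E → Set (NS Y) := fun N =>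
    if N.1 = [] then (fun y : Y => (⟨(S []).kind, (S []).birth, y,
      (S []).trav + dist (S []).ctr y⟩ : NS Y)) '' (Set.univ : Set Y)
    else {b : NS Y | OkN now (S N.1) b ∧ P.ok b.kind}
  have hT : (Set.pi Set.univ T).Finite := by
    refine Set.Finite.pi fun N => ?_
    by_cases h : N.1 = []
    · simp only [T, h, if_true]
      exact Set.Finite.image _ Set.finite_univ
    · simp only [T, h, if_false]
      exact finite_OkN P now _
  refine hT.subset ?_
  rintro _ ⟨S', hS', rfl⟩ N -
  by_cases h : N.1 = []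
  · simp only [T, h, if_true, r]
    refine ⟨(S' []).ctr, Set.mem_univ _, ?_⟩
    obtain ⟨e1, e2, e3⟩ := hS'.1.root
    have : S' [] = ⟨(S' []).kind, (S' []).birth, (S' []).ctr, (S' []).trav⟩ := rfl
    rw [this, e1, e2, e3]
  · simp only [T, h, if_false, r]
    have hN : N.1 ∈ nodes Lab P.I := hmemE N.1 N.2 h
    exact ⟨hS'.1.node _ hN, hS'.1.kinds _ hN (hk _ hN)⟩

theorem exists_min (P : Par) (now : ℕ) (S : St Y Lab) (m : Y → ℝ) (lab : Y → ℕ → Lab)
    (hk : ∀ N ∈ nodes Lab P.I, P.ok (S N).kind) :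
    ∃ S', Adm P now S S' ∧ ∀ S'', Adm P now S S'' → val P S S' m lab ≤ val P S S'' m lab := by
  obtain ⟨S', h1, h2⟩ := Set.exists_min_image _ (fun S' => val P S S' m lab)
    (finite_Adm P now S hk) ⟨S, Adm_self P now S⟩
  exact ⟨S', h1, fun S'' h => h2 S'' h⟩

/-- modification of an admissible candidate -/
theorem Adm.modify {now : ℕ} {S S' S'' : St Y Lab} (h : Adm P now S S')
    (hnode : ∀ N ∈ nodes Lab P.I, OkN now (S N) (S'' N))
    (hkinds : ∀ N ∈ nodes Lab P.I, P.ok (S N).kind → P.ok (S'' N).kind)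
    (hflip : ∀ N ∈ nodes Lab P.I, ((S' N).kind = Kind.sp ↔ (S'' N).kind = Kind.sp) ∨
      ∀ H ∈ nodes Lab P.I, N <:+ H → N ≠ H → (S'' H).birth = now)
    (hbirth : ∀ H ∈ nodes Lab P.I, (S' H).birth = now → (S'' H).birth = now)
    (hroot : (S'' []).kind = (S []).kind ∧ (S'' []).birth = (S []).birth ∧
      (S'' []).trav = (S []).trav + dist (S []).ctr (S'' []).ctr)
    (hout : ∀ N, N ≠ [] → N ∉ nodes Lab P.I → S'' N = S' N) : Adm P now S S'' := by
  refine ⟨⟨hnode, hkinds, fun N hN => ?_, hroot⟩, fun N h1 h2 => (hout N h1 h2).trans (h.2 N h1 h2)⟩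
  rcases hflip N hN with h1 | h1
  · rcases h.1.flip N hN with h2 | h2
    · exact Or.inl (h2.trans h1)
    · exact Or.inr fun H hH h3 h4 => hbirth H hH (h2 H hH h3 h4)
  · exact Or.inr h1

theorem trav_nonneg {now : ℕ} {S S' : St Y Lab} (h : Adm P now S S')
    (ht : ∀ N, 0 ≤ (S N).trav) {N : List Lab} (hN : N ∈ nodes Lab P.I) : 0 ≤ (S' N).trav := by
  rcases h.1.node N hN with ⟨_, _, e⟩ | ⟨_, e⟩
  · rw [e]
    exact add_nonneg (ht N) dist_nonneg
  · rw [e]

theorem ne_nil {N : List Lab} (hN : N ∈ nodes Lab P.I) : N ≠ [] := (mem_nodes.1 hN).1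

/-- replacing the state of one charged node by another charged state -/
theorem single {now : ℕ} {S S' : St Y Lab} {m : Y → ℝ} {lab : Y → ℕ → Lab}
    (h : Adm P now S S')
    (hmin : ∀ S'', Adm P now S S'' → val P S S' m lab ≤ val P S S'' m lab)
    {N : List Lab} (hN : N ∈ nodes Lab P.I) {b : NS Y} (hb : OkN now (S N) b)
    (hok : P.ok b.kind) (hs : (S' N).kind = Kind.sp ↔ b.kind = Kind.sp)
    (hbirth : (S' N).birth = now → b.birth = now) :
    phiN P S' m lab N + prN P S S' m lab N ≤
      phiN P (Function.update S' N b) m lab N + prN P S (Function.update S' N b) m lab N := by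
  have hne := ne_nil hN
  have hroot : Function.update S' N b [] = S' [] := Function.update_of_ne hne.symm _ _
  have hsp : ∀ J, ((Function.update S' N b J).kind = Kind.sp ↔ (S' J).kind = Kind.sp) := by
    intro J
    by_cases hJ : J = N
    · subst hJ
      rw [Function.update_self]
      exact hs.symm
    · rw [Function.update_of_ne hJ]
  have hadm : Adm P now S (Function.update S' N b) := by
    refine h.modify (fun J hJ => ?_) (fun J hJ hk => ?_) (fun J _ => Or.inl (hsp J).symm)
      (fun J hJ hb' => ?_) (by rw [hroot]; exact h.1.root) (fun J h1 h2 => ?_)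
    · by_cases hJN : J = N
      · subst hJN
        rw [Function.update_self]
        exact hb
      · rw [Function.update_of_ne hJN]
        exact h.1.node J hJ
    · by_cases hJN : J = N
      · subst hJN
        rw [Function.update_self]
        exact hok
      · rw [Function.update_of_ne hJN]
        exact h.1.kinds J hJ hk
    · by_cases hJN : J = N
      · subst hJN
        rw [Function.update_self]
        exact hbirth hb'
      · rw [Function.update_of_ne hJN]
        exact hb'
    · have hJN : J ≠ N := by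
        rintro rfl
        exact h2 hN
      exact Function.update_of_ne hJN _ _
  have := compare (hmin _ hadm) (D := {N}) (Finset.singleton_subset_iff.2 hN)
    (by rw [hroot]) (fun J hJ hJN => term_congr
      (Function.update_of_ne (fun e => hJN (Finset.mem_singleton.2 e)) _ _)
      (fun K _ _ => hsp K))
  simpa using this

/-- replacing the states of a whole subtree -/
theorem subtree {now : ℕ} {S S' : St Y Lab} {m : Y → ℝ} {lab : Y → ℕ → Lab}
    (h : Adm P now S S')
    (hmin : ∀ S'', Adm P now S S'' → val P S S' m lab ≤ val P S S'' m lab)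
    {N : List Lab} (hN : N ∈ nodes Lab P.I) (κ : List Lab → Kind) (hκ : ∀ H, P.ok (κ H))
    (a : List Lab → Y) :
    ∑ H ∈ (nodes Lab P.I).filter (fun H => N <:+ H), (phiN P S' m lab H + prN P S S' m lab H) ≤
      ∑ H ∈ (nodes Lab P.I).filter (fun H => N <:+ H),
        (phiN P (fun H => if H ∈ nodes Lab P.I ∧ N <:+ H then ⟨κ H, now, a H, 0⟩ else S' H) m lab H +
        prN P S (fun H => if H ∈ nodes Lab P.I ∧ N <:+ H then ⟨κ H, now, a H, 0⟩ else S' H)
          m lab H) := by
  set S'' : St Y Lab := fun H => if H ∈ nodes Lab P.I ∧ N <:+ H then ⟨κ H, now, a H, 0⟩ else S' H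
    with hS''
  have hin : ∀ H, H ∈ nodes Lab P.I → N <:+ H → S'' H = ⟨κ H, now, a H, 0⟩ := fun H h1 h2 => by
    rw [hS'']
    exact if_pos ⟨h1, h2⟩
  have hnin : ∀ H, ¬ (N <:+ H) → S'' H = S' H := fun H h1 => by
    rw [hS'']
    exact if_neg fun h2 => h1 h2.2
  have hnil : ¬ (N <:+ ([] : List Lab)) := fun e => ne_nil hN (List.suffix_nil.1 e)
  have hroot : S'' [] = S' [] := hnin [] hnil
  have hadm : Adm P now S S'' := by
    refine h.modify (fun J hJ => ?_) (fun J hJ hk => ?_) (fun J hJ => ?_)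
      (fun J hJ hb' => ?_) (by rw [hroot]; exact h.1.root) (fun J h1 h2 => ?_)
    · by_cases hJN : N <:+ J
      · rw [hin J hJ hJN]
        exact Or.inr ⟨rfl, rfl⟩
      · rw [hnin J hJN]
        exact h.1.node J hJ
    · by_cases hJN : N <:+ J
      · rw [hin J hJ hJN]
        exact hκ J
      · rw [hnin J hJN]
        exact h.1.kinds J hJ hk
    · by_cases hJN : N <:+ J
      · right
        intro H hH h1 _
        rw [hin H hH (hJN.trans h1)]
      · left
        rw [hnin J hJN]
    · by_cases hJN : N <:+ J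
      · rw [hin J hJ hJN]
      · rw [hnin J hJN]
        exact hb'
    · rw [hS'']
      exact if_neg fun h3 => h2 h3.1
  refine compare (hmin _ hadm) (Finset.filter_subset _ _) (by rw [hroot]) (fun J hJ hJN => ?_)
  have hJN' : ¬ (N <:+ J) := fun e => hJN (Finset.mem_filter.2 ⟨hJ, e⟩)
  exact term_congr (hnin J hJN') (fun K hK _ => by rw [hnin K fun e => hJN' (e.trans hK)])

end Upd

open Upd in
theorem exists_upd [Nonempty Y] (P : Par) {m : Y → ℝ} (hm : ∀ x, 0 ≤ m x) (lab : Y → ℕ → Lab)
    (S : St Y Lab) (now : ℕ) (hk : ∀ N ∈ nodes Lab P.I, P.ok (S N).kind)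
    (ht : ∀ N, 0 ≤ (S N).trav) :
    ∃ S' : St Y Lab, Trans P now S S' ∧ (∀ N, N ≠ [] → N ∉ nodes Lab P.I → S' N = S N) ∧
      Stuck P S' m lab ∧ Phi P S' m lab + Price P S S' m lab ≤ Phi P S m lab := by
  obtain ⟨S', hadm, hmin⟩ := Upd.exists_min P now S m lab hk
  refine ⟨S', hadm.1, hadm.2, ?_, ?_⟩
  swap
  · have := hmin S (Adm_self P now S)
    rwa [val_self] at this
  refine ⟨?_, ?_, ?_, ?_, ?_⟩
  · -- renew
    intro N hN hsp κ hκ hok a
    have h1 := single hadm hmin hN (b := ⟨κ, now, a, 0⟩) (Or.inr ⟨rfl, rfl⟩) hok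
      ⟨fun e => absurd e hsp, fun e => absurd e hκ⟩ (fun _ => rfl)
    have hu : up (Function.update S' N ⟨κ, now, a, 0⟩) N = up S' N := by
      refine up_congr fun J _ hJ => ?_
      rw [Function.update_of_ne hJ]
    have h2 : phiN P (Function.update S' N ⟨κ, now, a, 0⟩) m lab N =
        P.w N.length * (P.al κ * mass m lab N + P.be κ * mass m lab (up S' N)) +
          8 * fd m lab N a := by
      rw [phiN_ch _ _ _ _ (by rw [Function.update_self]; exact hκ), hu, Function.update_self]
      ring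
    have h3 : prN P S (Function.update S' N ⟨κ, now, a, 0⟩) m lab N ≤
        P.w N.length * pr κ * mass m lab N := by
      refine (prN_le P S _ hm lab N).trans ?_
      rw [Function.update_self]
    have h4 := prN_nonneg P S S' hm lab N
    rw [phiN_ch _ _ _ _ hsp, h2] at h1
    linarith
  · -- move
    intro N hN hsp a
    have hmass := mass_nonneg hm lab N
    rcases hadm.1.node N hN with ⟨e1, e2, e3⟩ | ⟨e1, e2⟩
    · have h1 := single hadm hmin hN
        (b := ⟨(S' N).kind, (S' N).birth, a, (S N).trav + dist (S N).ctr a⟩)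
        (Or.inl ⟨e1, e2, rfl⟩) (hadm.1.kinds N hN (hk N hN)) Iff.rfl (fun e => e)
      set b : NS Y := ⟨(S' N).kind, (S' N).birth, a, (S N).trav + dist (S N).ctr a⟩ with hb
      have hu : up (Function.update S' N b) N = up S' N := by
        refine up_congr fun J _ hJ => ?_
        rw [Function.update_of_ne hJ]
      have h2 : phiN P (Function.update S' N b) m lab N =
          P.w N.length * (P.al (S' N).kind * mass m lab N +
            P.be (S' N).kind * mass m lab (up S' N)) +
            (8 * fd m lab N a + ((S N).trav + dist (S N).ctr a) * mass m lab N) := by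
        rw [phiN_ch _ _ _ _ (by rw [Function.update_self]; exact hsp), hu, Function.update_self]
      have h3 : prN P S (Function.update S' N b) m lab N = prN P S S' m lab N := by
        unfold prN
        rw [Function.update_self]
      rw [phiN_ch _ _ _ _ hsp, h2, h3, e3] at h1
      have h4 := dist_triangle (S N).ctr (S' N).ctr a
      have h5 := mul_le_mul_of_nonneg_right h4 hmass
      nlinarith [h1, h5]
    · have h1 := single hadm hmin hN (b := ⟨(S' N).kind, (S' N).birth, a, 0⟩)
        (Or.inr ⟨e1, rfl⟩) (hadm.1.kinds N hN (hk N hN)) Iff.rfl (fun e => e)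
      set b : NS Y := ⟨(S' N).kind, (S' N).birth, a, 0⟩ with hb
      have hu : up (Function.update S' N b) N = up S' N := by
        refine up_congr fun J _ hJ => ?_
        rw [Function.update_of_ne hJ]
      have h2 : phiN P (Function.update S' N b) m lab N =
          P.w N.length * (P.al (S' N).kind * mass m lab N +
            P.be (S' N).kind * mass m lab (up S' N)) +
            (8 * fd m lab N a + 0 * mass m lab N) := by
        rw [phiN_ch _ _ _ _ (by rw [Function.update_self]; exact hsp), hu, Function.update_self]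
      have h3 : prN P S (Function.update S' N b) m lab N = prN P S S' m lab N := by
        unfold prN
        rw [Function.update_self]
      rw [phiN_ch _ _ _ _ hsp, h2, h3, e2] at h1
      have h5 : 0 ≤ dist (S' N).ctr a * mass m lab N := mul_nonneg dist_nonneg hmass
      linarith
  · -- root
    intro a
    have hmass := mass_nonneg hm lab []
    set b : NS Y := ⟨(S []).kind, (S []).birth, a, (S []).trav + dist (S []).ctr a⟩ with hb
    have hsp : ∀ J, J ≠ [] → Function.update S' [] b J = S' J := fun J hJ =>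
      Function.update_of_ne hJ _ _
    have hsp' : ∀ J, ((Function.update S' [] b J).kind = Kind.sp ↔ (S' J).kind = Kind.sp) := by
      intro J
      by_cases hJ : J = []
      · subst hJ
        rw [Function.update_self, hb, hadm.1.root.1]
      · rw [hsp J hJ]
    have hadm' : Adm P now S (Function.update S' [] b) := by
      refine hadm.modify (fun J hJ => ?_) (fun J hJ hk' => ?_) (fun J hJ => Or.inl (hsp' J).symm)
        (fun J hJ hb' => ?_) ?_ (fun J h1 h2 => hsp J h1)
      · rw [hsp J (ne_nil hJ)]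
        exact hadm.1.node J hJ
      · rw [hsp J (ne_nil hJ)]
        exact hadm.1.kinds J hJ hk'
      · rw [hsp J (ne_nil hJ)]
        exact hb'
      · rw [Function.update_self]
        exact ⟨rfl, rfl, rfl⟩
    have h1 := hmin _ hadm'
    rw [val_eq, val_eq] at h1
    have h2 : ∑ N ∈ nodes Lab P.I, (phiN P (Function.update S' [] b) m lab N +
        prN P S (Function.update S' [] b) m lab N) =
        ∑ N ∈ nodes Lab P.I, (phiN P S' m lab N + prN P S S' m lab N) :=
      Finset.sum_congr rfl fun N hN => term_congr (hsp N (ne_nil hN)) (fun K _ _ => hsp' K)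
    rw [h2, Function.update_self] at h1
    have h4 := dist_triangle (S []).ctr (S' []).ctr a
    have h5 := mul_le_mul_of_nonneg_right h4 hmass
    simp only [hb] at h1
    nlinarith [h1, h5]
  · -- charge
    intro N hN hsp a
    have h1 := subtree hadm hmin hN (fun _ => Kind.inf) (fun _ => trivial) a
    have h2 : P.w N.length * (P.A' * (mass m lab (up S' N) - mass m lab N)) ≤
        ∑ H ∈ (nodes Lab P.I).filter (fun H => N <:+ H),
          (phiN P S' m lab H + prN P S S' m lab H) := by
      have h3 : phiN P S' m lab N + prN P S S' m lab N ≤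
        ∑ H ∈ (nodes Lab P.I).filter (fun H => N <:+ H),
          (phiN P S' m lab H + prN P S S' m lab H) :=
        Finset.single_le_sum (f := fun H => phiN P S' m lab H + prN P S S' m lab H)
          (fun H hH => add_nonneg (phiN_nonneg P S' hm lab
            (trav_nonneg hadm ht (Finset.mem_filter.1 hH).1)) (prN_nonneg P S S' hm lab H))
          (Finset.mem_filter.2 ⟨hN, List.suffix_refl N⟩)
      rw [phiN_sp _ _ _ _ hsp] at h3
      linarith [prN_nonneg P S S' hm lab N]
    refine h2.trans (h1.trans (le_of_eq (Finset.sum_congr rfl fun H hH => ?_)))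
    rw [Finset.mem_filter] at hH
    unfold phiN prN
    simp only [hH.1, hH.2, and_self, if_true]
    rw [if_neg (by simp)]
    simp only [Par.al, Par.be, pr]
    split_ifs <;> ring
  · -- spine
    intro N hN hsp a
    have h1 := subtree hadm hmin hN (fun H => if H = N then Kind.sp else Kind.inf)
      (fun H => by split_ifs <;> trivial) a
    set S'' : St Y Lab := fun H => if H ∈ nodes Lab P.I ∧ N <:+ H then
      ⟨if H = N then Kind.sp else Kind.inf, now, a H, 0⟩ else S' H with hS''
    have hdec : (nodes Lab P.I).filter (fun H => N <:+ H) =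
        insert N ((nodes Lab P.I).filter (fun H => N <:+ H ∧ N ≠ H)) := by
      ext H
      simp only [Finset.mem_filter, Finset.mem_insert]
      constructor
      · rintro ⟨h2, h3⟩
        by_cases e : H = N
        · exact Or.inl e
        · exact Or.inr ⟨h2, h3, fun e' => e e'.symm⟩
      · rintro (rfl | ⟨h2, h3, _⟩)
        · exact ⟨hN, List.suffix_refl _⟩
        · exact ⟨h2, h3⟩
    have hnot : N ∉ (nodes Lab P.I).filter (fun H => N <:+ H ∧ N ≠ H) := by
      simp
    have h2 : P.w N.length * (P.A * mass m lab N) ≤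
        ∑ H ∈ (nodes Lab P.I).filter (fun H => N <:+ H),
          (phiN P S' m lab H + prN P S S' m lab H) := by
      have h3 : phiN P S' m lab N + prN P S S' m lab N ≤
        ∑ H ∈ (nodes Lab P.I).filter (fun H => N <:+ H),
          (phiN P S' m lab H + prN P S S' m lab H) :=
        Finset.single_le_sum (f := fun H => phiN P S' m lab H + prN P S S' m lab H)
          (fun H hH => add_nonneg (phiN_nonneg P S' hm lab
            (trav_nonneg hadm ht (Finset.mem_filter.1 hH).1)) (prN_nonneg P S S' hm lab H))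
          (Finset.mem_filter.2 ⟨hN, List.suffix_refl N⟩)
      linarith [prN_nonneg P S S' hm lab N, le_phiN_ch P S' hm lab hsp (trav_nonneg hadm ht hN)]
    refine h2.trans (h1.trans (le_of_eq ?_))
    rw [hdec, Finset.sum_insert hnot]
    congr 1
    · have hS''N : S'' N = ⟨Kind.sp, now, a N, 0⟩ := by
        rw [hS'']
        simp [hN]
      have hu : up S'' N = up S' N := by
        refine up_congr fun J hJ hne => ?_
        have : ¬ (N <:+ J) := fun e => hne (hJ.eq_of_length (le_antisymm hJ.length_le e.length_le))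
        rw [hS'']
        simp only [this, and_false, if_false]
      rw [phiN_sp _ _ _ _ (by rw [hS''N]), hu]
      unfold prN
      rw [hS''N]
      simp [pr]
    · refine Finset.sum_congr rfl fun H hH => ?_
      rw [Finset.mem_filter] at hH
      have hS''H : S'' H = ⟨Kind.inf, now, a H, 0⟩ := by
        rw [hS'']
        simp [hH.1, hH.2.1, hH.2.2.symm]
      rw [phiN_ch _ _ _ _ (by rw [hS''H]; simp)]
      unfold prN
      rw [hS''H]
      simp only [Par.al, Par.be, pr]
      split_ifs <;> ring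

end Crest.Agent.R314.C
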