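import Mathlib
import Crest.Agent.R314.C1a

/-!
R314, module C, block C2: first consequences `s1`, ..., `s8` of `Stuck`.
-/

set_option autoImplicit false
set_option linter.unusedSectionVars false

namespace Crest.Agent.R314.C

open Finset Classical

section Const

variable (P : Par)

theorem C2s.w_pos (j : ℕ) : 0 < P.w j := by
  unfold Par.w
  have := P.hW
  have : 0 < P.B := lt_of_lt_of_le (by norm_num) P.hB
  positivity

theorem C2s.A_ge : 17 ≤ P.A := by
  unfold Par.A
  linarith [P.hCG]

theorem C2s.A_pos : 0 < P.A := lt_of_lt_of_le (by norm_num) (C2s.A_ge P)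

theorem C2s.CG_pos : 0 < P.CG := lt_of_lt_of_le one_pos P.hCG

theorem C2s.Q_pos : 0 < P.Q := by
  unfold Par.Q
  linarith [(C2s.A_pos P), (C2s.CG_pos P)]

theorem C2s.Q_le : P.Q ≤ 5 / 2 * P.A := by
  unfold Par.Q Par.A
  linarith

theorem C2s.eta_pos (c : ℕ) : 0 < eta c := by
  unfold eta
  positivity

theorem C2s.eta_succ (c : ℕ) : eta (c + 1) = 2 * eta c := by
  unfold eta
  rw [pow_succ]
  ring

theorem C2s.pr_fin (c : ℕ) : pr (Kind.fin c) = 3 / 64 * (1 / 2) ^ c := by
  unfold pr eta
  have h : (2 : ℝ) ^ c ≠ 0 := by positivity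
  rw [one_div, inv_pow]
  field_simp
  norm_num

theorem C2s.pr_le (κ : Kind) : pr κ ≤ 3 / 64 := by
  cases κ with
  | sp => unfold pr; norm_num
  | inf => unfold pr; norm_num
  | fin c =>
    rw [C2s.pr_fin]
    have : ((1 : ℝ) / 2) ^ c ≤ 1 := pow_le_one₀ (by norm_num) (by norm_num)
    linarith


end Const

variable {Y Lab : Type*} [Fintype Y] [MetricSpace Y] [Fintype Lab] {P : Par}

theorem C2s.fd_eq_zero {m : Y → ℝ} {lab : Y → ℕ → Lab} {N : List Lab} (h : ∀ x, ¬ Mem lab x N)
    (a : Y) : fd m lab N a = 0 := by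
  unfold fd
  apply sum_eq_zero
  intro x _
  rw [if_neg (h x)]

theorem C2s.mass_eq_zero {m : Y → ℝ} {lab : Y → ℕ → Lab} {N : List Lab} (h : ∀ x, ¬ Mem lab x N) :
    mass m lab N = 0 := by
  unfold mass
  apply sum_eq_zero
  intro x _
  rw [if_neg (h x)]

/-- Good centres for all nodes. -/
theorem C2s.exists_ctr [Nonempty Y] {m : Y → ℝ} (hm : ∀ x, 0 ≤ m x) {lab : Y → ℕ → Lab}
    (hv : Valid P lab) : ∃ a : List Lab → Y, ∀ H ∈ nodes Lab P.I,
      P.w H.length * (2 * P.A) * mass m lab H + 8 * fd m lab H (a H) ≤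
        P.Q * (P.w H.length * mass m lab H) := by
  have hex : ∀ H : List Lab, ∃ a : Y, H ∈ nodes Lab P.I →
      P.w H.length * (2 * P.A) * mass m lab H + 8 * fd m lab H a ≤
        P.Q * (P.w H.length * mass m lab H) := by
    intro H
    by_cases h : ∃ x, Mem lab x H
    · obtain ⟨x, hx⟩ := h
      refine ⟨x, fun hH => ?_⟩
      have h1 := fd_le hm hv (mem_nodes.1 hH).2 hx
      unfold Par.Q
      nlinarith
    · push Not at h
      refine ⟨Classical.arbitrary Y, fun _ => ?_⟩
      rw [C2s.fd_eq_zero h, C2s.mass_eq_zero h]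
      simp
  choose a ha using hex
  exact ⟨a, ha⟩

section
variable {m : Y → ℝ} {lab : Y → ℕ → Lab} {S : St Y Lab}
  (hs : Stuck P S m lab) (hm : ∀ x, 0 ≤ m x) (hv : Valid P lab)
  (hk : ∀ N ∈ nodes Lab P.I, P.ok (S N).kind) (ht : ∀ N, 0 ≤ (S N).trav)
include hs hm hv hk ht

theorem s1 {N : List Lab} (hN : N ∈ nodes Lab P.I) (h : (S N).kind = Kind.sp) :
    3 / 4 * mass m lab (up S N) ≤ mass m lab N := by
  haveI : Nonempty Y := ⟨(S []).ctr⟩
  obtain ⟨a, ha⟩ := C2s.exists_ctr (P := P) hm hv
  have h1 := hs.charge N hN h a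
  have h2 : ∑ H ∈ (nodes Lab P.I).filter (fun H => N <:+ H),
        (P.w H.length * (2 * P.A) * mass m lab H + 8 * fd m lab H (a H)) ≤
      P.Q * (64 / 63 * (P.w N.length * mass m lab N)) := by
    calc _ ≤ ∑ H ∈ (nodes Lab P.I).filter (fun H => N <:+ H),
        P.Q * (P.w H.length * mass m lab H) :=
          sum_le_sum fun H hH => ha H (mem_filter.1 hH).1
      _ = P.Q * ∑ H ∈ (nodes Lab P.I).filter (fun H => N <:+ H),
          P.w H.length * mass m lab H := by rw [mul_sum]
      _ ≤ _ := mul_le_mul_of_nonneg_left (sum_below hm lab hN) (C2s.Q_pos P).le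
  have h3 : P.w N.length * (P.A' * (mass m lab (up S N) - mass m lab N)) ≤
      P.w N.length * (P.Q * (64 / 63 * mass m lab N)) := by
    calc _ ≤ _ := h1
      _ ≤ _ := h2
      _ = _ := by ring
  have h4 := le_of_mul_le_mul_left h3 ((C2s.w_pos P _))
  have h5 : P.Q * (31 / 10 * (mass m lab (up S N) - mass m lab N)) ≤
      P.Q * (64 / 63 * mass m lab N) := by
    unfold Par.A' at h4
    calc _ = _ := by ring
      _ ≤ _ := h4
  have h6 := le_of_mul_le_mul_left h5 (C2s.Q_pos P)
  have h7 := mass_nonneg hm lab N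
  linarith

theorem s2 {N : List Lab} (hN : N ∈ nodes Lab P.I) (h : (S N).kind ≠ Kind.sp) :
    mass m lab N ≤ 9 / 10 * mass m lab (up S N) := by
  haveI : Nonempty Y := ⟨(S []).ctr⟩
  obtain ⟨a, ha⟩ := C2s.exists_ctr (P := P) hm hv
  have h1 := hs.spine N hN h a
  have h2 : ∑ H ∈ (nodes Lab P.I).filter (fun H => N <:+ H ∧ N ≠ H),
        (P.w H.length * (2 * P.A) * mass m lab H + 8 * fd m lab H (a H)) ≤
      P.Q * (1 / 63 * (P.w N.length * mass m lab N)) := by
    calc _ ≤ ∑ H ∈ (nodes Lab P.I).filter (fun H => N <:+ H ∧ N ≠ H),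
        P.Q * (P.w H.length * mass m lab H) :=
          sum_le_sum fun H hH => ha H (mem_filter.1 hH).1
      _ = P.Q * ∑ H ∈ (nodes Lab P.I).filter (fun H => N <:+ H ∧ N ≠ H),
          P.w H.length * mass m lab H := by rw [mul_sum]
      _ ≤ _ := mul_le_mul_of_nonneg_left (sum_below' hm lab hN) (C2s.Q_pos P).le
  have h3 : P.w N.length * (P.A * mass m lab N) ≤
      P.w N.length * (P.A' * (mass m lab (up S N) - mass m lab N) +
        P.Q * (1 / 63 * mass m lab N)) := by
    calc _ ≤ _ := h1
      _ ≤ _ := add_le_add le_rfl h2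
      _ = _ := by ring
  have h4 := le_of_mul_le_mul_left h3 ((C2s.w_pos P _))
  have h7 := mass_nonneg hm lab N
  have h8 := (C2s.Q_le P)
  have h9 := (C2s.Q_pos P)
  unfold Par.A' at h4
  -- (A + 31/10 Q - Q/63) m ≤ 31/10 Q mu
  have h10 : 31 / 9 * P.Q * mass m lab N ≤ 31 / 10 * P.Q * mass m lab (up S N) := by
    have : 31 / 9 * P.Q ≤ P.A + 31 / 10 * P.Q - 1 / 63 * P.Q := by linarith
    have h11 := mul_le_mul_of_nonneg_right this h7
    linarith
  have h12 : P.Q * (31 / 9 * mass m lab N) ≤ P.Q * (31 / 10 * mass m lab (up S N)) := by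
    linarith
  have := le_of_mul_le_mul_left h12 h9
  linarith

theorem s3 {N : List Lab} (hN : N ∈ nodes Lab P.I) {c : ℕ} (h : (S N).kind = Kind.fin (c + 1)) :
    mass m lab N ≤ Real.exp (-eta (c + 1) / 8) * mass m lab (up S N) := by
  have hok : P.ok (Kind.fin c) := by
    have := hk N hN
    rw [h] at this
    have h1 : c + 1 ≤ P.cm := this
    exact (show c ≤ P.cm by omega)
  have h1 := hs.renew N hN (by rw [h]; simp) (Kind.fin c) (by simp) hok (S N).ctr
  rw [h, C2s.pr_fin] at h1
  simp only [Par.al, Par.be] at h1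
  have h2 := ht N
  have h7 := mass_nonneg hm lab N
  have h8 := mass_nonneg hm lab (up S N)
  have h9 := mul_nonneg h2 h7
  have hA := (C2s.A_ge P)
  set M := mass m lab N with hM
  set U := mass m lab (up S N) with hU
  have hw := C2s.w_pos P N.length
  have e1 : -eta c / 4 = -eta (c + 1) / 8 := by rw [C2s.eta_succ]; ring
  rw [e1] at h1
  set E := Real.exp (-eta (c + 1) / 8) with hE
  have hE0 : 0 < E := Real.exp_pos _
  have hE1 : 0 < Real.exp (-eta (c + 1) / 4) := Real.exp_pos _
  set p : ℝ := (1 / 2) ^ (c + 1) with hp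
  have hp0 : 0 < p := by positivity
  have e2 : ((1 : ℝ) / 2) ^ c = 2 * p := by rw [hp, pow_succ]; ring
  rw [e2] at h1
  have h3 : P.w N.length * (p * ((P.A - 6 / 64) * M)) ≤ P.w N.length * (p * (P.A / 4 * E * U)) := by
    have h4 : 0 ≤ P.w N.length * (P.A / 8 * p * Real.exp (-eta (c + 1) / 4) * U) := by positivity
    linarith
  have h5 := le_of_mul_le_mul_left (le_of_mul_le_mul_left h3 hw) hp0
  have h6 : P.A / 4 * M ≤ (P.A - 6 / 64) * M := mul_le_mul_of_nonneg_right (by linarith) h7
  have h10 : P.A * M ≤ P.A * (E * U) := by linarith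
  exact le_of_mul_le_mul_left h10 (C2s.A_pos P)

theorem s4 {N : List Lab} (hN : N ∈ nodes Lab P.I) {c : ℕ} (h : (S N).kind = Kind.fin c) :
    Real.exp (-eta c / 4) * mass m lab (up S N) ≤ 8 * mass m lab N := by
  have h1 := hs.renew N hN (by rw [h]; simp) Kind.inf (by simp) trivial (S N).ctr
  rw [h] at h1
  simp only [Par.al, Par.be, pr] at h1
  have h2 := ht N
  have h7 := mass_nonneg hm lab N
  have h9 := mul_nonneg h2 h7
  have hA := (C2s.A_pos P)
  set M := mass m lab N with hM
  set U := mass m lab (up S N) with hU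
  have hw := C2s.w_pos P N.length
  set E := Real.exp (-eta c / 4) with hE
  set p : ℝ := (1 / 2) ^ c with hp
  have hp0 : 0 < p := by positivity
  have h3 : P.w N.length * (p * (P.A * (E * U))) ≤ P.w N.length * (p * (P.A * (8 * M))) := by
    linarith
  exact le_of_mul_le_mul_left (le_of_mul_le_mul_left (le_of_mul_le_mul_left h3 hw) hp0) hA

theorem s5 {N : List Lab} (hN : N ∈ nodes Lab P.I) (h : (S N).kind = Kind.inf) :
    mass m lab N ≤ Real.exp (-eta P.cm / 4) * mass m lab (up S N) := by
  have h1 := hs.renew N hN (by rw [h]; simp) (Kind.fin P.cm) (by simp) (le_refl P.cm) (S N).ctr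
  rw [h, C2s.pr_fin] at h1
  simp only [Par.al, Par.be] at h1
  have h2 := ht N
  have h7 := mass_nonneg hm lab N
  have h8 := mass_nonneg hm lab (up S N)
  have h9 := mul_nonneg h2 h7
  have hA := (C2s.A_ge P)
  set M := mass m lab N with hM
  set U := mass m lab (up S N) with hU
  have hw := C2s.w_pos P N.length
  set E := Real.exp (-eta P.cm / 4) with hE
  set p : ℝ := (1 / 2) ^ P.cm with hp
  have hp0 : 0 < p := by positivity
  have h3 : P.w N.length * (p * ((P.A - 3 / 64) * M)) ≤ P.w N.length * (p * (P.A / 8 * E * U)) := by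
    linarith
  have h5 := le_of_mul_le_mul_left (le_of_mul_le_mul_left h3 hw) hp0
  have h6 : P.A / 8 * M ≤ (P.A - 3 / 64) * M := mul_le_mul_of_nonneg_right (by linarith) h7
  have h10 : P.A * M ≤ P.A * (E * U) := by linarith
  exact le_of_mul_le_mul_left h10 (C2s.A_pos P)

theorem s6 {N : List Lab} (hN : N ∈ nodes Lab P.I) (h : (S N).kind ≠ Kind.sp)
    (h0 : 0 < mass m lab N) : (S N).trav ≤ 3 / 64 * P.w N.length := by
  have h1 := hs.renew N hN h (S N).kind h (hk N hN) (S N).ctr
  have h2 := C2s.pr_le (S N).kind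
  have hw := C2s.w_pos P N.length
  have h3 : P.w N.length * pr (S N).kind * mass m lab N ≤
      P.w N.length * (3 / 64) * mass m lab N := by gcongr
  have h4 : (S N).trav * mass m lab N ≤ 3 / 64 * P.w N.length * mass m lab N := by linarith
  exact le_of_mul_le_mul_right h4 h0

theorem s7 {N : List Lab} (hN : N ∈ nodes Lab P.I) (h : (S N).kind ≠ Kind.sp)
    (h0 : 0 < mass m lab N) {x : Y} (hx : Mem lab x N) :
    dist x (S N).ctr ≤ (2 * P.CG + 1) * P.w N.length := by
  have h1 := hs.renew N hN h (S N).kind h (hk N hN) x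
  have h2 := C2s.pr_le (S N).kind
  have hw := C2s.w_pos P N.length
  have h3 : P.w N.length * pr (S N).kind * mass m lab N ≤
      P.w N.length * (3 / 64) * mass m lab N := by gcongr
  have h4 := fd_le hm hv (mem_nodes.1 hN).2 hx
  have h5 := mul_nonneg (ht N) h0.le
  have h6 : fd m lab N (S N).ctr ≤ (P.CG + 3 / 512) * P.w N.length * mass m lab N := by
    linarith
  -- a member with small distance
  have h7 : ∃ y, Mem lab y N ∧ dist y (S N).ctr ≤ (P.CG + 3 / 512) * P.w N.length := by
    by_contra hcon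
    push Not at hcon
    have h8 : (P.CG + 3 / 512) * P.w N.length * mass m lab N < fd m lab N (S N).ctr := by
      unfold fd mass
      rw [mul_sum]
      apply sum_lt_sum
      · intro y _
        by_cases hy : Mem lab y N
        · rw [if_pos hy, if_pos hy]
          have := mul_le_mul_of_nonneg_left (hcon y hy).le (hm y)
          linarith
        · rw [if_neg hy, if_neg hy, mul_zero]
      · have h9 : ∃ y, 0 < (if Mem lab y N then m y else 0) := by
          by_contra hc
          push Not at hc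
          unfold mass at h0
          have := sum_nonpos fun y (_ : y ∈ univ) => hc y
          linarith
        obtain ⟨y, hy⟩ := h9
        refine ⟨y, mem_univ y, ?_⟩
        by_cases hy' : Mem lab y N
        · rw [if_pos hy', if_pos hy']
          rw [if_pos hy'] at hy
          have := mul_lt_mul_of_pos_left (hcon y hy') hy
          linarith
        · rw [if_neg hy'] at hy
          exact absurd hy (lt_irrefl _)
    linarith
  obtain ⟨y, hy, hy2⟩ := h7
  have h10 : dist x y ≤ P.CG * P.w N.length :=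
    hv.dist_le x y N.length (mem_nodes.1 hN).2 (by rw [hx.eq, hy.eq])
  have h11 := dist_triangle x y (S N).ctr
  nlinarith

theorem s8 {U H : List Lab} (hU : U = [] ∨ (U ∈ nodes Lab P.I ∧ (S U).kind ≠ Kind.sp))
    (hH : U <:+ H) (h0 : 0 < mass m lab U) (h34 : 3 / 4 * mass m lab U ≤ mass m lab H) {D : ℝ}
    (hD : ∀ x y, Mem lab x H → Mem lab y H → dist x y ≤ D) {x : Y} (hx : Mem lab x H) :
    dist x (S U).ctr ≤ 8 * D := by
  have hD0 : 0 ≤ D := by
    have := hD x x hx hx
    rwa [dist_self] at this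
  have h1 : 8 * fd m lab U (S U).ctr ≤ 8 * fd m lab U x + dist (S U).ctr x * mass m lab U := by
    rcases hU with rfl | ⟨hU, hU'⟩
    · exact hs.root x
    · exact hs.move U hU hU' x
  rw [dist_comm (S U).ctr x] at h1
  set δ := dist x (S U).ctr with hδ
  have hδ0 : 0 ≤ δ := dist_nonneg
  -- lower bound
  have h2 : δ * (2 * mass m lab H - mass m lab U) - 2 * D * mass m lab H ≤
      fd m lab U (S U).ctr - fd m lab U x := by
    have e : δ * (2 * mass m lab H - mass m lab U) - 2 * D * mass m lab H =
        ∑ z, ((2 * δ - 2 * D) * (if Mem lab z H then m z else 0) -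
          δ * (if Mem lab z U then m z else 0)) := by
      rw [sum_sub_distrib, ← mul_sum, ← mul_sum]
      unfold mass
      ring
    have e2 : fd m lab U (S U).ctr - fd m lab U x = ∑ z, (if Mem lab z U then
        m z * (dist z (S U).ctr - dist z x) else 0) := by
      unfold fd
      rw [← sum_sub_distrib]
      apply sum_congr rfl
      intro z _
      split_ifs <;> ring
    rw [e, e2]
    apply sum_le_sum
    intro z _
    have hmz := hm z
    by_cases hz : Mem lab z H
    · have hzU : Mem lab z U := hz.anc hH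
      rw [if_pos hz, if_pos hzU, if_pos hzU]
      have h3 := hD z x hz hx
      have h4 : δ ≤ dist z x + dist z (S U).ctr := by
        have := dist_triangle x z (S U).ctr
        rw [dist_comm x z] at this
        linarith
      have h5 : δ - 2 * D ≤ dist z (S U).ctr - dist z x := by linarith
      have := mul_le_mul_of_nonneg_left h5 hmz
      linarith
    · rw [if_neg hz]
      by_cases hzU : Mem lab z U
      · rw [if_pos hzU, if_pos hzU]
        have h4 : dist z x ≤ dist z (S U).ctr + δ := by
          have := dist_triangle z (S U).ctr x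
          rw [dist_comm (S U).ctr x] at this
          linarith
        have h5 : -δ ≤ dist z (S U).ctr - dist z x := by linarith
        have := mul_le_mul_of_nonneg_left h5 hmz
        linarith
      · rw [if_neg hzU, if_neg hzU]
        simp
  have h3 : mass m lab H ≤ mass m lab U := mass_anc hm lab hH
  have h4 : δ * (1 / 2 * mass m lab U) ≤ δ * (2 * mass m lab H - mass m lab U) :=
    mul_le_mul_of_nonneg_left (by linarith) hδ0
  have h5 : 2 * D * mass m lab H ≤ 2 * D * mass m lab U :=
    mul_le_mul_of_nonneg_left h3 (by linarith)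
  have h6 : mass m lab U * δ ≤ mass m lab U * (8 * D) := by
    nlinarith
  exact le_of_mul_le_mul_left h6 h0

end

end Crest.Agent.R314.C
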