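import Mathlib
import Crest.Agent.R314.G1_A

/-!
R314, module G (one scale), part A2: basic API (helper435).
-/

set_option autoImplicit false
set_option linter.unusedSectionVars false

namespace Crest.Agent.R314.G1

open Finset

/-! ### scalar functions -/

theorem qf_nonneg (u : ℝ) : 0 ≤ qf u := le_min (sq_nonneg _) zero_le_one
theorem qf_le_one (u : ℝ) : qf u ≤ 1 := min_le_right _ _
theorem qf_le_sq (u : ℝ) : qf u ≤ (32 * u) ^ 2 := min_le_left _ _
theorem qf_eq_one {u : ℝ} (h : 1 / 32 ≤ u) : qf u = 1 := by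
  apply min_eq_right; nlinarith
theorem qf_eq_sq {u : ℝ} (h0 : 0 ≤ u) (h : u ≤ 1 / 32) : qf u = (32 * u) ^ 2 := by
  apply min_eq_left; nlinarith
theorem qf_mono {u v : ℝ} (h0 : 0 ≤ u) (h : u ≤ v) : qf u ≤ qf v := by
  apply min_le_min _ le_rfl; nlinarith
theorem qf_lip {u v : ℝ} (hu : 0 ≤ u) (hv : 0 ≤ v) : qf u ≤ qf v + 64 * |u - v| := by
  rcases le_total u v with h | h
  · have := qf_mono hu h
    have := abs_nonneg (u - v)
    linarith
  · rw [abs_of_nonneg (by linarith)]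
    rcases le_total (1 / 32) v with h1 | h1
    · rw [qf_eq_one h1, qf_eq_one (h1.trans h)]; linarith
    · rw [qf_eq_sq hv h1]
      rcases le_total (1 / 32) u with h2 | h2
      · rw [qf_eq_one h2]; nlinarith
      · rw [qf_eq_sq hu h2]; nlinarith

theorem rf_nonneg (u : ℝ) : 0 ≤ rf u := le_max_left _ _
theorem rf_le_one (u : ℝ) : rf u ≤ 1 := max_le zero_le_one (min_le_right _ _)
theorem rf_eq_zero {u : ℝ} (h : u ≤ 1 / 32) : rf u = 0 := by
  apply max_eq_left; exact (min_le_left _ _).trans (by linarith)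
theorem rf_eq_one {u : ℝ} (h : 1 / 16 ≤ u) : rf u = 1 := by
  unfold rf; rw [min_eq_right (by linarith)]; simp
theorem rf_mono {u v : ℝ} (h : u ≤ v) : rf u ≤ rf v := by
  apply max_le_max le_rfl (min_le_min _ le_rfl); linarith
theorem rf_lip (u v : ℝ) : rf u ≤ rf v + 32 * |u - v| := by
  have h0 := abs_nonneg (u - v)
  have h1 := le_abs_self (u - v)
  unfold rf
  apply max_le
  · have := le_max_left 0 (min (32 * v - 1) 1); linarith
  · rcases le_total (32 * v - 1) 1 with h | h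
    · have h2 := le_max_right 0 (min (32 * v - 1) 1)
      rw [min_eq_left h] at h2 ⊢
      have := min_le_left (32 * u - 1) 1
      linarith
    · have h2 := le_max_right 0 (min (32 * v - 1) 1)
      rw [min_eq_right h] at h2 ⊢
      have := min_le_right (32 * u - 1) 1
      linarith

theorem zf_nonneg (u : ℝ) : 0 ≤ zf u := sq_nonneg _
theorem zf_le_one (u : ℝ) : zf u ≤ 1 := by
  have := rf_nonneg u; have := rf_le_one u; unfold zf; nlinarith
theorem zf_eq_zero {u : ℝ} (h : u ≤ 1 / 32) : zf u = 0 := by unfold zf; rw [rf_eq_zero h]; norm_num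
theorem zf_eq_one {u : ℝ} (h : 1 / 16 ≤ u) : zf u = 1 := by unfold zf; rw [rf_eq_one h]; norm_num
theorem zf_mono {u v : ℝ} (h : u ≤ v) : zf u ≤ zf v := by
  have := rf_mono h; have := rf_nonneg u; unfold zf; nlinarith

theorem tf_nonneg (u : ℝ) : 0 ≤ tf u := le_max_left _ _
theorem tf_le_one (u : ℝ) : tf u ≤ 1 := max_le zero_le_one (min_le_right _ _)
theorem tf_eq_zero {u : ℝ} (h : u ≤ 1 / 8) : tf u = 0 := by
  apply max_eq_left; exact (min_le_left _ _).trans (by linarith)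
theorem tf_eq_one {u : ℝ} (h : 1 / 4 ≤ u) : tf u = 1 := by
  unfold tf; rw [min_eq_right (by linarith)]; simp
theorem tf_lip' (u v : ℝ) : tf u ≤ tf v + 8 * |u - v| := by
  have h0 := abs_nonneg (u - v)
  have h1 := le_abs_self (u - v)
  unfold tf
  apply max_le
  · have := le_max_left 0 (min (8 * v - 1) 1); linarith
  · rcases le_total (8 * v - 1) 1 with h | h
    · have h2 := le_max_right 0 (min (8 * v - 1) 1)
      rw [min_eq_left h] at h2 ⊢
      have := min_le_left (8 * u - 1) 1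
      linarith
    · have h2 := le_max_right 0 (min (8 * v - 1) 1)
      rw [min_eq_right h] at h2 ⊢
      have := min_le_right (8 * u - 1) 1
      linarith
theorem tf_lip (u v : ℝ) : |tf u - tf v| ≤ 8 * |u - v| := by
  rw [abs_le]
  have h1 := tf_lip' u v
  have h2 := tf_lip' v u
  rw [abs_sub_comm v u] at h2
  constructor <;> linarith
theorem tf_le_zf (u : ℝ) : tf u ≤ zf u := by
  rcases le_total u (1 / 8) with h | h
  · rw [tf_eq_zero h]; exact zf_nonneg u
  · rw [zf_eq_one (by linarith)]; exact tf_le_one u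

theorem cf_nonneg (u : ℝ) : 0 ≤ cf u := le_max_left _ _
theorem cf_le_one (u : ℝ) : cf u ≤ 1 := max_le zero_le_one (min_le_right _ _)
theorem cf_eq_one {u : ℝ} (h : u ≤ 3) : cf u = 1 := by
  unfold cf; rw [min_eq_right (by linarith)]; simp
theorem cf_eq_zero {u : ℝ} (h : 4 ≤ u) : cf u = 0 := by
  apply max_eq_left; exact (min_le_left _ _).trans (by linarith)
theorem cf_lip (u v : ℝ) : cf u ≤ cf v + |u - v| := by
  have h0 := abs_nonneg (u - v)
  have h1 := neg_abs_le (u - v)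
  unfold cf
  apply max_le
  · have := le_max_left 0 (min (4 - v) 1); linarith
  · rcases le_total (4 - v) 1 with h | h
    · have h2 := le_max_right 0 (min (4 - v) 1)
      rw [min_eq_left h] at h2 ⊢
      have := min_le_left (4 - u) 1
      linarith
    · have h2 := le_max_right 0 (min (4 - v) 1)
      rw [min_eq_right h] at h2 ⊢
      have := min_le_right (4 - u) 1
      linarith

variable {Y : Type*} [Fintype Y] [DecidableEq Y] (M : IM Y)

namespace IM

/-! ### the distance to the mains -/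

theorem u_le_hundred (P : Finset Y) (x : Y) : M.u P x ≤ 100 := by
  unfold u; rw [Finset.fold_min_le]; exact Or.inl le_rfl

theorem u_le {P : Finset Y} {p : Y} (hp : p ∈ P) (x : Y) : M.u P x ≤ M.d x p := by
  unfold u; rw [Finset.fold_min_le]; exact Or.inr ⟨p, hp, le_rfl⟩

theorem le_u {P : Finset Y} {x : Y} {c : ℝ} (h : c ≤ 100) (h' : ∀ p ∈ P, c ≤ M.d x p) :
    c ≤ M.u P x := by
  unfold u; rw [Finset.le_fold_min]; exact ⟨h, h'⟩

theorem u_nonneg (P : Finset Y) (x : Y) : 0 ≤ M.u P x :=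
  M.le_u (by norm_num) fun p _ => M.d_nonneg x p

theorem u_cases (P : Finset Y) (x : Y) : M.u P x = 100 ∨ ∃ p ∈ P, M.u P x = M.d x p := by
  have h : M.u P x ≤ M.u P x := le_rfl
  conv_lhs at h => unfold u
  rw [Finset.fold_min_le] at h
  rcases h with h | ⟨p, hp, h⟩
  · exact Or.inl (le_antisymm (M.u_le_hundred P x) h)
  · exact Or.inr ⟨p, hp, le_antisymm (M.u_le hp x) h⟩

theorem u_lip (P : Finset Y) (x y : Y) : M.u P x ≤ M.u P y + M.d x y := by
  rcases M.u_cases P y with h | ⟨p, hp, h⟩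
  · rw [h]; have := M.u_le_hundred P x; have := M.d_nonneg x y; linarith
  · rw [h]; have := M.u_le hp x; have := M.d_tri x y p; linarith

theorem abs_u_sub (P : Finset Y) (x y : Y) : |M.u P x - M.u P y| ≤ M.d x y := by
  rw [abs_le]
  have h1 := M.u_lip P x y
  have h2 := M.u_lip P y x
  rw [M.d_symm y x] at h2
  constructor <;> linarith

theorem u_near {P : Finset Y} (hP : ∀ p ∈ P, ∀ q ∈ P, p ≠ q → 40 ≤ M.d p q) {p x : Y} (hp : p ∈ P)
    (h : M.d x p ≤ 20) : M.u P x = M.d x p := by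
  apply le_antisymm (M.u_le hp x)
  apply M.le_u (by linarith)
  intro q hq
  by_cases hpq : p = q
  · rw [hpq]
  · have := hP p hp q hq hpq
    have h1 := M.d_tri p x q
    rw [M.d_symm p x] at h1
    linarith

variable {M} in
theorem _root_.Crest.Agent.R314.G1.Ok.sep40 {S : St Y} (h : Ok M S) :
    ∀ p ∈ S.P, ∀ q ∈ S.P, p ≠ q → 40 ≤ M.d p q := by
  intro p hp q hq hpq
  have := h.sep p hp q hq hpq
  have := h.β1 p
  have := h.β1 q
  linarith

/-! ### balls and weights -/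

theorem bm_nonneg {m : Y → ℝ} (hm : ∀ x, 0 ≤ m x) (x : Y) (r : ℝ) : 0 ≤ M.bm m x r :=
  sum_nonneg fun z _ => by split_ifs <;> [exact hm z; exact le_rfl]

theorem bm_mono {m : Y → ℝ} (hm : ∀ x, 0 ≤ m x) {x y : Y} {r s : ℝ} (h : M.d x y + r ≤ s) :
    M.bm m x r ≤ M.bm m y s := by
  unfold bm
  apply sum_le_sum
  intro z _
  by_cases h1 : M.d x z ≤ r
  · have h2 : M.d y z ≤ s := by
      have := M.d_tri y x z
      rw [M.d_symm y x] at this
      linarith
    rw [if_pos h1, if_pos h2]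
  · rw [if_neg h1]; split_ifs <;> [exact hm z; exact le_rfl]

theorem bm_mono_r {m : Y → ℝ} (hm : ∀ x, 0 ≤ m x) (x : Y) {r s : ℝ} (h : r ≤ s) :
    M.bm m x r ≤ M.bm m x s :=
  M.bm_mono hm (by rw [M.d_self]; linarith)

theorem bm_mono_m {m m' : Y → ℝ} (hm : ∀ x, m x ≤ m' x) (x : Y) (r : ℝ) :
    M.bm m x r ≤ M.bm m' x r :=
  sum_le_sum fun z _ => by split_ifs <;> [exact hm z; exact le_rfl]

theorem le_bm {m : Y → ℝ} (hm : ∀ x, 0 ≤ m x) {x z : Y} {r : ℝ} (h : M.d x z ≤ r) :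
    m z ≤ M.bm m x r := by
  unfold bm
  have := single_le_sum (f := fun z => if M.d x z ≤ r then m z else 0) (s := univ)
    (fun z _ => by split_ifs <;> [exact hm z; exact le_rfl]) (mem_univ z)
  simpa [h] using this

theorem bm_le_sum {m : Y → ℝ} (hm : ∀ x, 0 ≤ m x) (x : Y) (r : ℝ) : M.bm m x r ≤ ∑ z, m z :=
  sum_le_sum fun z _ => by split_ifs <;> [exact le_rfl; exact hm z]

theorem card_pos (x : Y) : (0 : ℝ) < Fintype.card Y := by
  have : 0 < Fintype.card Y := Fintype.card_pos_iff.2 ⟨x⟩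
  exact_mod_cast this

theorem fl_pos {w : Y → ℝ} (hw : ∀ x, 0 ≤ w x) (x : Y) : 0 < fl w x := by
  have := card_pos x
  have := hw x
  unfold fl; positivity

theorem fl_ge {w : Y → ℝ} (hw : ∀ x, 0 ≤ w x) (x : Y) : 1 / (Fintype.card Y : ℝ) ≤ fl w x := by
  have := hw x
  unfold fl; linarith

theorem W_ge {w : Y → ℝ} (hw : ∀ x, 0 ≤ w x) (x : Y) {r : ℝ} (hr : 0 ≤ r) :
    1 / (Fintype.card Y : ℝ) ≤ M.W w x r :=
  (fl_ge hw x).trans (M.le_bm (fun z => (fl_pos hw z).le) (by rw [M.d_self]; exact hr))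

theorem W_pos {w : Y → ℝ} (hw : ∀ x, 0 ≤ w x) (x : Y) {r : ℝ} (hr : 0 ≤ r) : 0 < M.W w x r :=
  lt_of_lt_of_le (by have := card_pos x; positivity) (M.W_ge hw x hr)

theorem W_eq (w : Y → ℝ) (x : Y) (r : ℝ) :
    M.W w x r = M.bm w x r + M.bm (fun _ => 1 / (Fintype.card Y : ℝ)) x r := by
  unfold W bm fl
  rw [← sum_add_distrib]
  apply sum_congr rfl
  intro z _
  split_ifs <;> simp

theorem W_le_two {w : Y → ℝ} (hw : ∀ x, 0 ≤ w x) (hp : ∀ y, M.bm w y 1 ≤ 1) (x : Y) {r : ℝ}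
    (hr : r ≤ 1) : M.W w x r ≤ 2 := by
  rw [W_eq]
  have h1 := (M.bm_mono_r hw x hr).trans (hp x)
  have h2 := M.bm_le_sum (m := fun _ => 1 / (Fintype.card Y : ℝ))
    (fun _ => by have := card_pos x; positivity) x r
  rw [sum_const, card_univ, nsmul_eq_mul, mul_one_div_cancel (card_pos x).ne'] at h2
  linarith

theorem rad_nonneg (i : ℕ) : 0 ≤ M.rad i := by
  have := M.Jr
  unfold rad; positivity

theorem rad_le_one {i : ℕ} (h : i ≤ M.J) : M.rad i ≤ 1 := by
  have := M.Jr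
  unfold rad
  have h1 : (i : ℝ) ≤ M.J := by exact_mod_cast h
  have h2 : (i : ℝ) / (2 * M.J) ≤ 1 / 2 := by
    rw [div_le_div_iff₀ (by positivity) (by norm_num)]; linarith
  linarith


theorem half_le_rad (i : ℕ) : 1 / 2 ≤ M.rad i := by
  have := M.Jr
  unfold rad
  have : 0 ≤ (i : ℝ) / (2 * M.J) := by positivity
  linarith

theorem W_mono {w : Y → ℝ} (hw : ∀ x, 0 ≤ w x) {x y : Y} {r s : ℝ} (h : M.d x y + r ≤ s) :
    M.W w x r ≤ M.W w y s := M.bm_mono (fun z => (fl_pos hw z).le) h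

theorem psi_nonneg {w : Y → ℝ} (hw : ∀ x, 0 ≤ w x) (hp : ∀ y, M.bm w y 1 ≤ 1) (x : Y) {i : ℕ}
    (hi : i ≤ M.J) : 0 ≤ M.psi w x i := by
  unfold psi
  apply Real.log_nonneg
  have h1 := M.W_pos hw x (M.rad_nonneg i)
  have h2 := M.W_le_two hw hp x (M.rad_le_one hi)
  rw [le_div_iff₀ h1]; linarith

theorem psi_le {w : Y → ℝ} (hw : ∀ x, 0 ≤ w x) (x : Y) (i : ℕ) :
    M.psi w x i ≤ Real.log (2 * Fintype.card Y) := by
  unfold psi
  have h1 := M.W_pos hw x (M.rad_nonneg i)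
  apply Real.log_le_log (by positivity)
  have h2 := M.W_ge hw x (M.rad_nonneg i)
  have h3 := card_pos x
  rw [div_le_iff₀ h1]
  rw [div_le_iff₀ h3] at h2
  nlinarith


/-! ### the average over the radius -/

theorem sum_odd (n : ℕ) : ∑ s ∈ range n, (2 * (s : ℝ) + 1) = (n : ℝ) ^ 2 := by
  induction n with
  | zero => simp
  | succ n ih => rw [sum_range_succ, ih]; push_cast; ring

theorem E_mono {f g : ℕ → ℝ} (h : ∀ s < M.J, f s ≤ g s) : M.E f ≤ M.E g := by
  unfold E
  have := M.Jr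
  gcongr with s hs
  exact h s (mem_range.1 hs)

theorem E_congr {f g : ℕ → ℝ} (h : ∀ s < M.J, f s = g s) : M.E f = M.E g :=
  le_antisymm (M.E_mono fun s hs => (h s hs).le) (M.E_mono fun s hs => (h s hs).ge)

theorem E_const (c : ℝ) : M.E (fun _ => c) = c := by
  unfold E
  have := M.Jr
  rw [← sum_mul, sum_odd]
  field_simp

theorem E_add (f g : ℕ → ℝ) : M.E (fun s => f s + g s) = M.E f + M.E g := by
  unfold E
  rw [← add_div, ← sum_add_distrib]
  congr 1
  exact sum_congr rfl fun s _ => by ring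

theorem E_sub (f g : ℕ → ℝ) : M.E (fun s => f s - g s) = M.E f - M.E g := by
  unfold E
  rw [← sub_div, ← sum_sub_distrib]
  congr 1
  exact sum_congr rfl fun s _ => by ring


theorem E_nonneg {f : ℕ → ℝ} (h : ∀ s < M.J, 0 ≤ f s) : 0 ≤ M.E f := by
  have := M.E_mono (f := fun _ => 0) (g := f) h
  rwa [E_const] at this

theorem E_sum {ι : Type*} (t : Finset ι) (f : ι → ℕ → ℝ) :
    M.E (fun s => ∑ i ∈ t, f i s) = ∑ i ∈ t, M.E (f i) := by
  classical
  induction t using Finset.induction_on with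
  | empty => simp [E]
  | insert a t ha ih => simp only [sum_insert ha]; rw [E_add, ih]


/-! ### the light label law -/

theorem lam1_nonneg {w : Y → ℝ} (hw : ∀ x, 0 ≤ w x) (x : Y) (j : ℕ) (z : Y) :
    0 ≤ M.lam1 w x j z := by
  unfold lam1
  split_ifs
  · exact div_nonneg (fl_pos hw z).le (M.W_pos hw x (M.rad_nonneg j)).le
  · exact le_rfl

theorem sum_lam1 {w : Y → ℝ} (hw : ∀ x, 0 ≤ w x) (x : Y) (j : ℕ) : ∑ z, M.lam1 w x j z = 1 := by
  have h := M.W_pos hw x (M.rad_nonneg j)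
  unfold lam1
  have : ∀ z, (if M.d x z ≤ M.rad j then fl w z / M.W w x (M.rad j) else 0) =
      (if M.d x z ≤ M.rad j then fl w z else 0) / M.W w x (M.rad j) := by
    intro z; split_ifs <;> simp
  simp only [this]
  rw [← sum_div]
  exact div_self h.ne'

theorem lam_nonneg {w : Y → ℝ} (hw : ∀ x, 0 ≤ w x) (x z : Y) : 0 ≤ M.lam w x z :=
  M.E_nonneg fun s _ => M.lam1_nonneg hw x s z

theorem sum_lam {w : Y → ℝ} (hw : ∀ x, 0 ≤ w x) (x : Y) : ∑ z, M.lam w x z = 1 := by
  unfold lam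
  rw [← E_sum]
  simp only [M.sum_lam1 hw]
  exact M.E_const 1

theorem lam_supp {w : Y → ℝ} {x z : Y} (h : M.lam w x z ≠ 0) : M.d x z ≤ 1 := by
  by_contra h1
  apply h
  unfold lam
  rw [M.E_congr (g := fun _ => 0), E_const]
  intro s hs
  unfold lam1
  rw [if_neg]
  intro h2
  exact h1 (h2.trans (M.rad_le_one hs.le))

/-! ### labels -/

theorem lab_nonneg {S : St Y} (hw : ∀ x, 0 ≤ S.w x) (x : Y) (o : Option Y) : 0 ≤ M.lab S x o := by
  cases o with
  | none => have := tf_le_one (M.u S.P x); simp only [lab]; linarith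
  | some z => exact mul_nonneg (tf_nonneg _) (M.lam_nonneg hw x z)

theorem sum_lab {S : St Y} (hw : ∀ x, 0 ≤ S.w x) (x : Y) : ∑ o, M.lab S x o = 1 := by
  rw [Fintype.sum_option]
  simp only [lab]
  rw [← mul_sum, M.sum_lam hw]
  ring

theorem nrm_nonneg (S : St Y) (x : Y) (S' : St Y) (x' : Y) : 0 ≤ M.nrm S x S' x' :=
  sum_nonneg fun _ _ => abs_nonneg _

theorem nrm_comm (S : St Y) (x : Y) (S' : St Y) (x' : Y) : M.nrm S x S' x' = M.nrm S' x' S x :=
  sum_congr rfl fun _ _ => abs_sub_comm _ _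

theorem nrm_tri (S S' S'' : St Y) (x x' x'' : Y) :
    M.nrm S x S'' x'' ≤ M.nrm S x S' x' + M.nrm S' x' S'' x'' := by
  unfold nrm
  rw [← sum_add_distrib]
  exact sum_le_sum fun _ _ => abs_sub_le _ _ _

theorem nrm_self (S : St Y) (x : Y) : M.nrm S x S x = 0 := by simp [nrm]

theorem nrm_le_two {S S' : St Y} (hw : ∀ x, 0 ≤ S.w x) (hw' : ∀ x, 0 ≤ S'.w x) (x x' : Y) :
    M.nrm S x S' x' ≤ 2 := by
  unfold nrm
  calc _ ≤ ∑ o, (M.lab S x o + M.lab S' x' o) := sum_le_sum fun o _ => by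
          have h1 := M.lab_nonneg hw x o
          have h2 := M.lab_nonneg hw' x' o
          rw [abs_le]; constructor <;> linarith
    _ = 2 := by rw [sum_add_distrib, M.sum_lab hw, M.sum_lab hw']; norm_num

/-- the light part of the distance -/
theorem nrm_le {S S' : St Y} (hw : ∀ x, 0 ≤ S.w x) (hw' : ∀ x, 0 ≤ S'.w x) (x x' : Y) :
    M.nrm S x S' x' ≤ 2 * |tf (M.u S.P x) - tf (M.u S'.P x')| +
      min (tf (M.u S.P x)) (tf (M.u S'.P x')) * ∑ z, |M.lam S.w x z - M.lam S'.w x' z| := by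
  unfold nrm
  rw [Fintype.sum_option]
  simp only [lab]
  set t := tf (M.u S.P x)
  set t' := tf (M.u S'.P x')
  have h0 : |(1 - t) - (1 - t')| = |t - t'| := by
    rw [← abs_neg]; congr 1; ring
  rw [h0]
  have h1 : ∀ z, |t * M.lam S.w x z - t' * M.lam S'.w x' z| ≤
      min t t' * |M.lam S.w x z - M.lam S'.w x' z| +
        |t - t'| * (if t ≤ t' then M.lam S'.w x' z else M.lam S.w x z) := by
    intro z
    have hz := M.lam_nonneg hw x z
    have hz' := M.lam_nonneg hw' x' z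
    split_ifs with h
    · rw [min_eq_left h]
      have : t * M.lam S.w x z - t' * M.lam S'.w x' z =
          t * (M.lam S.w x z - M.lam S'.w x' z) + (t - t') * M.lam S'.w x' z := by ring
      rw [this]
      refine (abs_add_le _ _).trans ?_
      rw [abs_mul, abs_mul, abs_of_nonneg (tf_nonneg _ : 0 ≤ t), abs_of_nonneg hz']
    · rw [min_eq_right (le_of_not_ge h)]
      have : t * M.lam S.w x z - t' * M.lam S'.w x' z =
          t' * (M.lam S.w x z - M.lam S'.w x' z) + (t - t') * M.lam S.w x z := by ring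
      rw [this]
      refine (abs_add_le _ _).trans ?_
      rw [abs_mul, abs_mul, abs_of_nonneg (tf_nonneg _ : 0 ≤ t'), abs_of_nonneg hz]
  have h2 : ∑ z, (if t ≤ t' then M.lam S'.w x' z else M.lam S.w x z) = 1 := by
    split_ifs
    · exact M.sum_lam hw' x'
    · exact M.sum_lam hw x
  calc _ ≤ |t - t'| + ∑ z, (min t t' * |M.lam S.w x z - M.lam S'.w x' z| +
        |t - t'| * (if t ≤ t' then M.lam S'.w x' z else M.lam S.w x z)) := by
          gcongr with z _; exact h1 z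
    _ = _ := by
          rw [sum_add_distrib, ← mul_sum, ← mul_sum, h2]; ring

theorem D_tri {m : Y → ℝ} (hm : ∀ x, 0 ≤ m x) (S S' S'' : St Y) :
    M.D m S S'' ≤ M.D m S S' + M.D m S' S'' := by
  unfold D
  rw [← sum_add_distrib]
  apply sum_le_sum
  intro x _
  rw [← mul_add]
  apply mul_le_mul_of_nonneg_left _ (hm x)
  have := M.nrm_tri S S' S'' x x x
  linarith

/-! ### bounds for the potential -/

theorem L_nonneg {w : Y → ℝ} (hw : ∀ x, 0 ≤ w x) (hp : ∀ y, M.bm w y 1 ≤ 1) (x : Y) :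
    0 ≤ M.L w x := by
  unfold L
  have := M.E_nonneg (f := M.psi w x) fun s hs => M.psi_nonneg hw hp x hs.le
  linarith

theorem L_le {w : Y → ℝ} (hw : ∀ x, 0 ≤ w x) (x : Y) :
    M.L w x ≤ 16 * Real.log (2 * Fintype.card Y) := by
  unfold L
  have := M.E_mono (f := M.psi w x) (g := fun _ => Real.log (2 * Fintype.card Y))
    fun s _ => M.psi_le hw x s
  rw [E_const] at this
  linarith

theorem bt_nonneg {S : St Y} (h : ∀ x, 0 ≤ S.β x) (x : Y) : 0 ≤ M.bt S x :=
  sum_nonneg fun p _ => mul_nonneg (h p) (cf_nonneg _)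

/-- far from all mains the timer term vanishes -/
theorem bt_eq_zero {S : St Y} {x : Y} (h : ∀ p ∈ S.P, 4 ≤ M.d x p) : M.bt S x = 0 :=
  sum_eq_zero fun p hp => by rw [cf_eq_zero (h p hp), mul_zero]

/-- near a main only this main counts -/
theorem bt_eq {S : St Y} (hP : ∀ p ∈ S.P, ∀ q ∈ S.P, p ≠ q → 40 ≤ M.d p q) {p x : Y}
    (hp : p ∈ S.P) (h : M.d x p ≤ 36) : M.bt S x = S.β p * cf (M.d x p) := by
  unfold bt
  rw [← add_sum_erase _ _ hp, sum_eq_zero, add_zero]
  intro q hq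
  have h1 := hP p hp q (mem_of_mem_erase hq) (ne_of_mem_erase hq).symm
  have h2 := M.d_tri p x q
  rw [M.d_symm p x] at h2
  rw [cf_eq_zero (by linarith), mul_zero]

theorem bt_le_one {S : St Y} (h : Ok M S) (x : Y) : M.bt S x ≤ 1 := by
  by_cases hx : ∃ p ∈ S.P, M.d x p < 4
  · obtain ⟨p, hp, hd⟩ := hx
    rw [M.bt_eq h.sep40 hp (by linarith)]
    have h1 := h.β0 p
    have h2 := h.β1 p
    have h3 := cf_nonneg (M.d x p)
    have h4 := cf_le_one (M.d x p)
    nlinarith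
  · push Not at hx
    rw [M.bt_eq_zero hx]; norm_num

theorem U_nonneg {S : St Y} (h : Ok M S) (x : Y) : 0 ≤ M.U S x := by
  unfold U
  have h1 := qf_nonneg (M.u S.P x)
  have h2 := M.bt_nonneg h.β0 x
  have h3 := mul_nonneg (zf_nonneg (M.u S.P x)) (M.L_nonneg h.w0 h.pack x)
  linarith

/-- crude bound, depends on `Y` -/
theorem U_le {S : St Y} (h : Ok M S) (x : Y) :
    M.U S x ≤ 110 + 16 * Real.log (2 * Fintype.card Y) := by
  unfold U
  have h1 := qf_le_one (M.u S.P x)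
  have h2 := M.bt_le_one h x
  have h3 := zf_nonneg (M.u S.P x)
  have h4 := zf_le_one (M.u S.P x)
  have h5 := M.L_nonneg h.w0 h.pack x
  have h6 := M.L_le h.w0 x
  nlinarith

end IM

end Crest.Agent.R314.G1
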