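import Mathlib
import Crest.Agent.R314.G1_A2

-- ▼ part R314/G1_B1
section

/-!
R314, module G (helper435's #8508), block G1_B: the weight operation, pointwise in the radius.

`Y` finite, `del` a distance function, `w0 ≥ 0` raw weights, `w = w0 + c` with a floor `c > 0`.
`opw` = multiply `w0` by `1 - a` on the ball of radius `2` about `x0`, then add `a` at `x0`.
-/

set_option autoImplicit false
set_option linter.unusedSectionVars false

namespace Crest.Agent.R314.G1B

open Finset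

variable {Y : Type*} [Fintype Y] [DecidableEq Y]

/-- weight of a set, with floor `c` -/
noncomputable def Ws (w0 : Y → ℝ) (c : ℝ) (B : Finset Y) : ℝ := ∑ z ∈ B, (w0 z + c)

/-- restricted and normalised weights -/
noncomputable def lts (w0 : Y → ℝ) (c : ℝ) (B : Finset Y) (z : Y) : ℝ :=
  if z ∈ B then (w0 z + c) / Ws w0 c B else 0

/-- L1 distance -/
noncomputable def l1 (p q : Y → ℝ) : ℝ := ∑ z, |p z - q z|

theorem Ws_eq (w0 : Y → ℝ) (c : ℝ) (B : Finset Y) : Ws w0 c B = ∑ z ∈ B, w0 z + B.card * c := by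
  unfold Ws
  rw [sum_add_distrib, sum_const, nsmul_eq_mul]

theorem Ws_pos {w0 : Y → ℝ} {c : ℝ} {B : Finset Y} (h0 : ∀ z, 0 ≤ w0 z) (hc : 0 < c)
    (hB : B.Nonempty) : 0 < Ws w0 c B := by
  unfold Ws
  exact sum_pos (fun z _ => by have := h0 z; linarith) hB

/-- L1 distance of two normalised restrictions to the same set -/
theorem l1_lts_le {w0 w1 : Y → ℝ} {c : ℝ} {B : Finset Y} (hc : 0 < c)
    (h0 : ∀ z, 0 ≤ w0 z) (h1 : ∀ z, 0 ≤ w1 z) (hB : B.Nonempty) :
    l1 (lts w0 c B) (lts w1 c B) ≤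
      (∑ z ∈ B, |w0 z - w1 z| + |Ws w0 c B - Ws w1 c B|) / Ws w1 c B := by
  have hW0 := Ws_pos h0 hc hB
  have hW1 := Ws_pos h1 hc hB
  have e1 : l1 (lts w0 c B) (lts w1 c B) =
      ∑ z ∈ B, |(w0 z + c) / Ws w0 c B - (w1 z + c) / Ws w1 c B| := by
    unfold l1 lts
    rw [← sum_filter_add_sum_filter_not univ (fun z => z ∈ B)]
    have h2 : ∑ x ∈ univ.filter (fun x => x ∉ B),
        |(if x ∈ B then (w0 x + c) / Ws w0 c B else 0) -
          (if x ∈ B then (w1 x + c) / Ws w1 c B else 0)| = 0 := by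
      apply sum_eq_zero
      intro z hz
      rw [mem_filter] at hz
      rw [if_neg hz.2, if_neg hz.2]; simp
    rw [h2, add_zero]
    have h3 : univ.filter (fun x => x ∈ B) = B := by ext z; simp
    rw [h3]
    exact sum_congr rfl fun z hz => by rw [if_pos hz, if_pos hz]
  rw [e1, le_div_iff₀ hW1, sum_mul]
  have h2 : ∀ z ∈ B, |(w0 z + c) / Ws w0 c B - (w1 z + c) / Ws w1 c B| * Ws w1 c B ≤
      |w0 z - w1 z| + (w0 z + c) / Ws w0 c B * |Ws w0 c B - Ws w1 c B| := by
    intro z _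
    have e2 : |(w0 z + c) / Ws w0 c B - (w1 z + c) / Ws w1 c B| * Ws w1 c B =
        |(w0 z - w1 z) - (w0 z + c) / Ws w0 c B * (Ws w0 c B - Ws w1 c B)| := by
      rw [← abs_of_pos hW1, ← abs_mul, abs_of_pos hW1]
      congr 1
      field_simp
      ring
    rw [e2]
    refine (abs_sub _ _).trans ?_
    rw [abs_mul ((w0 z + c) / Ws w0 c B), abs_of_nonneg (a := (w0 z + c) / Ws w0 c B)]
    exact div_nonneg (by have := h0 z; linarith) hW0.le
  refine (sum_le_sum h2).trans (le_of_eq ?_)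
  rw [sum_add_distrib, ← sum_mul, ← sum_div]
  congr 1
  have : ∑ z ∈ B, (w0 z + c) = Ws w0 c B := rfl
  rw [this, div_self hW0.ne', one_mul]

/-- scaled-and-raised weights on a set containing `x0` -/
theorem ops_in {w0 w1 : Y → ℝ} {c a : ℝ} {B : Finset Y} {x0 : Y} (hc : 0 < c)
    (h0 : ∀ z, 0 ≤ w0 z) (ha0 : 0 ≤ a) (ha1 : a ≤ 1 / 2) (hx : x0 ∈ B)
    (hw : ∀ z ∈ B, w1 z = (1 - a) * w0 z + (if z = x0 then a else 0))
    (h1 : ∀ z, 0 ≤ w1 z) (hp : ∑ z ∈ B, w0 z ≤ 1) :
    8 * Real.log (1 - a + a / Ws w0 c B) - 8 * a ≤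
      16 * (Real.log (Ws w1 c B) - Real.log (Ws w0 c B)) - l1 (lts w0 c B) (lts w1 c B) ∧
    - (8 * a) ≤
      16 * (Real.log (Ws w1 c B) - Real.log (Ws w0 c B)) - l1 (lts w0 c B) (lts w1 c B) := by
  have hB : B.Nonempty := ⟨x0, hx⟩
  have hW0 := Ws_pos h0 hc hB
  have hW1 := Ws_pos h1 hc hB
  set S := ∑ z ∈ B, w0 z with hS
  have hS0 : 0 ≤ S := sum_nonneg fun z _ => h0 z
  have e1 : Ws w1 c B = Ws w0 c B + a * (1 - S) := by
    rw [Ws_eq, Ws_eq, sum_congr rfl hw, sum_add_distrib, ← mul_sum, sum_ite_eq' B x0, if_pos hx]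
    ring
  have hSW : S ≤ Ws w0 c B := by
    rw [Ws_eq, ← hS]
    have : 0 ≤ (B.card : ℝ) * c := mul_nonneg (Nat.cast_nonneg _) hc.le
    linarith
  have hle : Ws w0 c B ≤ Ws w1 c B := by
    rw [e1]; have := mul_nonneg ha0 (sub_nonneg.2 hp); linarith
  have hl1 : l1 (lts w0 c B) (lts w1 c B) ≤ 2 * a / Ws w1 c B := by
    refine (l1_lts_le hc h0 h1 hB).trans ?_
    apply div_le_div_of_nonneg_right _ hW1.le
    have h2 : ∑ z ∈ B, |w0 z - w1 z| ≤ a * S + a := by
      have h3 : ∀ z ∈ B, |w0 z - w1 z| ≤ a * w0 z + (if z = x0 then a else 0) := by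
        intro z hz
        rw [hw z hz]
        have := h0 z
        have h4 : 0 ≤ a * w0 z := mul_nonneg ha0 this
        split_ifs
        · rw [abs_le]; constructor <;> linarith
        · rw [abs_le]; constructor <;> linarith
      refine (sum_le_sum h3).trans (le_of_eq ?_)
      rw [sum_add_distrib, ← mul_sum, sum_ite_eq' B x0, if_pos hx]
    have h3 : |Ws w0 c B - Ws w1 c B| = a * (1 - S) := by
      rw [e1]
      have := mul_nonneg ha0 (sub_nonneg.2 hp)
      rw [show Ws w0 c B - (Ws w0 c B + a * (1 - S)) = -(a * (1 - S)) by ring, abs_neg,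
        abs_of_nonneg this]
    rw [h3]; nlinarith
  have hlog1 : Real.log (1 - a + a / Ws w0 c B) ≤
      Real.log (Ws w1 c B) - Real.log (Ws w0 c B) := by
    rw [← Real.log_div hW1.ne' hW0.ne']
    apply Real.log_le_log
    · have : 0 ≤ a / Ws w0 c B := div_nonneg ha0 hW0.le
      linarith
    · rw [e1, le_div_iff₀ hW0, add_mul, div_mul_cancel₀ _ hW0.ne']
      nlinarith
  have hlog2 : a * (1 - S) / Ws w1 c B ≤ Real.log (Ws w1 c B) - Real.log (Ws w0 c B) := by
    rw [← Real.log_div hW1.ne' hW0.ne']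
    have h2 := Real.one_sub_inv_le_log_of_pos (div_pos hW1 hW0)
    refine le_trans (le_of_eq ?_) h2
    rw [inv_div]
    field_simp
    rw [e1]; ring
  have hlog3 : 0 ≤ Real.log (Ws w1 c B) - Real.log (Ws w0 c B) := by
    have := Real.log_le_log hW0 hle
    linarith
  have hkey : l1 (lts w0 c B) (lts w1 c B) ≤
      8 * (Real.log (Ws w1 c B) - Real.log (Ws w0 c B)) + 8 * a := by
    by_cases hs : S ≤ 3 / 4
    · have h2 : 2 * a / Ws w1 c B ≤ 8 * (a * (1 - S) / Ws w1 c B) := by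
        rw [← mul_div_assoc]
        apply div_le_div_of_nonneg_right _ hW1.le
        nlinarith
      linarith
    · rw [not_le] at hs
      have h3 : 2 * a / Ws w1 c B ≤ 8 * a := by
        rw [div_le_iff₀ hW1]
        have : 3 / 4 ≤ Ws w1 c B := by linarith
        nlinarith
      linarith
  constructor <;> linarith

/-- weights scaled down by at most `1 - a` on a set -/
theorem ops_out {w0 w1 : Y → ℝ} {c a : ℝ} {B : Finset Y} (hc : 0 < c)
    (h0 : ∀ z, 0 ≤ w0 z) (ha0 : 0 ≤ a) (ha1 : a ≤ 1 / 2) (hB : B.Nonempty)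
    (hw1 : ∀ z ∈ B, (1 - a) * w0 z ≤ w1 z) (hw2 : ∀ z ∈ B, w1 z ≤ w0 z)
    (h1 : ∀ z, 0 ≤ w1 z) :
    - (34 * a) ≤
      16 * (Real.log (Ws w1 c B) - Real.log (Ws w0 c B)) - l1 (lts w0 c B) (lts w1 c B) := by
  have hW0 := Ws_pos h0 hc hB
  have hW1 := Ws_pos h1 hc hB
  set S := ∑ z ∈ B, w0 z with hS
  have hS0 : 0 ≤ S := sum_nonneg fun z _ => h0 z
  have hcc : 0 ≤ (B.card : ℝ) * c := mul_nonneg (Nat.cast_nonneg _) hc.le
  have hSW : S ≤ Ws w0 c B := by
    rw [Ws_eq, ← hS]; linarith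
  have e1 : (1 - a) * Ws w0 c B ≤ Ws w1 c B := by
    rw [Ws_eq, Ws_eq]
    have h2 : (1 - a) * ∑ z ∈ B, w0 z ≤ ∑ z ∈ B, w1 z := by
      rw [mul_sum]; exact sum_le_sum hw1
    nlinarith
  have e2 : Ws w1 c B ≤ Ws w0 c B := by
    rw [Ws_eq, Ws_eq]
    have := sum_le_sum hw2
    linarith
  have hl1 : l1 (lts w0 c B) (lts w1 c B) ≤ 4 * a := by
    refine (l1_lts_le hc h0 h1 hB).trans ?_
    rw [div_le_iff₀ hW1]
    have h2 : ∑ z ∈ B, |w0 z - w1 z| ≤ a * S := by
      rw [hS, mul_sum]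
      apply sum_le_sum
      intro z hz
      have := hw1 z hz
      have := hw2 z hz
      rw [abs_of_nonneg (by linarith)]
      nlinarith
    have h3 : |Ws w0 c B - Ws w1 c B| ≤ a * Ws w0 c B := by
      rw [abs_of_nonneg (by linarith)]; nlinarith
    have h4 : Ws w0 c B ≤ 2 * Ws w1 c B := by nlinarith
    have h5 : a * S ≤ a * Ws w0 c B := mul_le_mul_of_nonneg_left hSW ha0
    have h6 : a * Ws w0 c B ≤ a * (2 * Ws w1 c B) := mul_le_mul_of_nonneg_left h4 ha0
    linarith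
  have hlog : -(3 / 2 * a) ≤ Real.log (Ws w1 c B) - Real.log (Ws w0 c B) := by
    rw [← Real.log_div hW1.ne' hW0.ne']
    have h2 : 1 - a ≤ Ws w1 c B / Ws w0 c B := by
      rw [le_div_iff₀ hW0]; exact e1
    have h3 : Real.log (1 - a) ≤ Real.log (Ws w1 c B / Ws w0 c B) :=
      Real.log_le_log (by linarith) h2
    -- log (1 - a) ≥ - 3/2 a on [0, 1/2]
    have h4 : -(3 / 2 * a) ≤ Real.log (1 - a) := by
      have h5 : Real.exp (-(3 / 2 * a)) ≤ 1 - a := by
        have hconv := convexOn_exp.2 (Set.mem_univ (0 : ℝ)) (Set.mem_univ (-(3 / 4) : ℝ))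
          (show (0 : ℝ) ≤ 1 - 2 * a by linarith) (show (0 : ℝ) ≤ 2 * a by linarith) (by ring)
        simp only [smul_eq_mul, mul_zero, zero_add, Real.exp_zero, mul_one] at hconv
        rw [show 2 * a * -(3 / 4) = -(3 / 2 * a) by ring] at hconv
        have h6 : Real.exp (-(3 / 4)) ≤ 1 / 2 := by
          rw [Real.exp_neg, inv_eq_one_div]
          apply one_div_le_one_div_of_le (by norm_num)
          have := Real.sum_le_exp_of_nonneg (show (0 : ℝ) ≤ 3 / 4 by norm_num) 4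
          simp [Finset.sum_range_succ, Nat.factorial] at this
          norm_num at this
          linarith
        nlinarith
      have h7 := Real.log_le_log (Real.exp_pos _) h5
      rwa [Real.log_exp] at h7
    linarith
  linarith

end Crest.Agent.R314.G1B
end

-- ▼ part R314/G1_B2
section

/-!
R314, module G (helper435's #8508), block G1_B: KKT inequality (2) and its consequences L1, L2 (3).
The radius law is any finite law on `[1/2, 1]`.
-/

set_option autoImplicit false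
set_option linter.unusedSectionVars false

namespace Crest.Agent.R314.G1B

open Finset

variable {Y : Type*} [Fintype Y] [DecidableEq Y]

/-- `del` is a (pseudo)distance. -/
structure IsDist (del : Y → Y → ℝ) : Prop where
  self : ∀ x, del x x = 0
  symm : ∀ x y, del x y = del y x
  tri : ∀ x y z, del x z ≤ del x y + del y z

/-- closed ball -/
noncomputable def bl (del : Y → Y → ℝ) (x : Y) (ρ : ℝ) : Finset Y :=
  univ.filter fun z => del x z ≤ ρ

theorem mem_bl {del : Y → Y → ℝ} {x z : Y} {ρ : ℝ} : z ∈ bl del x ρ ↔ del x z ≤ ρ := by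
  simp [bl]

theorem self_mem_bl {del : Y → Y → ℝ} (hd : IsDist del) {x : Y} {ρ : ℝ} (h : 0 ≤ ρ) :
    x ∈ bl del x ρ := by rw [mem_bl, hd.self]; exact h

/-- a finite radius law on `[1/2, 1]` -/
structure RLaw (ι : Type*) [Fintype ι] where
  q : ι → ℝ
  ρ : ι → ℝ
  q_nonneg : ∀ i, 0 ≤ q i
  q_sum : ∑ i, q i = 1
  ρ_lo : ∀ i, 1 / 2 ≤ ρ i
  ρ_hi : ∀ i, ρ i ≤ 1

variable {ι : Type*} [Fintype ι]

/-- `W_x(ρ)` -/
noncomputable def W (del : Y → Y → ℝ) (w0 : Y → ℝ) (c : ℝ) (x : Y) (ρ : ℝ) : ℝ :=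
  Ws w0 c (bl del x ρ)

/-- `L(x) = 16 E_ρ ln (2 / W_x(ρ))` -/
noncomputable def L (law : RLaw ι) (del : Y → Y → ℝ) (w0 : Y → ℝ) (c : ℝ) (x : Y) : ℝ :=
  16 * ∑ i, law.q i * Real.log (2 / W del w0 c x (law.ρ i))

/-- the light label vector -/
noncomputable def light (law : RLaw ι) (del : Y → Y → ℝ) (w0 : Y → ℝ) (c : ℝ) (x z : Y) : ℝ :=
  ∑ i, law.q i * lts w0 c (bl del x (law.ρ i)) z

/-- the operation on the raw weights -/
noncomputable def opw (del : Y → Y → ℝ) (w0 : Y → ℝ) (x0 : Y) (a : ℝ) (z : Y) : ℝ :=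
  (if del x0 z ≤ 2 then (1 - a) * w0 z else w0 z) + (if z = x0 then a else 0)

variable {del : Y → Y → ℝ} {w0 : Y → ℝ} {c a : ℝ} {x0 : Y}

theorem opw_nonneg (h0 : ∀ z, 0 ≤ w0 z) (ha0 : 0 ≤ a) (ha1 : a ≤ 1) (z : Y) :
    0 ≤ opw del w0 x0 a z := by
  unfold opw
  have h1 : 0 ≤ (1 - a) * w0 z := mul_nonneg (by linarith) (h0 z)
  have h2 := h0 z
  split_ifs <;> linarith

/-- packing is preserved -/
theorem opw_pack (hd : IsDist del) (h0 : ∀ z, 0 ≤ w0 z) (ha0 : 0 ≤ a) (ha1 : a ≤ 1)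
    (hp : ∀ y, ∑ z ∈ bl del y 1, w0 z ≤ 1) (y : Y) :
    ∑ z ∈ bl del y 1, opw del w0 x0 a z ≤ 1 := by
  by_cases h : del y x0 ≤ 1
  · have h1 : ∀ z ∈ bl del y 1, opw del w0 x0 a z = (1 - a) * w0 z + (if z = x0 then a else 0) := by
      intro z hz
      rw [mem_bl] at hz
      have h2 := hd.tri x0 y z
      rw [hd.symm x0 y] at h2
      unfold opw
      rw [if_pos (by linarith)]
    rw [sum_congr rfl h1, sum_add_distrib, ← mul_sum, sum_ite_eq' _ x0,
      if_pos (mem_bl.2 h)]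
    have := hp y
    nlinarith
  · have h1 : ∀ z ∈ bl del y 1, opw del w0 x0 a z ≤ w0 z := by
      intro z hz
      have hne : z ≠ x0 := fun h2 => h (by rw [← h2]; exact mem_bl.1 hz)
      unfold opw
      rw [if_neg hne, add_zero]
      split_ifs
      · have := h0 z; nlinarith
      · exact le_rfl
    exact (sum_le_sum h1).trans (hp y)

theorem W_pos (hd : IsDist del) (h0 : ∀ z, 0 ≤ w0 z) (hc : 0 < c) {x : Y} {ρ : ℝ} (hρ : 0 ≤ ρ) :
    0 < W del w0 c x ρ := Ws_pos h0 hc ⟨x, self_mem_bl hd hρ⟩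

theorem sum_bl_le (h0 : ∀ z, 0 ≤ w0 z) (hp : ∀ y, ∑ z ∈ bl del y 1, w0 z ≤ 1) {x : Y} {ρ : ℝ}
    (hρ : ρ ≤ 1) : ∑ z ∈ bl del x ρ, w0 z ≤ 1 := by
  refine le_trans (sum_le_sum_of_subset_of_nonneg ?_ fun z _ _ => h0 z) (hp x)
  intro z hz
  rw [mem_bl] at *; linarith

theorem W_le_two (h0 : ∀ z, 0 ≤ w0 z) (hp : ∀ y, ∑ z ∈ bl del y 1, w0 z ≤ 1)
    (hc0 : 0 ≤ c) (hc : (Fintype.card Y : ℝ) * c ≤ 1) {x : Y} {ρ : ℝ} (hρ : ρ ≤ 1) :
    W del w0 c x ρ ≤ 2 := by
  unfold W
  rw [Ws_eq]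
  have h1 := sum_bl_le h0 hp (x := x) hρ
  have h2 : ((bl del x ρ).card : ℝ) ≤ Fintype.card Y := by exact_mod_cast card_le_univ _
  have h3 := mul_le_mul_of_nonneg_right h2 hc0
  linarith

theorem W_mono (h0 : ∀ z, 0 ≤ w0 z) (hc : 0 ≤ c) {x : Y} {ρ ρ' : ℝ} (h : ρ ≤ ρ') :
    W del w0 c x ρ ≤ W del w0 c x ρ' := by
  unfold W Ws
  apply sum_le_sum_of_subset_of_nonneg
  · intro z hz; rw [mem_bl] at *; linarith
  · intro z _ _; have := h0 z; linarith

theorem W_le (hd : IsDist del) (h0 : ∀ z, 0 ≤ w0 z) (hc : 0 ≤ c) {x y : Y} {ρ ρ' : ℝ}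
    (h : ρ + del x y ≤ ρ') : W del w0 c x ρ ≤ W del w0 c y ρ' := by
  unfold W Ws
  apply sum_le_sum_of_subset_of_nonneg
  · intro z hz
    rw [mem_bl] at *
    have := hd.tri y x z
    rw [hd.symm y x] at this
    linarith
  · intro z _ _; have := h0 z; linarith

/-- price of one radius -/
noncomputable def gain (del : Y → Y → ℝ) (w0 : Y → ℝ) (c : ℝ) (x0 : Y) (a : ℝ) (x : Y) (ρ : ℝ) :
    ℝ :=
  16 * (Real.log (W del (opw del w0 x0 a) c x ρ) - Real.log (W del w0 c x ρ)) -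
    l1 (lts w0 c (bl del x ρ)) (lts (opw del w0 x0 a) c (bl del x ρ))

theorem gain_in (hd : IsDist del) (hc : 0 < c) (h0 : ∀ z, 0 ≤ w0 z) (ha0 : 0 ≤ a)
    (ha1 : a ≤ 1 / 2) (hp : ∀ y, ∑ z ∈ bl del y 1, w0 z ≤ 1) {x : Y} {ρ : ℝ} (hρ : ρ ≤ 1)
    (hx : del x x0 ≤ ρ) :
    8 * Real.log (1 - a + a / W del w0 c x ρ) - 8 * a ≤ gain del w0 c x0 a x ρ ∧
    - (8 * a) ≤ gain del w0 c x0 a x ρ := by
  have hx0 : x0 ∈ bl del x ρ := mem_bl.2 hx
  refine ops_in hc h0 ha0 ha1 hx0 ?_ (opw_nonneg h0 ha0 (by linarith)) (sum_bl_le h0 hp hρ)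
  intro z hz
  rw [mem_bl] at hz
  have h2 := hd.tri x0 x z
  rw [hd.symm x0 x] at h2
  unfold opw
  rw [if_pos (by linarith)]

theorem gain_out (hd : IsDist del) (hc : 0 < c) (h0 : ∀ z, 0 ≤ w0 z) (ha0 : 0 ≤ a)
    (ha1 : a ≤ 1 / 2) {x : Y} {ρ : ℝ} (hρ0 : 0 ≤ ρ) (hx : ¬ del x x0 ≤ ρ) :
    - (34 * a) ≤ gain del w0 c x0 a x ρ := by
  have hne : ∀ z ∈ bl del x ρ, z ≠ x0 := fun z hz h2 => hx (by rw [← h2]; exact mem_bl.1 hz)
  refine ops_out hc h0 ha0 ha1 ⟨x, self_mem_bl hd hρ0⟩ ?_ ?_ (opw_nonneg h0 ha0 (by linarith))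
  · intro z hz
    unfold opw
    rw [if_neg (hne z hz), add_zero]
    split_ifs
    · exact le_rfl
    · have := h0 z; nlinarith
  · intro z hz
    unfold opw
    rw [if_neg (hne z hz), add_zero]
    split_ifs
    · have := h0 z; nlinarith
    · exact le_rfl

theorem gain_far (hd : IsDist del) {x : Y} {ρ : ℝ} (hρ : ρ ≤ 1) (hx : 3 < del x0 x) :
    gain del w0 c x0 a x ρ = 0 := by
  have h1 : ∀ z ∈ bl del x ρ, opw del w0 x0 a z = w0 z := by
    intro z hz
    rw [mem_bl] at hz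
    have h2 := hd.tri x0 z x
    rw [hd.symm z x] at h2
    unfold opw
    have hne : z ≠ x0 := by
      intro h3; rw [h3, hd.self] at h2; rw [h3] at hz; linarith
    rw [if_neg (by linarith), if_neg hne, add_zero]
  have hW : W del (opw del w0 x0 a) c x ρ = W del w0 c x ρ := by
    unfold W Ws
    exact sum_congr rfl fun z hz => by rw [h1 z hz]
  have hl : lts (opw del w0 x0 a) c (bl del x ρ) = lts w0 c (bl del x ρ) := by
    funext z
    unfold lts
    by_cases hz : z ∈ bl del x ρ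
    · rw [if_pos hz, if_pos hz, h1 z hz]
      unfold W at hW
      rw [hW]
    · rw [if_neg hz, if_neg hz]
  unfold gain
  rw [hW, hl]
  unfold l1
  simp

/-- potential change plus price, averaged over the radius -/
theorem L_sub_le (law : RLaw ι) (hd : IsDist del) (hc : 0 < c) (h0 : ∀ z, 0 ≤ w0 z)
    (ha0 : 0 ≤ a) (ha1 : a ≤ 1 / 2) (x : Y) :
    L law del (opw del w0 x0 a) c x - L law del w0 c x +
      l1 (light law del w0 c x) (light law del (opw del w0 x0 a) c x) ≤
      - ∑ i, law.q i * gain del w0 c x0 a x (law.ρ i) := by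
  have h1 : ∀ z, 0 ≤ opw del w0 x0 a z := opw_nonneg h0 ha0 (by linarith)
  have e1 : L law del (opw del w0 x0 a) c x - L law del w0 c x =
      - ∑ i, law.q i * (16 * (Real.log (W del (opw del w0 x0 a) c x (law.ρ i)) -
        Real.log (W del w0 c x (law.ρ i)))) := by
    unfold L
    rw [← mul_sub, ← sum_sub_distrib, mul_sum, ← sum_neg_distrib]
    apply sum_congr rfl
    intro i _
    have hp1 := W_pos hd h0 hc (x := x) (ρ := law.ρ i) (by have := law.ρ_lo i; linarith)
    have hp2 := W_pos hd h1 hc (x := x) (ρ := law.ρ i) (by have := law.ρ_lo i; linarith)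
    rw [Real.log_div (by norm_num) hp1.ne', Real.log_div (by norm_num) hp2.ne']
    ring
  have e2 : l1 (light law del w0 c x) (light law del (opw del w0 x0 a) c x) ≤
      ∑ i, law.q i * l1 (lts w0 c (bl del x (law.ρ i)))
        (lts (opw del w0 x0 a) c (bl del x (law.ρ i))) := by
    unfold l1 light
    simp_rw [mul_sum]
    rw [sum_comm]
    apply sum_le_sum
    intro z _
    rw [← sum_sub_distrib]
    refine (abs_sum_le_sum_abs _ _).trans (sum_le_sum fun i _ => ?_)
    rw [← mul_sub, abs_mul, abs_of_nonneg (law.q_nonneg i)]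
  rw [e1]
  have e3 : ∑ i, law.q i * gain del w0 c x0 a x (law.ρ i) =
      ∑ i, law.q i * (16 * (Real.log (W del (opw del w0 x0 a) c x (law.ρ i)) -
        Real.log (W del w0 c x (law.ρ i)))) -
      ∑ i, law.q i * l1 (lts w0 c (bl del x (law.ρ i)))
        (lts (opw del w0 x0 a) c (bl del x (law.ρ i))) := by
    rw [← sum_sub_distrib]
    apply sum_congr rfl
    intro i _
    unfold gain
    ring
  rw [e3]
  linarith

/-- mass of a set -/
noncomputable def ms (ν : Y → ℝ) (B : Finset Y) : ℝ := ∑ z ∈ B, ν z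

/-- **(KKT)** if the operation `opw x0 a` does not pay for itself. -/
theorem kkt (law : RLaw ι) (hd : IsDist del) (hc : 0 < c) (h0 : ∀ z, 0 ≤ w0 z)
    (ha0 : 0 ≤ a) (ha1 : a ≤ 1 / 2) (hp : ∀ y, ∑ z ∈ bl del y 1, w0 z ≤ 1)
    {ν : Y → ℝ} (hν : ∀ z, 0 ≤ ν z)
    (hst : 0 ≤ ∑ x, ν x * (L law del (opw del w0 x0 a) c x - L law del w0 c x +
      l1 (light law del w0 c x) (light law del (opw del w0 x0 a) c x))) :
    8 * ∑ x ∈ bl del x0 (1 / 2), ν x *
      ∑ i, law.q i * Real.log (1 - a + a / W del w0 c x (law.ρ i)) ≤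
      34 * a * ms ν (bl del x0 3) := by
  have h1 : ∀ x, ν x * (L law del (opw del w0 x0 a) c x - L law del w0 c x +
      l1 (light law del w0 c x) (light law del (opw del w0 x0 a) c x)) ≤
      (if x ∈ bl del x0 3 then 34 * a * ν x else 0) -
      (if x ∈ bl del x0 (1 / 2) then 8 * (ν x *
        ∑ i, law.q i * Real.log (1 - a + a / W del w0 c x (law.ρ i))) else 0) := by
    intro x
    have h2 := mul_le_mul_of_nonneg_left
      (L_sub_le law hd hc h0 ha0 ha1 x (del := del) (x0 := x0)) (hν x)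
    refine h2.trans ?_
    by_cases hx3 : x ∈ bl del x0 3
    · rw [if_pos hx3]
      by_cases hx1 : x ∈ bl del x0 (1 / 2)
      · rw [if_pos hx1]
        rw [mem_bl, hd.symm] at hx1
        have h3 : 8 * ∑ i, law.q i * Real.log (1 - a + a / W del w0 c x (law.ρ i)) - 8 * a ≤
            ∑ i, law.q i * gain del w0 c x0 a x (law.ρ i) := by
          have h4 : ∑ i, law.q i * (8 * Real.log (1 - a + a / W del w0 c x (law.ρ i)) - 8 * a) ≤
              ∑ i, law.q i * gain del w0 c x0 a x (law.ρ i) := by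
            apply sum_le_sum
            intro i _
            exact mul_le_mul_of_nonneg_left
              (gain_in hd hc h0 ha0 ha1 hp (law.ρ_hi i) (hx1.trans (law.ρ_lo i))).1
              (law.q_nonneg i)
          have h5 : ∑ i, law.q i * (8 * Real.log (1 - a + a / W del w0 c x (law.ρ i)) - 8 * a) =
              8 * ∑ i, law.q i * Real.log (1 - a + a / W del w0 c x (law.ρ i)) - 8 * a := by
            simp_rw [mul_sub]
            rw [sum_sub_distrib, ← sum_mul, law.q_sum, mul_sum]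
            congr 1
            · exact sum_congr rfl fun i _ => by ring
            · ring
          linarith
        have h6 : 0 ≤ ν x * a := mul_nonneg (hν x) ha0
        have h7 := mul_le_mul_of_nonneg_left h3 (hν x)
        nlinarith
      · rw [if_neg hx1]
        have h3 : - (34 * a) ≤ ∑ i, law.q i * gain del w0 c x0 a x (law.ρ i) := by
          have h4 : ∑ i, law.q i * (-(34 * a)) ≤
              ∑ i, law.q i * gain del w0 c x0 a x (law.ρ i) := by
            apply sum_le_sum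
            intro i _
            apply mul_le_mul_of_nonneg_left _ (law.q_nonneg i)
            by_cases h5 : del x x0 ≤ law.ρ i
            · have := (gain_in hd hc h0 ha0 ha1 hp (law.ρ_hi i) h5).2
              linarith
            · exact gain_out hd hc h0 ha0 ha1 (by have := law.ρ_lo i; linarith) h5
          rw [← sum_mul, law.q_sum, one_mul] at h4
          exact h4
        have h7 := mul_le_mul_of_nonneg_left h3 (hν x)
        nlinarith
    · have hx1 : x ∉ bl del x0 (1 / 2) := by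
        rw [mem_bl] at *; intro h; exact hx3 (by linarith)
      rw [if_neg hx3, if_neg hx1]
      rw [mem_bl, not_le] at hx3
      have h3 : ∑ i, law.q i * gain del w0 c x0 a x (law.ρ i) = 0 := by
        apply sum_eq_zero
        intro i _
        rw [gain_far hd (law.ρ_hi i) hx3, mul_zero]
      rw [h3]; simp
  have h2 := hst.trans (sum_le_sum fun x _ => h1 x)
  rw [sum_sub_distrib, ← sum_filter, ← sum_filter] at h2
  have e1 : univ.filter (fun x => x ∈ bl del x0 3) = bl del x0 3 := by ext; simp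
  have e2 : univ.filter (fun x => x ∈ bl del x0 (1 / 2)) = bl del x0 (1 / 2) := by ext; simp
  rw [e1, e2, ← mul_sum, ← mul_sum] at h2
  unfold ms
  linarith

/-- every term of the KKT sum is at least `- (2/3) a` -/
theorem log_ge (ha0 : 0 ≤ a) (ha1 : a ≤ 1 / 2) {V : ℝ} (hV : 0 < V) (hV2 : V ≤ 2) :
    - (2 / 3 * a) ≤ Real.log (1 - a + a / V) := by
  have h1 : a / 2 ≤ a / V := by
    apply div_le_div_of_nonneg_left ha0 hV hV2
  have h2 : Real.log (1 - a / 2) ≤ Real.log (1 - a + a / V) := by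
    apply Real.log_le_log <;> linarith
  have h3 := Real.one_sub_inv_le_log_of_pos (show 0 < 1 - a / 2 by linarith)
  have h4 : -(2 / 3 * a) ≤ 1 - (1 - a / 2)⁻¹ := by
    have h5 : (1 - a / 2)⁻¹ ≤ 1 + 2 / 3 * a := by
      rw [inv_le_comm₀ (by linarith) (by linarith), inv_eq_one_div, div_le_iff₀ (by linarith)]
      nlinarith
    linarith
  linarith

/-- **(L1)** lower bound for the weights near `y`. -/
theorem L1 (law : RLaw ι) (hd : IsDist del) (hc : 0 < c) (hc1 : (Fintype.card Y : ℝ) * c ≤ 1)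
    (h0 : ∀ z, 0 ≤ w0 z) (hp : ∀ y, ∑ z ∈ bl del y 1, w0 z ≤ 1)
    {ν : Y → ℝ} (hν : ∀ z, 0 ≤ ν z) {y : Y} {s P : ℝ} (hs0 : 0 ≤ s) (hs1 : s ≤ 1 / 4)
    (hP : P ≤ ∑ i, if law.ρ i ≤ 1 / 2 + s then law.q i else 0) (hP0 : 0 ≤ P)
    (hst : ∀ a, 0 ≤ a → a ≤ 1 / 2 → 0 ≤ ∑ x, ν x * (L law del (opw del w0 y a) c x -
      L law del w0 c x + l1 (light law del w0 c x) (light law del (opw del w0 y a) c x))) :
    P * ms ν (bl del y s) ≤ 13 * W del w0 c y (1 / 2 + 2 * s) * ms ν (bl del y 3) := by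
  set a := W del w0 c y (1 / 2 + 2 * s) with ha
  have hapos : 0 < a := W_pos hd h0 hc (by linarith)
  have hm3 : ms ν (bl del y s) ≤ ms ν (bl del y 3) := by
    unfold ms
    apply sum_le_sum_of_subset_of_nonneg
    · intro z hz; rw [mem_bl] at *; linarith
    · intro z _ _; exact hν z
  have hm0 : 0 ≤ ms ν (bl del y s) := sum_nonneg fun z _ => hν z
  have hP1 : P ≤ 1 := by
    refine hP.trans ?_
    rw [← law.q_sum]
    apply sum_le_sum
    intro i _
    split_ifs
    · exact le_rfl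
    · exact law.q_nonneg i
  by_cases ha1 : a ≤ 1 / 2
  · have h1 := kkt law hd hc h0 hapos.le ha1 hp hν (hst a hapos.le ha1)
    -- lower bound of the left side
    have hlow : ∀ x ∈ bl del y (1 / 2),
        (if x ∈ bl del y s then ν x * (2 / 5 * P) else 0) - 2 / 3 * a * ν x ≤
        ν x * ∑ i, law.q i * Real.log (1 - a + a / W del w0 c x (law.ρ i)) := by
      intro x hx
      have hterm : ∀ i, law.q i * (-(2 / 3 * a)) ≤
          law.q i * Real.log (1 - a + a / W del w0 c x (law.ρ i)) := by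
        intro i
        apply mul_le_mul_of_nonneg_left _ (law.q_nonneg i)
        exact log_ge hapos.le ha1 (W_pos hd h0 hc (by have := law.ρ_lo i; linarith))
          (W_le_two h0 hp hc.le hc1 (law.ρ_hi i))
      by_cases hxs : x ∈ bl del y s
      · rw [if_pos hxs]
        rw [mem_bl] at hxs
        have h2 : 2 / 5 * P - 2 / 3 * a ≤
            ∑ i, law.q i * Real.log (1 - a + a / W del w0 c x (law.ρ i)) := by
          have h3 : ∀ i, (2 / 5 * (if law.ρ i ≤ 1 / 2 + s then law.q i else 0)) -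
              law.q i * (2 / 3 * a) ≤
              law.q i * Real.log (1 - a + a / W del w0 c x (law.ρ i)) := by
            intro i
            split_ifs with hi
            · have hW : W del w0 c x (law.ρ i) ≤ a := by
                apply W_le hd h0 hc.le
                rw [hd.symm]; linarith
              have hWp := W_pos hd h0 hc (x := x) (ρ := law.ρ i)
                (by have := law.ρ_lo i; linarith)
              have h4 : 1 ≤ a / W del w0 c x (law.ρ i) := by rw [le_div_iff₀ hWp]; linarith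
              have h5 : (2 / 5 : ℝ) ≤ Real.log (1 - a + a / W del w0 c x (law.ρ i)) := by
                have h6 : Real.log (3 / 2) ≤ Real.log (1 - a + a / W del w0 c x (law.ρ i)) :=
                  Real.log_le_log (by norm_num) (by linarith)
                have h7 : (2 / 5 : ℝ) ≤ Real.log (3 / 2) := by
                  rw [Real.le_log_iff_exp_le (by norm_num)]
                  have := Real.exp_bound_div_one_sub_of_interval
                    (show (0 : ℝ) ≤ 2 / 5 by norm_num) (show (2 / 5 : ℝ) < 1 by norm_num)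
                  have h8 := Real.exp_bound' (show (0 : ℝ) ≤ 2 / 5 by norm_num)
                    (show (2 / 5 : ℝ) ≤ 1 by norm_num) (show 0 < 4 by norm_num)
                  simp [Finset.sum_range_succ, Nat.factorial] at h8
                  norm_num at h8
                  linarith
                linarith
              have h6 := mul_le_mul_of_nonneg_left h5 (law.q_nonneg i)
              have h7 : 0 ≤ law.q i * (2 / 3 * a) :=
                mul_nonneg (law.q_nonneg i) (by linarith)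
              linarith
            · have := hterm i
              linarith
          have h4 := sum_le_sum fun i (_ : i ∈ univ) => h3 i
          rw [sum_sub_distrib, ← mul_sum, ← sum_mul, law.q_sum] at h4
          linarith
        have h3 := mul_le_mul_of_nonneg_left h2 (hν x)
        linarith
      · rw [if_neg hxs]
        have h4 := sum_le_sum fun i (_ : i ∈ univ) => hterm i
        rw [← sum_mul, law.q_sum] at h4
        have h3 := mul_le_mul_of_nonneg_left h4 (hν x)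
        linarith
    have h2 := sum_le_sum hlow
    rw [sum_sub_distrib, ← sum_filter, ← sum_mul, ← mul_sum] at h2
    have e1 : (bl del y (1 / 2)).filter (fun x => x ∈ bl del y s) = bl del y s := by
      ext z
      rw [mem_filter, mem_bl, mem_bl]
      constructor
      · rintro ⟨_, h⟩; exact h
      · intro h; exact ⟨by linarith, h⟩
    rw [e1] at h2
    have h3 : ∑ x ∈ bl del y (1 / 2), ν x ≤ ms ν (bl del y 3) := by
      unfold ms
      apply sum_le_sum_of_subset_of_nonneg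
      · intro z hz; rw [mem_bl] at *; linarith
      · intro z _ _; exact hν z
    have h4 := mul_le_mul_of_nonneg_left h3 (show 0 ≤ 2 / 3 * a by linarith)
    unfold ms at *
    nlinarith
  · rw [not_le] at ha1
    have h5 : P * ms ν (bl del y s) ≤ 1 * ms ν (bl del y 3) :=
      mul_le_mul hP1 hm3 hm0 (by norm_num)
    have hm30 : 0 ≤ ms ν (bl del y 3) := hm0.trans hm3
    nlinarith

end Crest.Agent.R314.G1B
end

-- ▼ part R314/G1_B3
section

/-!
R314, module G (helper435's #8508), block G1_B: the collective inequality L2 of (3).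
-/

set_option autoImplicit false
set_option linter.unusedSectionVars false

namespace Crest.Agent.R314.G1B

open Finset

variable {Y : Type*} [Fintype Y] [DecidableEq Y] {ι : Type*} [Fintype ι]
variable {del : Y → Y → ℝ} {w0 : Y → ℝ} {c : ℝ}

theorem L_nonneg (law : RLaw ι) (hd : IsDist del) (hc : 0 < c)
    (hc1 : (Fintype.card Y : ℝ) * c ≤ 1)
    (h0 : ∀ z, 0 ≤ w0 z) (hp : ∀ y, ∑ z ∈ bl del y 1, w0 z ≤ 1) (x : Y) :
    0 ≤ L law del w0 c x := by
  unfold L
  apply mul_nonneg (by norm_num)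
  apply sum_nonneg
  intro i _
  apply mul_nonneg (law.q_nonneg i)
  have h1 := W_pos hd h0 hc (x := x) (ρ := law.ρ i) (by have := law.ρ_lo i; linarith)
  apply Real.log_nonneg
  rw [le_div_iff₀ h1, one_mul]
  exact W_le_two h0 hp hc.le hc1 (law.ρ_hi i)


end Crest.Agent.R314.G1B
end

-- ▼ part R314/G1_B4

/-!
R314, module G (helper435's #8508), block G1_B: the generic facts of `G1_B1`–`G1_B3` in the
notation of `G1_A`.
-/

set_option autoImplicit false
set_option linter.unusedSectionVars false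

namespace Crest.Agent.R314.G1

open Finset

variable {Y : Type*} [Fintype Y] [DecidableEq Y] (M : IM Y)

namespace IM

theorem isDist : G1B.IsDist M.d := ⟨M.d_self, M.d_symm, M.d_tri⟩

/-- the radius law -/
noncomputable def law : G1B.RLaw (Fin M.J) where
  q i := (2 * (i : ℝ) + 1) / (M.J : ℝ) ^ 2
  ρ i := M.rad i
  q_nonneg i := by positivity
  q_sum := by
    have h := M.E_const 1
    unfold E at h
    rw [sum_div] at h
    rw [Fin.sum_univ_eq_sum_range (fun i => (2 * (i : ℝ) + 1) / (M.J : ℝ) ^ 2)]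
    simpa using h
  ρ_lo i := M.half_le_rad i
  ρ_hi i := M.rad_le_one i.2.le

theorem law_sum (f : ℕ → ℝ) : ∑ i : Fin M.J, M.law.q i * f i = M.E f := by
  unfold E law
  rw [sum_div, Fin.sum_univ_eq_sum_range (fun i => (2 * (i : ℝ) + 1) / (M.J : ℝ) ^ 2 * f i)]
  exact sum_congr rfl fun i _ => by ring

/-- the floor -/
noncomputable def cc (Y : Type*) [Fintype Y] : ℝ := 1 / Fintype.card Y

theorem cc_pos (x : Y) : 0 < cc Y := by
  have := card_pos x
  unfold cc; positivity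

theorem cc_le (x : Y) : (Fintype.card Y : ℝ) * cc Y ≤ 1 := by
  unfold cc
  rw [mul_one_div_cancel (card_pos x).ne']

theorem bm_eq (m : Y → ℝ) (x : Y) (r : ℝ) : M.bm m x r = ∑ z ∈ G1B.bl M.d x r, m z := by
  unfold bm G1B.bl
  rw [sum_filter]

theorem Ws_eq (w : Y → ℝ) (x : Y) (r : ℝ) : G1B.Ws w (cc Y) (G1B.bl M.d x r) = M.W w x r := by
  unfold W
  rw [bm_eq]
  rfl

theorem W_eq' (w : Y → ℝ) (x : Y) (r : ℝ) : G1B.W M.d w (cc Y) x r = M.W w x r := M.Ws_eq w x r

theorem L_eq (w : Y → ℝ) (x : Y) : G1B.L M.law M.d w (cc Y) x = M.L w x := by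
  unfold G1B.L L
  congr 1
  rw [← law_sum]
  apply sum_congr rfl
  intro i _
  rw [W_eq']
  rfl

theorem light_eq (w : Y → ℝ) (x z : Y) : G1B.light M.law M.d w (cc Y) x z = M.lam w x z := by
  unfold G1B.light lam
  rw [← law_sum]
  apply sum_congr rfl
  intro i _
  congr 1
  unfold G1B.lts lam1
  rw [Ws_eq]
  by_cases h : M.d x z ≤ M.rad i
  · rw [if_pos h, if_pos (show z ∈ G1B.bl M.d x (M.law.ρ i) from G1B.mem_bl.2 h)]
    rfl
  · rw [if_neg h, if_neg (show z ∉ G1B.bl M.d x (M.law.ρ i) from fun h' => h (G1B.mem_bl.1 h'))]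

theorem l1_eq (w w' : Y → ℝ) (x : Y) :
    G1B.l1 (G1B.light M.law M.d w (cc Y) x) (G1B.light M.law M.d w' (cc Y) x) =
      ∑ z, |M.lam w x z - M.lam w' x z| := by
  unfold G1B.l1
  simp only [light_eq]

theorem op_eq (w : Y → ℝ) (x₀ : Y) (a : ℝ) : G1B.opw M.d w x₀ a = M.op w x₀ a := rfl

theorem pack_iff {w : Y → ℝ} : (∀ y, ∑ z ∈ G1B.bl M.d y 1, w z ≤ 1) ↔ ∀ y, M.bm w y 1 ≤ 1 := by
  simp only [bm_eq]

/-! ### the operation keeps admissibility -/

theorem op_nonneg {w : Y → ℝ} (hw : ∀ x, 0 ≤ w x) {a : ℝ} (ha0 : 0 ≤ a) (ha1 : a ≤ 1) (x₀ x : Y) :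
    0 ≤ M.op w x₀ a x := G1B.opw_nonneg (del := M.d) hw ha0 ha1 x

theorem op_pack {w : Y → ℝ} (hw : ∀ x, 0 ≤ w x) (hp : ∀ y, M.bm w y 1 ≤ 1) {a : ℝ} (ha0 : 0 ≤ a)
    (ha1 : a ≤ 1) (x₀ y : Y) : M.bm (M.op w x₀ a) y 1 ≤ 1 := by
  rw [bm_eq]
  exact G1B.opw_pack M.isDist hw ha0 ha1 (M.pack_iff.2 hp) y

theorem op_Ok {S : St Y} (h : Ok M S) {a : ℝ} (ha0 : 0 ≤ a) (ha1 : a ≤ 1) (x₀ : Y) :
    Ok M ⟨S.P, S.β, M.op S.w x₀ a⟩ :=
  ⟨h.β0, h.β1, M.op_nonneg h.w0 ha0 ha1 x₀, M.op_pack h.w0 h.pack ha0 ha1 x₀, h.sep⟩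

/-! ### locality -/

theorem bm_congr {m m' : Y → ℝ} {x : Y} {r : ℝ} (h : ∀ z, M.d x z ≤ r → m z = m' z) :
    M.bm m x r = M.bm m' x r := by
  unfold bm
  apply sum_congr rfl
  intro z _
  split_ifs with h1
  · exact h z h1
  · rfl

theorem W_congr {w w' : Y → ℝ} {x : Y} {r : ℝ} (h : ∀ z, M.d x z ≤ r → w z = w' z) :
    M.W w x r = M.W w' x r :=
  M.bm_congr fun z hz => by unfold fl; rw [h z hz]

theorem L_congr {w w' : Y → ℝ} {x : Y} (h : ∀ z, M.d x z ≤ 1 → w z = w' z) :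
    M.L w x = M.L w' x := by
  unfold L
  congr 1
  apply M.E_congr
  intro s hs
  unfold psi
  rw [M.W_congr fun z hz => h z (hz.trans (M.rad_le_one hs.le))]

theorem lam_congr {w w' : Y → ℝ} {x : Y} (h : ∀ z, M.d x z ≤ 1 → w z = w' z) (z : Y) :
    M.lam w x z = M.lam w' x z := by
  unfold lam
  apply M.E_congr
  intro s hs
  unfold lam1
  split_ifs with h1
  · have h2 := M.rad_le_one hs.le
    rw [M.W_congr fun z hz => h z (hz.trans h2)]
    unfold fl
    rw [h z (h1.trans h2)]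
  · rfl

theorem op_congr_far {w : Y → ℝ} {x₀ x : Y} {a : ℝ} (h : 3 < M.d x₀ x) :
    ∀ z, M.d x z ≤ 1 → M.op w x₀ a z = w z := by
  intro z hz
  have h1 := M.d_tri x₀ z x
  rw [M.d_symm z x] at h1
  unfold op
  have hne : z ≠ x₀ := by
    intro h2
    rw [h2, M.d_self] at h1
    rw [h2] at hz
    linarith
  rw [if_neg (by linarith), if_neg hne, add_zero]

theorem op_L_far {w : Y → ℝ} {x₀ x : Y} {a : ℝ} (h : 3 < M.d x₀ x) :
    M.L (M.op w x₀ a) x = M.L w x := M.L_congr (M.op_congr_far h)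

theorem op_lam_far {w : Y → ℝ} {x₀ x : Y} {a : ℝ} (h : 3 < M.d x₀ x) (z : Y) :
    M.lam (M.op w x₀ a) x z = M.lam w x z := M.lam_congr (M.op_congr_far h) z

/-! ### price of the operation at one point -/

/-- the two sided statement: the price of the operation at `x` -/
theorem op_price_gain {w : Y → ℝ} (hw : ∀ x, 0 ≤ w x) (_hp : ∀ y, M.bm w y 1 ≤ 1) {a : ℝ}
    (ha0 : 0 ≤ a) (ha1 : a ≤ 1 / 2) (x₀ x : Y) :
    M.L (M.op w x₀ a) x - M.L w x + ∑ z, |M.lam w x z - M.lam (M.op w x₀ a) x z| ≤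
      - ∑ i : Fin M.J, M.law.q i * G1B.gain M.d w (cc Y) x₀ a x (M.law.ρ i) := by
  have h := G1B.L_sub_le M.law M.isDist (cc_pos x) hw ha0 ha1 (x0 := x₀) x
  rw [M.op_eq, M.l1_eq, M.L_eq, M.L_eq] at h
  exact h

theorem op_price_le {w : Y → ℝ} (hw : ∀ x, 0 ≤ w x) (hp : ∀ y, M.bm w y 1 ≤ 1) {a : ℝ}
    (ha0 : 0 ≤ a) (ha1 : a ≤ 1 / 2) (x₀ x : Y) :
    M.L (M.op w x₀ a) x - M.L w x + ∑ z, |M.lam w x z - M.lam (M.op w x₀ a) x z| ≤ 34 * a := by
  refine (M.op_price_gain hw hp ha0 ha1 x₀ x).trans ?_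
  have h4 : ∑ i : Fin M.J, M.law.q i * (-(34 * a)) ≤
      ∑ i : Fin M.J, M.law.q i * G1B.gain M.d w (cc Y) x₀ a x (M.law.ρ i) := by
    apply sum_le_sum
    intro i _
    apply mul_le_mul_of_nonneg_left _ (M.law.q_nonneg i)
    by_cases h5 : M.d x x₀ ≤ M.law.ρ i
    · have := (G1B.gain_in M.isDist (cc_pos x) hw ha0 ha1 (M.pack_iff.2 hp) (M.law.ρ_hi i) h5).2
      linarith
    · exact G1B.gain_out M.isDist (cc_pos x) hw ha0 ha1
        (by have := M.law.ρ_lo i; linarith) h5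
  rw [← sum_mul, M.law.q_sum, one_mul] at h4
  linarith


/-- after the operation the light potential is small near `x₀` -/
theorem op_L_le {w : Y → ℝ} (hw : ∀ x, 0 ≤ w x) {a : ℝ} (ha0 : 0 < a) (ha1 : a ≤ 1) {x₀ x : Y}
    (hx : M.d x₀ x ≤ 1 / 2) : M.L (M.op w x₀ a) x ≤ 16 * Real.log (2 / a) := by
  unfold L
  have h : M.E (M.psi (M.op w x₀ a) x) ≤ M.E fun _ => Real.log (2 / a) := by
    apply M.E_mono
    intro s _
    unfold psi
    have h0 := M.op_nonneg hw ha0.le ha1 x₀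
    have h1 : a ≤ M.W (M.op w x₀ a) x (M.rad s) := by
      refine le_trans ?_ (M.le_bm (fun z => (fl_pos h0 z).le)
        (show M.d x x₀ ≤ M.rad s by
          rw [M.d_symm]; exact hx.trans (M.half_le_rad s)))
      have h2 : 0 ≤ (1 - a) * w x₀ := mul_nonneg (by linarith) (hw x₀)
      have h3 := cc_pos (Y := Y) x
      unfold cc at h3
      unfold fl op
      rw [M.d_self, if_pos (by norm_num), if_pos rfl]
      linarith
    apply Real.log_le_log (div_pos (by norm_num) (lt_of_lt_of_le ha0 h1))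
    exact div_le_div_of_nonneg_left (by norm_num) ha0 h1
  rw [E_const] at h
  linarith

/-- the operation does not hurt points all of whose balls contain `x₀` by more than `8 a`,
potential alone: `L' ≤ L` on `B(x₀, 1/2)`. -/
theorem op_L_anti {w : Y → ℝ} (hw : ∀ x, 0 ≤ w x) (hp : ∀ y, M.bm w y 1 ≤ 1) {a : ℝ}
    (ha0 : 0 ≤ a) {x₀ x : Y} (hx : M.d x₀ x ≤ 1 / 2) :
    M.L (M.op w x₀ a) x ≤ M.L w x := by
  unfold L
  have h : M.E (M.psi (M.op w x₀ a) x) ≤ M.E (M.psi w x) := by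
    apply M.E_mono
    intro s hs
    unfold psi
    have hr := M.rad_le_one hs.le
    have hx0 : x₀ ∈ G1B.bl M.d x (M.rad s) := by
      rw [G1B.mem_bl, M.d_symm]; exact hx.trans (M.half_le_rad s)
    have hW := M.W_pos hw x (M.rad_nonneg s)
    have e : M.W (M.op w x₀ a) x (M.rad s) =
        M.W w x (M.rad s) + a * (1 - ∑ z ∈ G1B.bl M.d x (M.rad s), w z) := by
      rw [← Ws_eq, ← Ws_eq, G1B.Ws_eq, G1B.Ws_eq]
      have h1 : ∀ z ∈ G1B.bl M.d x (M.rad s), M.op w x₀ a z =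
          (1 - a) * w z + (if z = x₀ then a else 0) := by
        intro z hz
        rw [G1B.mem_bl] at hz
        have h2 := M.d_tri x₀ x z
        unfold op
        rw [if_pos (by linarith)]
      rw [sum_congr rfl h1, sum_add_distrib, ← mul_sum, sum_ite_eq' _ x₀, if_pos hx0]
      ring
    have h2 : ∑ z ∈ G1B.bl M.d x (M.rad s), w z ≤ 1 := by
      rw [← bm_eq]
      exact (M.bm_mono_r hw x hr).trans (hp x)
    have h3 : 0 ≤ a * (1 - ∑ z ∈ G1B.bl M.d x (M.rad s), w z) :=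
      mul_nonneg ha0 (by linarith)
    rw [e]
    apply Real.log_le_log (by positivity)
    apply div_le_div_of_nonneg_left (by norm_num) hW (by linarith)
  linarith

/-! ### simultaneous operations -/










end IM

end Crest.Agent.R314.G1
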