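import Mathlib
import Crest.Agent.R314.G1_B4

/-!
R314, module G (helper435's #8508), block G1_B: KKT, (L1), (L2) for stable states.
-/

set_option autoImplicit false
set_option linter.unusedSectionVars false

namespace Crest.Agent.R314.G1

open Finset

variable {Y : Type*} [Fintype Y] [DecidableEq Y] (M : IM Y)

namespace IM

/-- `ν = ζ m` -/
noncomputable def nu (m : Y → ℝ) (S : St Y) (x : Y) : ℝ := zf (M.u S.P x) * m x

theorem nu_nonneg {m : Y → ℝ} (hm : ∀ x, 0 ≤ m x) (S : St Y) (x : Y) : 0 ≤ M.nu m S x :=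
  mul_nonneg (zf_nonneg _) (hm x)

theorem nu_le {m : Y → ℝ} (hm : ∀ x, 0 ≤ m x) (S : St Y) (x : Y) : M.nu m S x ≤ m x := by
  have := zf_le_one (M.u S.P x)
  unfold nu
  nlinarith [hm x]

/-- price of changing the weights only, at one point -/
theorem U_op_price {S : St Y} {w' : Y → ℝ} (x : Y) :
    M.U ⟨S.P, S.β, w'⟩ x - M.U S x + M.nrm S x ⟨S.P, S.β, w'⟩ x ≤
      zf (M.u S.P x) * (M.L w' x - M.L S.w x + ∑ z, |M.lam S.w x z - M.lam w' x z|) := by
  have e1 : M.U ⟨S.P, S.β, w'⟩ x - M.U S x = zf (M.u S.P x) * (M.L w' x - M.L S.w x) := by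
    unfold U bt
    ring
  have e2 : M.nrm S x ⟨S.P, S.β, w'⟩ x =
      tf (M.u S.P x) * ∑ z, |M.lam S.w x z - M.lam w' x z| := by
    unfold nrm
    rw [Fintype.sum_option]
    simp only [lab, sub_self, abs_zero, zero_add]
    rw [mul_sum]
    apply sum_congr rfl
    intro z _
    rw [← mul_sub, abs_mul, abs_of_nonneg (tf_nonneg _)]
  rw [e1, e2, mul_add]
  have h1 : 0 ≤ ∑ z, |M.lam S.w x z - M.lam w' x z| := sum_nonneg fun _ _ => abs_nonneg _
  have := mul_le_mul_of_nonneg_right (tf_le_zf (M.u S.P x)) h1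
  linarith

theorem D_op_le {m : Y → ℝ} (hm : ∀ x, 0 ≤ m x) {S : St Y} {w' : Y → ℝ} :
    M.D m S ⟨S.P, S.β, w'⟩ ≤
      ∑ x, M.nu m S x * (M.L w' x - M.L S.w x + ∑ z, |M.lam S.w x z - M.lam w' x z|) := by
  unfold D
  apply sum_le_sum
  intro x _
  have h := mul_le_mul_of_nonneg_left (M.U_op_price (S := S) (w' := w') x) (hm x)
  refine h.trans (le_of_eq ?_)
  unfold nu
  ring

/-- price of the operation: at most `34 a ν(B(x₀,3))` -/
theorem D_op_price {m : Y → ℝ} (hm : ∀ x, 0 ≤ m x) {S : St Y} (hS : Ok M S) {a : ℝ} (ha0 : 0 ≤ a)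
    (ha1 : a ≤ 1 / 2) (x₀ : Y) :
    M.D m S ⟨S.P, S.β, M.op S.w x₀ a⟩ ≤ 34 * a * M.bm (M.nu m S) x₀ 3 := by
  refine (M.D_op_le hm).trans ?_
  unfold bm
  rw [mul_sum]
  apply sum_le_sum
  intro x _
  split_ifs with h
  · have h1 := M.op_price_le hS.w0 hS.pack ha0 ha1 x₀ x
    have h2 := mul_le_mul_of_nonneg_left h1 (M.nu_nonneg hm S x)
    linarith
  · rw [not_le] at h
    rw [M.op_L_far h]
    simp only [M.op_lam_far h, sub_self, abs_zero, sum_const_zero, add_zero, mul_zero]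
    exact le_rfl

/-- weak stability: the operations `op` do not pay for themselves (up to an error `ε`) -/
theorem stable_op {m : Y → ℝ} (hm : ∀ x, 0 ≤ m x) {S : St Y} (hS : Stable M m S) {a : ℝ}
    (ha0 : 0 ≤ a) (ha1 : a ≤ 1) (x₀ : Y) :
    0 ≤ ∑ x, M.nu m S x * (M.L (M.op S.w x₀ a) x - M.L S.w x +
      ∑ z, |M.lam S.w x z - M.lam (M.op S.w x₀ a) x z|) :=
  (hS.2 _ (M.op_Ok hS.1 ha0 ha1 x₀)).trans (M.D_op_le hm)

theorem hst_of_stable {m : Y → ℝ} (hm : ∀ x, 0 ≤ m x) {S : St Y} (hS : Stable M m S) (x₀ : Y)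
    (a : ℝ) (ha0 : 0 ≤ a) (ha1 : a ≤ 1 / 2) :
    0 ≤ ∑ x, M.nu m S x * (G1B.L M.law M.d (G1B.opw M.d S.w x₀ a) (cc Y) x -
      G1B.L M.law M.d S.w (cc Y) x +
      G1B.l1 (G1B.light M.law M.d S.w (cc Y) x)
        (G1B.light M.law M.d (G1B.opw M.d S.w x₀ a) (cc Y) x)) := by
  simp only [l1_eq, L_eq, op_eq]
  exact M.stable_op hm hS ha0 (by linarith) x₀

theorem ms_eq (ν : Y → ℝ) (x : Y) (r : ℝ) : G1B.ms ν (G1B.bl M.d x r) = M.bm ν x r := by
  rw [bm_eq]; rfl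

/-- **KKT** -/
theorem kkt {m : Y → ℝ} (hm : ∀ x, 0 ≤ m x) {S : St Y} (hS : Stable M m S) {a : ℝ}
    (ha0 : 0 ≤ a) (ha1 : a ≤ 1 / 2) (x₀ : Y) :
    ∑ z, (if M.d x₀ z ≤ 1 / 2 then M.nu m S z *
      M.E fun s => Real.log (1 - a + a / M.W S.w z (M.rad s)) else 0) ≤
      17 / 4 * a * M.bm (M.nu m S) x₀ 3 := by
  have h := G1B.kkt (x0 := x₀) M.law M.isDist (cc_pos x₀) hS.1.w0 ha0 ha1 (M.pack_iff.2 hS.1.pack)
    (M.nu_nonneg hm S) (M.hst_of_stable hm hS x₀ a ha0 ha1)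
  rw [ms_eq] at h
  unfold G1B.bl at h
  rw [sum_filter] at h
  have e : ∀ z, ∑ i : Fin M.J, M.law.q i *
      Real.log (1 - a + a / G1B.W M.d S.w (cc Y) z (M.law.ρ i)) =
      M.E fun s => Real.log (1 - a + a / M.W S.w z (M.rad s)) := by
    intro z
    rw [← law_sum]
    apply sum_congr rfl
    intro i _
    rw [W_eq']
    rfl
  simp only [e] at h
  linarith




/-- **(L1)**, general form -/
theorem L1' {m : Y → ℝ} (hm : ∀ x, 0 ≤ m x) {S : St Y} (hS : Stable M m S) (y : Y) {j : ℕ}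
    (hj : 2 * j ≤ M.J) (hj1 : j + 1 ≤ M.J) :
    (((j : ℝ) + 1) / M.J) ^ 2 * M.bm (M.nu m S) y ((j : ℝ) / (2 * M.J)) ≤
      13 * M.W S.w y (M.rad (2 * j)) * M.bm (M.nu m S) y 3 := by
  have hJ := M.Jr
  have hs0 : 0 ≤ (j : ℝ) / (2 * M.J) := by positivity
  have hs1 : (j : ℝ) / (2 * M.J) ≤ 1 / 4 := by
    rw [div_le_iff₀ (by positivity)]
    have : (2 : ℝ) * j ≤ M.J := by exact_mod_cast hj
    linarith
  have hP : (((j : ℝ) + 1) / M.J) ^ 2 ≤
      ∑ i : Fin M.J, if M.law.ρ i ≤ 1 / 2 + (j : ℝ) / (2 * M.J) then M.law.q i else 0 := by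
    have e1 : ∀ i : Fin M.J, (if M.law.ρ i ≤ 1 / 2 + (j : ℝ) / (2 * M.J) then M.law.q i else 0) =
        M.law.q i * (if (i : ℕ) ≤ j then (1 : ℝ) else 0) := by
      intro i
      have h1 : M.law.ρ i ≤ 1 / 2 + (j : ℝ) / (2 * M.J) ↔ (i : ℕ) ≤ j := by
        show M.rad i ≤ _ ↔ _
        unfold rad
        rw [add_le_add_iff_left, div_le_div_iff_of_pos_right (by positivity)]
        norm_cast
      simp only [h1]
      split_ifs <;> simp
    simp only [e1]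
    rw [M.law_sum (fun i => if i ≤ j then (1 : ℝ) else 0)]
    unfold E
    rw [div_pow]
    apply div_le_div_of_nonneg_right _ (by positivity)
    have e2 : ∑ s ∈ range (j + 1), (2 * (s : ℝ) + 1) * (if s ≤ j then (1 : ℝ) else 0) =
        ((j : ℝ) + 1) ^ 2 := by
      have := sum_odd (j + 1)
      push_cast at this
      rw [← this]
      apply sum_congr rfl
      intro s hs
      rw [mem_range] at hs
      rw [if_pos (by omega), mul_one]
    rw [← e2]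
    apply sum_le_sum_of_subset_of_nonneg
    · intro s hs; rw [mem_range] at *; omega
    · intro s _ _
      apply mul_nonneg (by positivity)
      split_ifs <;> norm_num
  have h := G1B.L1 M.law M.isDist (cc_pos y) (cc_le y) hS.1.w0 (M.pack_iff.2 hS.1.pack)
    (M.nu_nonneg hm S) (y := y) hs0 hs1 hP (by positivity) (M.hst_of_stable hm hS y)
  rw [ms_eq, ms_eq, W_eq'] at h
  have e3 : (1 : ℝ) / 2 + 2 * ((j : ℝ) / (2 * M.J)) = M.rad (2 * j) := by
    unfold rad; push_cast; ring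
  rw [e3] at h
  exact h

/-- **(L1)** in the form of #8699 -/
theorem L1 {m : Y → ℝ} (hm : ∀ x, 0 ≤ m x) {S : St Y} (hS : Stable M m S) (y : Y) {i : ℕ}
    (hi : i < M.J) :
    1 / 52 * (((i : ℝ) + 1) / M.J) ^ 2 * M.bm (M.nu m S) y (((i / 2 : ℕ) : ℝ) / (2 * M.J)) ≤
      M.W S.w y (M.rad i) * M.bm (M.nu m S) y 3 := by
  have hJ := M.Jr
  have h := M.L1' hm hS y (j := i / 2) (by omega) (by omega)
  have hν := M.nu_nonneg hm S
  have h1 : (((i : ℝ) + 1) / M.J) ^ 2 ≤ 4 * ((((i / 2 : ℕ) : ℝ) + 1) / M.J) ^ 2 := by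
    rw [div_pow, div_pow, ← mul_div_assoc]
    apply div_le_div_of_nonneg_right _ (by positivity)
    have h2 : (i : ℝ) + 1 ≤ 2 * (((i / 2 : ℕ) : ℝ) + 1) := by
      have : i + 1 ≤ 2 * (i / 2 + 1) := by omega
      exact_mod_cast this
    have h3 : (0 : ℝ) ≤ (i : ℝ) + 1 := by positivity
    nlinarith
  have h2 : M.W S.w y (M.rad (2 * (i / 2))) ≤ M.W S.w y (M.rad i) := by
    apply M.W_mono hS.1.w0
    rw [M.d_self, zero_add]
    unfold rad
    have : ((2 * (i / 2) : ℕ) : ℝ) ≤ i := by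
      have : 2 * (i / 2) ≤ i := by omega
      exact_mod_cast this
    gcongr
  have h3 := M.bm_nonneg hν y 3
  have h4 := M.bm_nonneg hν y (((i / 2 : ℕ) : ℝ) / (2 * M.J))
  have h5 := mul_le_mul_of_nonneg_right h2 h3
  have h6 := mul_le_mul_of_nonneg_right h1 h4
  nlinarith




end IM

end Crest.Agent.R314.G1
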