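import Mathlib

-- ▼ part R314/Mh1
section

/-!
R314, block G2: minhash labels.  `T` is a finite set of atoms, `σ` a uniformly random priority
`T ≃ Fin (card T)`; the label given by a nonempty active set `A` is the atom of `A` with the
smallest priority.
-/

set_option autoImplicit false
set_option linter.unusedSectionVars false

namespace Crest.Agent.R314.Mh

open Finset

variable {T : Type*} [Fintype T] [DecidableEq T]

/-- Priorities. -/
abbrev Prio (T : Type*) [Fintype T] := T ≃ Fin (Fintype.card T)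

/-- Uniform probability of an event. -/
noncomputable def pr {Ω : Type*} [Fintype Ω] (P : Ω → Prop) : ℝ :=
  open Classical in ((univ.filter P).card : ℝ) / (Fintype.card Ω : ℝ)

section pr
variable {Ω : Type*} [Fintype Ω]


theorem pr_mono {P Q : Ω → Prop} (h : ∀ ω, P ω → Q ω) : pr P ≤ pr Q := by
  classical
  unfold pr
  apply div_le_div_of_nonneg_right _ (Nat.cast_nonneg _)
  have : (univ.filter P).card ≤ (univ.filter Q).card :=
    card_le_card fun ω hω => by
      rw [mem_filter] at hω ⊢
      exact ⟨hω.1, h ω hω.2⟩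
  exact_mod_cast this




end pr

/-- The atom of `A` with the smallest priority. -/
noncomputable def top (σ : Prio T) (A : Finset T) (hA : A.Nonempty) : T :=
  (A.exists_min_image σ hA).choose

theorem top_mem (σ : Prio T) (A : Finset T) (hA : A.Nonempty) : top σ A hA ∈ A :=
  (A.exists_min_image σ hA).choose_spec.1

theorem top_le (σ : Prio T) (A : Finset T) (hA : A.Nonempty) {b : T} (hb : b ∈ A) :
    σ (top σ A hA) ≤ σ b :=
  (A.exists_min_image σ hA).choose_spec.2 b hb

theorem top_eq_iff (σ : Prio T) (A : Finset T) (hA : A.Nonempty) (a : T) :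
    top σ A hA = a ↔ a ∈ A ∧ ∀ b ∈ A, σ a ≤ σ b := by
  constructor
  · rintro rfl
    exact ⟨top_mem σ A hA, fun b hb => top_le σ A hA hb⟩
  · rintro ⟨ha, h⟩
    exact σ.injective (le_antisymm (top_le σ A hA ha) (h _ (top_mem σ A hA)))

/-- The top of a larger set, if it lies in the smaller one, is the top of the smaller one. -/
theorem top_eq_of_subset (σ : Prio T) {A C : Finset T} (hA : A.Nonempty) (hC : C.Nonempty)
    (hAC : A ⊆ C) (h : top σ C hC ∈ A) : top σ A hA = top σ C hC :=
  (top_eq_iff σ A hA _).2 ⟨h, fun _ hb => top_le σ C hC (hAC hb)⟩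

theorem card_top_eq_swap (A : Finset T) (hA : A.Nonempty) {a b : T} (ha : a ∈ A) (hb : b ∈ A) :
    (univ.filter fun σ : Prio T => top σ A hA = a).card =
      (univ.filter fun σ : Prio T => top σ A hA = b).card := by
  apply card_bij' (fun σ _ => (Equiv.swap a b).trans σ) (fun σ _ => (Equiv.swap a b).trans σ)
  · intro σ hσ
    simp only [mem_filter, mem_univ, true_and] at hσ ⊢
    rw [top_eq_iff] at hσ ⊢
    refine ⟨hb, fun c hc => ?_⟩
    simp only [Equiv.trans_apply, Equiv.swap_apply_right]
    apply hσ.2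
    by_cases h1 : c = a
    · subst h1; simpa using hb
    · by_cases h2 : c = b
      · subst h2; simpa using ha
      · rwa [Equiv.swap_apply_of_ne_of_ne h1 h2]
  · intro σ hσ
    simp only [mem_filter, mem_univ, true_and] at hσ ⊢
    rw [top_eq_iff] at hσ ⊢
    refine ⟨ha, fun c hc => ?_⟩
    simp only [Equiv.trans_apply, Equiv.swap_apply_left]
    apply hσ.2
    by_cases h1 : c = a
    · subst h1; simpa using hb
    · by_cases h2 : c = b
      · subst h2; simpa using ha
      · rwa [Equiv.swap_apply_of_ne_of_ne h1 h2]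
  · intro σ _; ext x; simp
  · intro σ _; ext x; simp

theorem card_prio_pos : 0 < Fintype.card (Prio T) :=
  Fintype.card_pos_iff.2 ⟨Fintype.equivFin T⟩

theorem pr_top_eq (A : Finset T) (hA : A.Nonempty) {a : T} (ha : a ∈ A) :
    pr (fun σ : Prio T => top σ A hA = a) = 1 / A.card := by
  classical
  have h1 : ∑ b ∈ A, (univ.filter fun σ : Prio T => top σ A hA = b).card =
      Fintype.card (Prio T) := by
    rw [← card_biUnion]
    · have : (A.biUnion fun b => univ.filter fun σ : Prio T => top σ A hA = b) = univ := by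
        ext σ
        simp only [mem_biUnion, mem_filter, mem_univ, true_and, iff_true]
        exact ⟨_, top_mem σ A hA, rfl⟩
      rw [this]; rfl
    · intro b _ c _ hbc
      rw [Function.onFun, disjoint_left]
      intro σ h1 h2
      simp only [mem_filter, mem_univ, true_and] at h1 h2
      exact hbc (h1.symm.trans h2)
  have h2 : ∑ b ∈ A, (univ.filter fun σ : Prio T => top σ A hA = b).card =
      A.card * (univ.filter fun σ : Prio T => top σ A hA = a).card := by
    rw [sum_congr rfl fun b hb => card_top_eq_swap A hA hb ha, sum_const, smul_eq_mul]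
  rw [h2] at h1
  unfold pr
  have hc : (0 : ℝ) < Fintype.card (Prio T) := by exact_mod_cast card_prio_pos
  have hA0 : (0 : ℝ) < A.card := by exact_mod_cast hA.card_pos
  rw [div_eq_div_iff hc.ne' hA0.ne', one_mul]
  have : (A.card : ℝ) * (univ.filter fun σ : Prio T => top σ A hA = a).card =
      Fintype.card (Prio T) := by exact_mod_cast h1
  rw [← this, mul_comm]
  congr!

/-- The probability that the top of `A` lies in `S`. -/
theorem pr_top_mem (A S : Finset T) (hA : A.Nonempty) :
    pr (fun σ : Prio T => top σ A hA ∈ S) = ((A ∩ S).card : ℝ) / A.card := by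
  classical
  have h1 : pr (fun σ : Prio T => top σ A hA ∈ S) =
      ∑ a ∈ A ∩ S, pr (fun σ : Prio T => top σ A hA = a) := by
    unfold pr
    rw [← sum_div]
    congr 1
    rw [← Nat.cast_sum]
    congr 1
    rw [← card_biUnion]
    · congr 1
      ext σ
      simp only [mem_biUnion, mem_filter, mem_univ, true_and, mem_inter]
      constructor
      · intro h
        exact ⟨_, ⟨top_mem σ A hA, h⟩, rfl⟩
      · rintro ⟨a, ⟨_, ha⟩, rfl⟩
        exact ha
    · intro b _ c _ hbc
      rw [Function.onFun, disjoint_left]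
      intro σ h1 h2
      simp only [mem_filter, mem_univ, true_and] at h1 h2
      exact hbc (h1.symm.trans h2)
  rw [h1, sum_congr rfl fun a ha => pr_top_eq A hA (mem_inter.1 ha).1, sum_const, nsmul_eq_mul]
  ring

/-- **Jaccard bound.** -/
theorem pr_top_ne_le (A B : Finset T) (hA : A.Nonempty) (hB : B.Nonempty) :
    pr (fun σ : Prio T => top σ A hA ≠ top σ B hB) ≤
      ((symmDiff A B).card : ℝ) / (A ∪ B).card := by
  classical
  have hU : (A ∪ B).Nonempty := hA.mono subset_union_left
  have h1 : pr (fun σ : Prio T => top σ A hA ≠ top σ B hB) ≤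
      pr (fun σ : Prio T => top σ (A ∪ B) hU ∈ symmDiff A B) := by
    apply pr_mono
    intro σ h
    by_contra hcon
    apply h
    have hm := top_mem σ (A ∪ B) hU
    have hin : top σ (A ∪ B) hU ∈ A ∧ top σ (A ∪ B) hU ∈ B := by
      rw [mem_symmDiff] at hcon
      rw [mem_union] at hm
      tauto
    rw [top_eq_of_subset σ hA hU subset_union_left hin.1,
      top_eq_of_subset σ hB hU subset_union_right hin.2]
  refine h1.trans (le_of_eq ?_)
  rw [pr_top_mem]
  congr 2
  congr 1
  apply inter_eq_right.2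
  intro a ha
  rw [mem_symmDiff] at ha
  rw [mem_union]
  tauto

end Crest.Agent.R314.Mh
end

-- ▼ part R314/Mh2
section

/-!
R314, block G2: minhash labels for integer weights.  Atoms are pairs `(x, u)`, `u < H`; the weight
function `j : X → ℕ` (`j ≤ H`) and the set `S` of visible points give the active set
`act j S = {(x, u) | x ∈ S, u < j x}`; the label is the first coordinate of the top atom.
-/

set_option autoImplicit false
set_option linter.unusedSectionVars false

namespace Crest.Agent.R314.Mh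

open Finset

variable {X : Type*} [Fintype X] [DecidableEq X] {H : ℕ}

/-- Active atoms. -/
def act (H : ℕ) (j : X → ℕ) (S : Finset X) : Finset (X × Fin H) :=
  univ.filter fun a => a.1 ∈ S ∧ (a.2 : ℕ) < j a.1

theorem mem_act {j : X → ℕ} {S : Finset X} {a : X × Fin H} :
    a ∈ act H j S ↔ a.1 ∈ S ∧ (a.2 : ℕ) < j a.1 := by simp [act]

/-- Effective weight. -/
def ew (j : X → ℕ) (S : Finset X) (x : X) : ℕ := if x ∈ S then j x else 0

theorem card_filter_fin (f : X → ℕ) (g : X → ℕ) (hg : ∀ x, g x ≤ H) :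
    (univ.filter fun a : X × Fin H => f a.1 ≤ (a.2 : ℕ) ∧ (a.2 : ℕ) < g a.1).card =
      ∑ x, (g x - f x) := by
  have h1 : (univ.filter fun a : X × Fin H => f a.1 ≤ (a.2 : ℕ) ∧ (a.2 : ℕ) < g a.1).card =
      ∑ x, (univ.filter fun u : Fin H => f x ≤ (u : ℕ) ∧ (u : ℕ) < g x).card := by
    simp only [card_filter]
    rw [← univ_product_univ, sum_product]
  rw [h1]
  apply sum_congr rfl
  intro x _
  have h2 : (univ.filter fun u : Fin H => f x ≤ (u : ℕ) ∧ (u : ℕ) < g x).map Fin.valEmbedding =
      Ico (f x) (g x) := by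
    ext n
    simp only [mem_map, mem_filter, mem_univ, true_and, Fin.valEmbedding_apply, mem_Ico]
    constructor
    · rintro ⟨u, ⟨h1, h2⟩, rfl⟩; exact ⟨h1, h2⟩
    · rintro ⟨h1, h2⟩
      exact ⟨⟨n, h2.trans_le (hg x)⟩, ⟨h1, h2⟩, rfl⟩
  rw [← card_map Fin.valEmbedding, h2, Nat.card_Ico]

theorem card_act (j : X → ℕ) (hj : ∀ x, j x ≤ H) (S : Finset X) :
    (act H j S).card = ∑ x ∈ S, j x := by
  have h1 : act H j S = univ.filter fun a : X × Fin H => (fun _ : X => 0) a.1 ≤ (a.2 : ℕ) ∧
      (a.2 : ℕ) < (ew j S) a.1 := by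
    ext a
    rw [mem_act, mem_filter]
    unfold ew
    by_cases h : a.1 ∈ S <;> simp [h]
  have h2 : ∀ x, ew j S x ≤ H := by
    intro x; unfold ew; split_ifs
    · exact hj x
    · exact Nat.zero_le _
  rw [h1, card_filter_fin (fun _ => 0) (ew j S) h2]
  simp only [Nat.sub_zero]
  unfold ew
  rw [sum_ite_mem, univ_inter]

theorem act_nonempty {j : X → ℕ} (hj : ∀ x, j x ≤ H) {S : Finset X} {x : X} (hx : x ∈ S)
    (h0 : 0 < j x) : (act H j S).Nonempty :=
  ⟨(x, ⟨0, h0.trans_le (hj x)⟩), mem_act.2 ⟨hx, h0⟩⟩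

theorem card_union_act (j j' : X → ℕ) (hj : ∀ x, j x ≤ H) (hj' : ∀ x, j' x ≤ H)
    (S S' : Finset X) :
    (act H j S ∪ act H j' S').card = ∑ x, max (ew j S x) (ew j' S' x) := by
  have h1 : act H j S ∪ act H j' S' = univ.filter fun a : X × Fin H =>
      (fun _ : X => 0) a.1 ≤ (a.2 : ℕ) ∧
        (a.2 : ℕ) < (fun x => max (ew j S x) (ew j' S' x)) a.1 := by
    ext a
    rw [mem_union, mem_act, mem_act, mem_filter]
    unfold ew
    by_cases h : a.1 ∈ S <;> by_cases h' : a.1 ∈ S' <;> simp [h, h']
  have h2 : ∀ x, (fun x => max (ew j S x) (ew j' S' x)) x ≤ H := by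
    intro x
    unfold ew
    apply max_le <;> split_ifs
    · exact hj x
    · exact Nat.zero_le _
    · exact hj' x
    · exact Nat.zero_le _
  rw [h1, card_filter_fin (fun _ => 0) (fun x => max (ew j S x) (ew j' S' x)) h2]
  simp

theorem card_inter_act (j j' : X → ℕ) (hj : ∀ x, j x ≤ H) (S S' : Finset X) :
    (act H j S ∩ act H j' S').card = ∑ x, min (ew j S x) (ew j' S' x) := by
  have h1 : act H j S ∩ act H j' S' = univ.filter fun a : X × Fin H =>
      (fun _ : X => 0) a.1 ≤ (a.2 : ℕ) ∧
        (a.2 : ℕ) < (fun x => min (ew j S x) (ew j' S' x)) a.1 := by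
    ext a
    rw [mem_inter, mem_act, mem_act, mem_filter]
    unfold ew
    by_cases h : a.1 ∈ S <;> by_cases h' : a.1 ∈ S' <;> simp [h, h']
  have h2 : ∀ x, (fun x => min (ew j S x) (ew j' S' x)) x ≤ H := by
    intro x
    unfold ew
    refine (min_le_left _ _).trans ?_
    split_ifs
    · exact hj x
    · exact Nat.zero_le _
  rw [h1, card_filter_fin (fun _ => 0) (fun x => min (ew j S x) (ew j' S' x)) h2]
  simp

/-- The label. -/
noncomputable def lab (σ : Prio (X × Fin H)) (j : X → ℕ) (S : Finset X)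
    (h : (act H j S).Nonempty) : X := (top σ (act H j S) h).1


/-- **Relabelling/cut bound** (Jaccard): the probability that two labels differ is at most
`Σ |w - w'| / Σ max w w'` for the effective weights. -/
theorem pr_lab_ne_le (j j' : X → ℕ) (hj : ∀ x, j x ≤ H) (hj' : ∀ x, j' x ≤ H)
    (S S' : Finset X) (h : (act H j S).Nonempty) (h' : (act H j' S').Nonempty) :
    pr (fun σ : Prio (X × Fin H) => lab σ j S h ≠ lab σ j' S' h') ≤
      (∑ x, |(ew j S x : ℝ) - ew j' S' x|) / ∑ x, max (ew j S x : ℝ) (ew j' S' x) := by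
  have h1 : pr (fun σ : Prio (X × Fin H) => lab σ j S h ≠ lab σ j' S' h') ≤
      pr (fun σ : Prio (X × Fin H) => top σ (act H j S) h ≠ top σ (act H j' S') h') := by
    apply pr_mono
    intro σ hne heq
    exact hne (by unfold lab; rw [heq])
  refine h1.trans ((pr_top_ne_le _ _ h h').trans (le_of_eq ?_))
  have hU := card_union_act (H := H) j j' hj hj' S S'
  have hI := card_inter_act (H := H) j j' hj S S'
  have hs : (symmDiff (act H j S) (act H j' S')).card + (act H j S ∩ act H j' S').card =
      (act H j S ∪ act H j' S').card := by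
    rw [← card_union_of_disjoint]
    · congr 1
      ext a
      rw [mem_union, mem_symmDiff, mem_inter, mem_union]
      tauto
    · rw [disjoint_left]
      intro a ha hb
      rw [mem_symmDiff] at ha
      rw [mem_inter] at hb
      tauto
  have e1 : ((act H j S ∪ act H j' S').card : ℝ) = ∑ x, max (ew j S x : ℝ) (ew j' S' x) := by
    rw [hU]; push_cast; rfl
  have e2 : ((symmDiff (act H j S) (act H j' S')).card : ℝ) =
      ∑ x, |(ew j S x : ℝ) - ew j' S' x| := by
    have h3 : ((symmDiff (act H j S) (act H j' S')).card : ℝ) =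
        ∑ x, max (ew j S x : ℝ) (ew j' S' x) - ∑ x, min (ew j S x : ℝ) (ew j' S' x) := by
      rw [← e1]
      have : ((symmDiff (act H j S) (act H j' S')).card : ℝ) + (act H j S ∩ act H j' S').card =
          (act H j S ∪ act H j' S').card := by exact_mod_cast hs
      have h4 : ((act H j S ∩ act H j' S').card : ℝ) =
          ∑ x, min (ew j S x : ℝ) (ew j' S' x) := by
        rw [hI]; push_cast; rfl
      rw [← h4]; linarith
    rw [h3, ← sum_sub_distrib]
    exact sum_congr rfl fun x _ => max_sub_min_eq_abs' _ _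
  rw [e1, e2]

end Crest.Agent.R314.Mh
end

-- ▼ part R314/Mh3

/-!
R314, block G2: uniform expectations on finite products, the law of the radius
(`max` of two uniform indices: density vanishing linearly at the inner edge), shift lemmas.
-/

set_option autoImplicit false
set_option linter.unusedSectionVars false

namespace Crest.Agent.R314.Mh

open Finset
open scoped BigOperators

section expect
variable {Ω Θ : Type*} [Fintype Ω] [Fintype Θ]

theorem pr_eq_expect (P : Ω → Prop) [DecidablePred P] :
    pr P = 𝔼 ω, if P ω then (1 : ℝ) else 0 := by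
  classical
  rw [Fintype.expect_eq_sum_div_card]
  unfold pr
  rw [Finset.sum_boole]
  congr!





end expect


/-- The index of the radius. -/
def mx {N : ℕ} (p : Fin N × Fin N) : ℕ := max (p.1 : ℕ) (p.2 : ℕ)



theorem sum_odd (n : ℕ) : ∑ s ∈ range n, (2 * (s : ℝ) + 1) = (n : ℝ) ^ 2 := by
  induction n with
  | zero => simp
  | succ n ih => rw [sum_range_succ, ih]; push_cast; ring


/-- **Shift lemma 1.** -/
theorem shift_one (N l : ℕ) (h : ℕ → ℝ) (h0 : ∀ t, 0 ≤ h t) :
    ∑ s ∈ range N, (2 * (s : ℝ) + 1) * (h s - h (s + l)) ≤ 2 * l * ∑ t ∈ range N, h t := by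
  have e1 : ∑ s ∈ range N, (2 * (s : ℝ) + 1) * (h s - h (s + l)) =
      ∑ s ∈ range N, (2 * (s : ℝ) + 1) * h s - ∑ s ∈ range N, (2 * (s : ℝ) + 1) * h (s + l) := by
    rw [← sum_sub_distrib]; exact sum_congr rfl fun s _ => by ring
  have e2 : ∑ t ∈ range N, (2 * ((t : ℝ) - l) + 1) * (if l ≤ t then h t else 0) ≤
      ∑ s ∈ range N, (2 * (s : ℝ) + 1) * h (s + l) := by
    have e3 : ∑ s ∈ range N, (2 * (s : ℝ) + 1) * h (s + l) =
        ∑ t ∈ Ico l (N + l), (2 * ((t : ℝ) - l) + 1) * h t := by
      rw [sum_Ico_eq_sum_range]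
      rw [Nat.add_sub_cancel]
      apply sum_congr rfl
      intro s _
      rw [add_comm l s]
      push_cast
      ring
    rw [e3]
    have e4 : ∑ t ∈ range N, (2 * ((t : ℝ) - l) + 1) * (if l ≤ t then h t else 0) =
        ∑ t ∈ (range N).filter (fun t => l ≤ t), (2 * ((t : ℝ) - l) + 1) * h t := by
      rw [sum_filter]
      apply sum_congr rfl
      intro t _
      split_ifs <;> simp
    rw [e4]
    apply sum_le_sum_of_subset_of_nonneg
    · intro t ht
      rw [mem_filter, mem_range] at ht
      rw [mem_Ico]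
      omega
    · intro t ht _
      rw [mem_Ico] at ht
      have : (l : ℝ) ≤ t := by exact_mod_cast ht.1
      have := h0 t
      apply mul_nonneg _ this
      linarith
  rw [e1]
  have e5 : ∑ s ∈ range N, (2 * (s : ℝ) + 1) * h s -
      ∑ t ∈ range N, (2 * ((t : ℝ) - l) + 1) * (if l ≤ t then h t else 0) ≤
      2 * l * ∑ t ∈ range N, h t := by
    rw [← sum_sub_distrib, mul_sum]
    apply sum_le_sum
    intro t _
    have ht := h0 t
    by_cases hl : l ≤ t
    · rw [if_pos hl]
      linarith
    · rw [if_neg hl, mul_zero, sub_zero]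
      apply mul_le_mul_of_nonneg_right _ ht
      have : (t : ℝ) + 1 ≤ l := by exact_mod_cast (not_le.1 hl)
      linarith
  linarith

/-- **Shift lemma 2.** -/
theorem shift_two (N l : ℕ) (hl : l ≤ N) (h c : ℕ → ℝ) (h0 : ∀ t, 0 ≤ h t)
    (hc1 : ∀ s, c s ≤ 1) (hc : ∀ t, t + l < N → c (t + l) ≤ h t - h (t + 2 * l)) :
    ∑ s ∈ range N, (2 * (s : ℝ) + 1) * c s ≤
      (l : ℝ) ^ 2 + 6 * l * ∑ t ∈ range (N - l), h t := by
  have e1 : ∑ s ∈ range N, (2 * (s : ℝ) + 1) * c s =
      ∑ s ∈ range l, (2 * (s : ℝ) + 1) * c s +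
        ∑ t ∈ range (N - l), (2 * ((t : ℝ) + l) + 1) * c (t + l) := by
    rw [← sum_range_add_sum_Ico _ hl, sum_Ico_eq_sum_range]
    congr 1
    apply sum_congr rfl
    intro s _
    rw [add_comm l s]
    push_cast
    ring
  have e2 : ∑ s ∈ range l, (2 * (s : ℝ) + 1) * c s ≤ (l : ℝ) ^ 2 := by
    rw [← sum_odd l]
    apply sum_le_sum
    intro s _
    have := hc1 s
    have h2 : (0 : ℝ) ≤ 2 * (s : ℝ) + 1 := by positivity
    nlinarith
  have e3 : ∑ t ∈ range (N - l), (2 * ((t : ℝ) + l) + 1) * c (t + l) ≤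
      ∑ t ∈ range (N - l), ((2 * (t : ℝ) + 1) * (h t - h (t + 2 * l)) + 2 * l * h t) := by
    apply sum_le_sum
    intro t ht
    rw [mem_range] at ht
    have h1 := hc t (by omega)
    have h2 : (0 : ℝ) ≤ 2 * ((t : ℝ) + l) + 1 := by positivity
    have h3 : (0 : ℝ) ≤ l := by positivity
    have h4 := h0 (t + 2 * l)
    calc (2 * ((t : ℝ) + l) + 1) * c (t + l) ≤ (2 * ((t : ℝ) + l) + 1) * (h t - h (t + 2 * l)) :=
          mul_le_mul_of_nonneg_left h1 h2
      _ = (2 * (t : ℝ) + 1) * (h t - h (t + 2 * l)) + 2 * l * h t - 2 * l * h (t + 2 * l) := by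
          ring
      _ ≤ _ := by nlinarith
  have e4 := shift_one (N - l) (2 * l) h h0
  rw [sum_add_distrib, ← mul_sum] at e3
  rw [e1]
  push_cast at e4
  nlinarith [e2, e3, e4]

end Crest.Agent.R314.Mh
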