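import Mathlib
import Crest.Agent.R314.G1_A2
import Crest.Agent.R314.G1_B4
import Crest.Agent.R314.G1_R

-- ▼ part R314/G1_M
section

/-!
R314, module G (one scale), part M: existence of the minimiser (helper435).
-/

set_option autoImplicit false
set_option linter.unusedSectionVars false

namespace Crest.Agent.R314.G1

open Finset

variable {Y : Type*} [Fintype Y] [DecidableEq Y] (M : IM Y)

namespace IM

theorem continuous_bm (y : Y) (r : ℝ) : Continuous fun w : Y → ℝ => M.bm w y r := by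
  unfold bm
  refine continuous_finsetSum _ fun z _ => ?_
  split_ifs
  · exact continuous_apply z
  · exact continuous_const

theorem continuous_fl (z : Y) : Continuous fun w : Y → ℝ => fl w z := by
  unfold fl
  exact (continuous_apply z).add continuous_const

theorem continuous_W (y : Y) (r : ℝ) : Continuous fun w : Y → ℝ => M.W w y r := by
  unfold W bm
  refine continuous_finsetSum _ fun z _ => ?_
  split_ifs
  · exact continuous_fl z
  · exact continuous_const

/-- the admissible pairs `(β, w)` for a given set of mains -/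
def K (P : Finset Y) : Set ((Y → ℝ) × (Y → ℝ)) := {t | Ok M ⟨P, t.1, t.2⟩}

theorem K_closed (P : Finset Y) : IsClosed (M.K P) := by
  have h : M.K P = (⋂ x, {t : (Y → ℝ) × (Y → ℝ) | 0 ≤ t.1 x}) ∩ (⋂ x, {t | t.1 x ≤ 1}) ∩
      (⋂ x, {t | 0 ≤ t.2 x}) ∩ (⋂ y, {t | M.bm t.2 y 1 ≤ 1}) ∩
      (⋂ p ∈ P, ⋂ q ∈ P, ⋂ (_ : p ≠ q), {t | 42 ≤ M.d p q + t.1 p + t.1 q}) := by
    ext t
    simp only [K, Set.mem_ofPred_eq, Set.mem_inter_iff, Set.mem_iInter]
    constructor
    · intro h
      exact ⟨⟨⟨⟨h.β0, h.β1⟩, h.w0⟩, h.pack⟩, h.sep⟩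
    · rintro ⟨⟨⟨⟨h1, h2⟩, h3⟩, h4⟩, h5⟩
      exact ⟨h1, h2, h3, h4, h5⟩
  rw [h]
  have c1 : ∀ x : Y, Continuous fun t : (Y → ℝ) × (Y → ℝ) => t.1 x := fun x =>
    (continuous_apply x).comp continuous_fst
  have c2 : ∀ x : Y, Continuous fun t : (Y → ℝ) × (Y → ℝ) => t.2 x := fun x =>
    (continuous_apply x).comp continuous_snd
  refine IsClosed.inter (IsClosed.inter (IsClosed.inter (IsClosed.inter ?_ ?_) ?_) ?_) ?_
  · exact isClosed_iInter fun x => isClosed_le continuous_const (c1 x)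
  · exact isClosed_iInter fun x => isClosed_le (c1 x) continuous_const
  · exact isClosed_iInter fun x => isClosed_le continuous_const (c2 x)
  · exact isClosed_iInter fun y =>
      isClosed_le ((M.continuous_bm y 1).comp continuous_snd) continuous_const
  · exact isClosed_iInter fun p => isClosed_iInter fun _ => isClosed_iInter fun q =>
      isClosed_iInter fun _ => isClosed_iInter fun _ =>
        isClosed_le continuous_const ((continuous_const.add (c1 p)).add (c1 q))

theorem w_le_one {w : Y → ℝ} (hw : ∀ x, 0 ≤ w x) (hp : ∀ y, M.bm w y 1 ≤ 1) (x : Y) : w x ≤ 1 :=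
  (M.le_bm hw (by rw [M.d_self]; norm_num)).trans (hp x)

theorem K_compact (P : Finset Y) : IsCompact (M.K P) := by
  have h : M.K P ⊆ Set.Icc (0 : (Y → ℝ) × (Y → ℝ)) 1 := by
    intro t ht
    constructor
    · exact ⟨fun x => ht.β0 x, fun x => ht.w0 x⟩
    · exact ⟨fun x => ht.β1 x, fun x => M.w_le_one ht.w0 ht.pack x⟩
  exact isCompact_Icc.of_isClosed_subset (M.K_closed P) h

theorem continuousOn_psi (P : Finset Y) (x : Y) (i : ℕ) :
    ContinuousOn (fun t : (Y → ℝ) × (Y → ℝ) => M.psi t.2 x i) (M.K P) := by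
  unfold psi
  apply ContinuousOn.log
  · apply ContinuousOn.div continuousOn_const
    · exact ((M.continuous_W x _).comp continuous_snd).continuousOn
    · intro t ht
      exact (M.W_pos ht.w0 x (M.rad_nonneg i)).ne'
  · intro t ht
    have := M.W_pos ht.w0 x (M.rad_nonneg i)
    positivity

theorem continuousOn_E {X : Type*} [TopologicalSpace X] {s : Set X} {f : X → ℕ → ℝ}
    (h : ∀ i, ContinuousOn (fun t => f t i) s) : ContinuousOn (fun t => M.E (f t)) s := by
  unfold E
  apply ContinuousOn.div_const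
  exact continuousOn_finsetSum _ fun i _ => continuousOn_const.mul (h i)

theorem continuousOn_lam (P : Finset Y) (x z : Y) :
    ContinuousOn (fun t : (Y → ℝ) × (Y → ℝ) => M.lam t.2 x z) (M.K P) := by
  unfold lam
  apply M.continuousOn_E
  intro i
  unfold lam1
  split_ifs
  · apply ContinuousOn.div
    · exact ((continuous_fl z).comp continuous_snd).continuousOn
    · exact ((M.continuous_W x _).comp continuous_snd).continuousOn
    · intro t ht
      exact (M.W_pos ht.w0 x (M.rad_nonneg i)).ne'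
  · exact continuousOn_const

theorem continuousOn_U (P : Finset Y) (x : Y) :
    ContinuousOn (fun t : (Y → ℝ) × (Y → ℝ) => M.U ⟨P, t.1, t.2⟩ x) (M.K P) := by
  have h1 : ContinuousOn (fun t : (Y → ℝ) × (Y → ℝ) => M.bt ⟨P, t.1, t.2⟩ x) (M.K P) := by
    unfold bt
    refine (continuous_finsetSum _ fun p _ => ?_).continuousOn
    exact ((continuous_apply p).comp continuous_fst).mul continuous_const
  have h2 : ContinuousOn (fun t : (Y → ℝ) × (Y → ℝ) => M.L t.2 x) (M.K P) := by
    unfold L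
    exact ContinuousOn.mul (f := fun _ => (16 : ℝ)) continuousOn_const
      (M.continuousOn_E fun i => M.continuousOn_psi P x i)
  exact ContinuousOn.add (f := fun t : (Y → ℝ) × (Y → ℝ) =>
      20 * qf (M.u P x) + 90 * M.bt ⟨P, t.1, t.2⟩ x)
    (ContinuousOn.add (f := fun _ => 20 * qf (M.u P x)) continuousOn_const
      (ContinuousOn.mul (f := fun _ => (90 : ℝ)) continuousOn_const h1))
    (ContinuousOn.mul (f := fun _ => zf (M.u P x)) continuousOn_const h2)

theorem continuousOn_nrm (P : Finset Y) (S₀ : St Y) (x : Y) :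
    ContinuousOn (fun t : (Y → ℝ) × (Y → ℝ) => M.nrm S₀ x ⟨P, t.1, t.2⟩ x) (M.K P) := by
  unfold nrm
  refine continuousOn_finsetSum _ fun o _ => ?_
  apply ContinuousOn.abs
  apply ContinuousOn.sub continuousOn_const
  cases o with
  | none =>
    exact (continuousOn_const (c := 1 - tf (M.u P x)) : ContinuousOn
      (fun _ : (Y → ℝ) × (Y → ℝ) => 1 - tf (M.u P x)) (M.K P))
  | some z =>
    exact ContinuousOn.mul (f := fun _ => tf (M.u P x)) continuousOn_const
      (M.continuousOn_lam P x z)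

/-- the empty state -/
def St0 : St Y := ⟨∅, 0, 0⟩

theorem ok_St0 : Ok M (St0 : St Y) where
  β0 := fun _ => le_rfl
  β1 := fun _ => zero_le_one
  w0 := fun _ => le_rfl
  pack := fun y => by simp [St0, bm]
  sep := fun p hp => by simp [St0] at hp

/-- **Existence of the lazy minimiser.** -/
theorem exists_stable {m : Y → ℝ} (hm : ∀ x, 0 ≤ m x) {S₀ : St Y} (h₀ : Ok M S₀) :
    ∃ S, M.Stable m S ∧ ∑ x, m x * (M.U S x + M.nrm S₀ x S x) ≤ ∑ x, m x * M.U S₀ x := by
  classical
  let F : St Y → ℝ := fun S => ∑ x, m x * (M.U S x + M.nrm S₀ x S x)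
  -- minimiser for each `P`
  have h1 : ∀ P : Finset Y, (M.K P).Nonempty → ∃ t ∈ M.K P, ∀ t' ∈ M.K P,
      F ⟨P, t.1, t.2⟩ ≤ F ⟨P, t'.1, t'.2⟩ := by
    intro P hP
    obtain ⟨t, ht, hmin⟩ := (M.K_compact P).exists_isMinOn hP
      (f := fun t => F ⟨P, t.1, t.2⟩) (continuousOn_finsetSum _ fun x _ =>
        continuousOn_const.mul ((M.continuousOn_U P x).add (M.continuousOn_nrm P S₀ x)))
    exact ⟨t, ht, fun t' ht' => hmin ht'⟩
  -- global minimiser
  have h2 : ∃ S, Ok M S ∧ ∀ S', Ok M S' → F S ≤ F S' := by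
    let good : Finset (Finset Y) := univ.filter fun P => (M.K P).Nonempty
    have hgood : good.Nonempty := ⟨∅, by
      simp only [good, mem_filter, mem_univ, true_and]
      exact ⟨(0, 0), M.ok_St0⟩⟩
    choose! t ht hmin using h1
    obtain ⟨P, hP, hPmin⟩ := good.exists_min_image (fun P => F ⟨P, (t P).1, (t P).2⟩) hgood
    have hP' : (M.K P).Nonempty := by simpa [good] using hP
    refine ⟨⟨P, (t P).1, (t P).2⟩, ht P hP', fun S' hS' => ?_⟩
    have hne : (M.K S'.P).Nonempty := ⟨(S'.β, S'.w), hS'⟩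
    exact (hPmin S'.P (by simp [good, hne])).trans (hmin S'.P hne (S'.β, S'.w) hS')
  obtain ⟨S, hS, hmin⟩ := h2
  refine ⟨S, ⟨hS, fun S' hS' => ?_⟩, ?_⟩
  · have h3 := hmin S' hS'
    have h4 : F S' - F S ≤ M.D m S S' := by
      simp only [F, D, ← sum_sub_distrib]
      apply sum_le_sum
      intro x _
      rw [← mul_sub]
      apply mul_le_mul_of_nonneg_left _ (hm x)
      have := M.nrm_tri S₀ S S' x x x
      linarith
    linarith
  · have h3 := hmin S₀ h₀
    simpa [F, M.nrm_self] using h3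

end IM

end Crest.Agent.R314.G1
end

-- ▼ part R314/G1_G0

/-!
R314, module G (one scale), part G0: the easy parts of the final statement (helper435):
price of `Op(y,a)`, crude slope, growth at a nontrivial point.
-/

set_option autoImplicit false
set_option linter.unusedSectionVars false

namespace Crest.Agent.R314.G1

open Finset

variable {Y : Type*} [Fintype Y] [DecidableEq Y] (M : IM Y)

namespace IM

/-- (GB) crude slope after the operation -/
theorem geo_crude {S : St Y} (hS : Ok M S) {a : ℝ} (ha0 : 0 < a) (ha1 : a ≤ 1 / 2) (y x : Y) :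
    M.U ⟨S.P, S.β, M.op S.w y a⟩ y - M.U ⟨S.P, S.β, M.op S.w y a⟩ x +
      M.nrm ⟨S.P, S.β, M.op S.w y a⟩ y ⟨S.P, S.β, M.op S.w y a⟩ x ≤
      112 + 16 * Real.log (2 / a) := by
  have hS' : Ok M ⟨S.P, S.β, M.op S.w y a⟩ := M.op_Ok hS ha0.le (by linarith) y
  have h1 := M.U_nonneg hS' x
  have h2 := M.nrm_le_two hS'.w0 hS'.w0 y x
  have h3 : M.U ⟨S.P, S.β, M.op S.w y a⟩ y ≤ 110 + 16 * Real.log (2 / a) := by
    unfold U
    have e1 := qf_le_one (M.u S.P y)
    have e2 := M.bt_le_one hS' y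
    have e3 := zf_nonneg (M.u S.P y)
    have e4 := zf_le_one (M.u S.P y)
    have e5 := M.L_nonneg hS'.w0 hS'.pack y
    have e6 := M.op_L_le hS.w0 ha0 (by linarith) (x₀ := y) (x := y) (by rw [M.d_self]; norm_num)
    simp only at e5 ⊢
    nlinarith
  linarith

/-- (GC) price of the operation `Op(y,a)`: for every measure -/
theorem geo_D_op_le {m : Y → ℝ} (hm : ∀ x, 0 ≤ m x) {S : St Y} (hS : Ok M S) {a : ℝ} (ha0 : 0 ≤ a)
    (ha1 : a ≤ 1 / 2) (y : Y) :
    M.D m S ⟨S.P, S.β, M.op S.w y a⟩ ≤ 34 * a * ∑ x, m x := by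
  have hS' : Ok M ⟨S.P, S.β, M.op S.w y a⟩ := M.op_Ok hS ha0 (by linarith) y
  unfold D
  rw [mul_sum]
  apply sum_le_sum
  intro x _
  rw [mul_comm (34 * a)]
  apply mul_le_mul_of_nonneg_left _ (hm x)
  have h1 := M.nrm_le hS.w0 hS'.w0 x x
  simp only [sub_self, abs_zero, mul_zero, zero_add, min_self] at h1
  have h2 := M.op_price_le hS.w0 hS.pack ha0 ha1 y x
  have h3 : M.U ⟨S.P, S.β, M.op S.w y a⟩ x - M.U S x =
      zf (M.u S.P x) * (M.L (M.op S.w y a) x - M.L S.w x) := by
    unfold U bt; ring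
  rw [h3]
  have e3 := zf_nonneg (M.u S.P x)
  have e4 := zf_le_one (M.u S.P x)
  have e5 := tf_le_zf (M.u S.P x)
  have e6 : 0 ≤ ∑ z, |M.lam S.w x z - M.lam (M.op S.w y a) x z| :=
    sum_nonneg fun _ _ => abs_nonneg _
  have e7 : tf (M.u S.P x) * ∑ z, |M.lam S.w x z - M.lam (M.op S.w y a) x z| ≤
      zf (M.u S.P x) * ∑ z, |M.lam S.w x z - M.lam (M.op S.w y a) x z| :=
    mul_le_mul_of_nonneg_right e5 e6
  have e8 : zf (M.u S.P x) * (M.L (M.op S.w y a) x - M.L S.w x +
      ∑ z, |M.lam S.w x z - M.lam (M.op S.w y a) x z|) ≤ zf (M.u S.P x) * (34 * a) :=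
    mul_le_mul_of_nonneg_left h2 e3
  have e9 : zf (M.u S.P x) * (34 * a) ≤ 1 * (34 * a) :=
    mul_le_mul_of_nonneg_right e4 (by linarith)
  nlinarith

/-- growth at a nontrivial point -/
theorem GamR_ge_of_nontrivial {m : Y → ℝ} (hm : ∀ x, 0 ≤ m x) {y : Y} {r : ℝ} (hr : r ≤ 1 / 1024)
    (hy : 0 < M.bm m y r)
    (hn : (1 + 1 / 1000) * M.bm m y (1 / 1024) < M.bm m y 60) :
    1 / 1024 * Real.log (1 + 1 / 1000) ≤ M.GamR m y r := by
  have hJ := M.Jr
  have hl : 0 < Real.log (1 + 1 / 1000) := Real.log_pos (by norm_num)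
  unfold GamR
  -- every term is nonnegative, those with `s / (2J) ≤ 1/1024` are at least the logarithm
  have hpos : ∀ σ : ℝ, r ≤ σ → 0 < M.bm m y σ := fun σ h => hy.trans_le (M.bm_mono_r hm y h)
  have hnn : ∀ s ∈ range (2 * M.J),
      0 ≤ Real.log (M.bm m y 60 / M.bm m y (max ((s : ℝ) / (2 * M.J)) r)) := by
    intro s hs
    have h1 := hpos _ (le_max_right ((s : ℝ) / (2 * M.J)) r)
    apply Real.log_nonneg
    rw [le_div_iff₀ h1, one_mul]
    apply M.bm_mono_r hm
    apply max_le _ (by linarith)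
    rw [div_le_iff₀ (by positivity)]
    have h2 : ((s : ℕ) : ℝ) ≤ (2 * M.J : ℕ) := by exact_mod_cast (mem_range.1 hs).le
    push_cast at h2
    nlinarith
  have hbig : ∀ s ∈ (range (2 * M.J)).filter (fun s : ℕ => (s : ℝ) / (2 * M.J) ≤ 1 / 1024),
      Real.log (1 + 1 / 1000) ≤
        Real.log (M.bm m y 60 / M.bm m y (max ((s : ℝ) / (2 * M.J)) r)) := by
    intro s hs
    rw [mem_filter] at hs
    have h1 := hpos _ (le_max_right ((s : ℝ) / (2 * M.J)) r)
    apply Real.log_le_log (by norm_num)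
    rw [le_div_iff₀ h1]
    have h2 : M.bm m y (max ((s : ℝ) / (2 * M.J)) r) ≤ M.bm m y (1 / 1024) :=
      M.bm_mono_r hm y (max_le hs.2 hr)
    nlinarith
  have hcard : (2 * M.J : ℝ) / 1024 ≤
      (((range (2 * M.J)).filter (fun s : ℕ => (s : ℝ) / (2 * M.J) ≤ 1 / 1024)).card : ℝ) := by
    have hsub : range (Nat.ceil ((2 * M.J : ℝ) / 1024)) ⊆
        (range (2 * M.J)).filter (fun s : ℕ => (s : ℝ) / (2 * M.J) ≤ 1 / 1024) := by
      intro s hs
      rw [mem_range, Nat.lt_ceil] at hs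
      rw [mem_filter, mem_range]
      constructor
      · have h2 : (s : ℝ) < (2 * M.J : ℕ) := by push_cast; linarith
        exact_mod_cast h2
      · rw [div_le_iff₀ (by positivity)]; linarith
    have h1 := card_le_card hsub
    rw [card_range] at h1
    calc _ ≤ (Nat.ceil ((2 * M.J : ℝ) / 1024) : ℝ) := Nat.le_ceil _
      _ ≤ _ := by exact_mod_cast h1
  rw [le_div_iff₀ (by positivity)]
  calc _ = (2 * M.J : ℝ) / 1024 * Real.log (1 + 1 / 1000) := by ring
    _ ≤ (((range (2 * M.J)).filter (fun s : ℕ => (s : ℝ) / (2 * M.J) ≤ 1 / 1024)).card : ℝ) *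
        Real.log (1 + 1 / 1000) := mul_le_mul_of_nonneg_right hcard hl.le
    _ = ∑ s ∈ (range (2 * M.J)).filter (fun s : ℕ => (s : ℝ) / (2 * M.J) ≤ 1 / 1024),
        Real.log (1 + 1 / 1000) := by rw [sum_const, nsmul_eq_mul]
    _ ≤ ∑ s ∈ (range (2 * M.J)).filter (fun s : ℕ => (s : ℝ) / (2 * M.J) ≤ 1 / 1024),
        Real.log (M.bm m y 60 / M.bm m y (max ((s : ℝ) / (2 * M.J)) r)) := sum_le_sum hbig
    _ ≤ _ := sum_le_sum_of_subset_of_nonneg (filter_subset _ _) fun s hs _ => hnn s hs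

end IM

end Crest.Agent.R314.G1
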