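import Mathlib
import Crest.Agent.R314.Mh3
import Crest.Agent.R314.Bay2
import Crest.Agent.R314.GOut
import Crest.Agent.R314.G1_F
import Crest.Agent.R314.GOa1
import Crest.Agent.R314.G1_G0

-- ▼ part R314/Mh4
section

/-!
R314, block G2 (fractional labels, helper435 #8508): every location carries a probability vector
`π : Y → ℝ`; one uniformly random priority turns all vectors into labels `flab σ π` such that
`P (flab σ π ≠ flab σ π') ≤ |π - π'|₁ + |Y| / n` for all pairs at once.  For a finite weighted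
family of pairs the priority can be fixed (`exists_labels`).
-/

set_option autoImplicit false
set_option linter.unusedSectionVars false

namespace Crest.Agent.R314.Mh

open Finset
open scoped BigOperators

variable {Y : Type*} [Fintype Y] [DecidableEq Y]

/-- Probability vectors. -/
structure IsPV (π : Y → ℝ) : Prop where
  nonneg : ∀ y, 0 ≤ π y
  sum_eq : ∑ y, π y = 1

theorem IsPV.le_one {π : Y → ℝ} (h : IsPV π) (y : Y) : π y ≤ 1 := by
  rw [← h.sum_eq]
  exact single_le_sum (fun z _ => h.nonneg z) (mem_univ y)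

/-- Number of atoms. -/
noncomputable def cnt (n : ℕ) (π : Y → ℝ) (y : Y) : ℕ := min n ⌈n * π y⌉₊

theorem cnt_le (n : ℕ) (π : Y → ℝ) (y : Y) : cnt n π y ≤ n := min_le_left _ _

theorem IsPV.cnt_eq {π : Y → ℝ} (h : IsPV π) (n : ℕ) (y : Y) : cnt n π y = ⌈n * π y⌉₊ := by
  unfold cnt
  apply min_eq_right
  rw [Nat.ceil_le]
  calc (n : ℝ) * π y ≤ n * 1 := mul_le_mul_of_nonneg_left (h.le_one y) (Nat.cast_nonneg n)
    _ = n := mul_one _

theorem IsPV.le_sum_cnt {π : Y → ℝ} (h : IsPV π) (n : ℕ) : (n : ℝ) ≤ ∑ y, (cnt n π y : ℝ) := by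
  calc (n : ℝ) = ∑ y, n * π y := by rw [← mul_sum, h.sum_eq, mul_one]
    _ ≤ _ := sum_le_sum fun y _ => by rw [h.cnt_eq]; exact Nat.le_ceil _

theorem IsPV.act_nonempty {π : Y → ℝ} (h : IsPV π) {n : ℕ} (hn : 0 < n) :
    (act n (cnt n π) univ).Nonempty := by
  rw [← card_pos, card_act _ (cnt_le n π)]
  have := h.le_sum_cnt n
  have h1 : (0 : ℝ) < ∑ y, (cnt n π y : ℝ) := lt_of_lt_of_le (by exact_mod_cast hn) this
  exact_mod_cast h1

open Classical in
/-- The label of the vector `π` for the priority `σ`. -/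
noncomputable def flab [Nonempty Y] (n : ℕ) (σ : Prio (Y × Fin n)) (π : Y → ℝ) : Y :=
  if h : (act n (cnt n π) univ).Nonempty then lab σ (cnt n π) univ h else Classical.arbitrary Y

theorem IsPV.flab_eq [Nonempty Y] {π : Y → ℝ} (h : IsPV π) {n : ℕ} (hn : 0 < n)
    (σ : Prio (Y × Fin n)) :
    flab n σ π = lab σ (cnt n π) univ (h.act_nonempty hn) := by
  unfold flab; rw [dif_pos (h.act_nonempty hn)]

theorem IsPV.flab_pos [Nonempty Y] {π : Y → ℝ} (h : IsPV π) {n : ℕ} (hn : 0 < n)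
    (σ : Prio (Y × Fin n)) : 0 < π (flab n σ π) := by
  rw [h.flab_eq hn]
  have h1 := (mem_act.1 (top_mem σ _ (h.act_nonempty hn))).2
  change _ < cnt n π (lab σ (cnt n π) univ (h.act_nonempty hn)) at h1
  rw [h.cnt_eq, Nat.lt_ceil] at h1
  by_contra hcon
  push Not at hcon
  have : (n : ℝ) * π (lab σ (cnt n π) univ (h.act_nonempty hn)) ≤ 0 :=
    mul_nonpos_of_nonneg_of_nonpos (Nat.cast_nonneg _) hcon
  have h2 : (0 : ℝ) ≤ ((top σ _ (h.act_nonempty hn)).2 : ℕ) := Nat.cast_nonneg _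
  linarith

theorem abs_ceil_sub (a b : ℝ) (ha : 0 ≤ a) (hb : 0 ≤ b) :
    |(⌈a⌉₊ : ℝ) - ⌈b⌉₊| ≤ |a - b| + 1 := by
  have h1 := Nat.le_ceil a
  have h2 := Nat.le_ceil b
  have h3 := (Nat.ceil_lt_add_one ha).le
  have h4 := (Nat.ceil_lt_add_one hb).le
  have h5 := le_abs_self (a - b)
  have h6 := neg_abs_le (a - b)
  rw [abs_le]
  constructor <;> linarith

/-- **Fractional labels**: total variation bound for all pairs. -/
theorem pr_flab_ne_le [Nonempty Y] {π π' : Y → ℝ} (h : IsPV π) (h' : IsPV π') {n : ℕ}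
    (hn : 0 < n) :
    pr (fun σ : Prio (Y × Fin n) => flab n σ π ≠ flab n σ π') ≤
      ∑ y, |π y - π' y| + (Fintype.card Y : ℝ) / n := by
  have hn' : (0 : ℝ) < n := by exact_mod_cast hn
  have h1 := pr_lab_ne_le (H := n) (cnt n π) (cnt n π') (cnt_le n π) (cnt_le n π') univ univ
    (h.act_nonempty hn) (h'.act_nonempty hn)
  have e : (fun σ : Prio (Y × Fin n) => flab n σ π ≠ flab n σ π') =
      fun σ => lab σ (cnt n π) univ (h.act_nonempty hn) ≠
        lab σ (cnt n π') univ (h'.act_nonempty hn) := by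
    funext σ; rw [h.flab_eq hn, h'.flab_eq hn]
  rw [e]
  refine h1.trans ?_
  have hew : ∀ (j : Y → ℕ) (x : Y), ew j univ x = j x := fun j x => by simp [ew]
  simp only [hew]
  have hU : (n : ℝ) ≤ ∑ y, max (cnt n π y : ℝ) (cnt n π' y) :=
    (h.le_sum_cnt n).trans (sum_le_sum fun y _ => le_max_left _ _)
  have hN : ∑ y, |(cnt n π y : ℝ) - cnt n π' y| ≤ n * ∑ y, |π y - π' y| + Fintype.card Y := by
    calc ∑ y, |(cnt n π y : ℝ) - cnt n π' y| ≤ ∑ y, (n * |π y - π' y| + 1) := by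
          apply sum_le_sum
          intro y _
          rw [h.cnt_eq, h'.cnt_eq]
          refine (abs_ceil_sub _ _ (mul_nonneg hn'.le (h.nonneg y))
            (mul_nonneg hn'.le (h'.nonneg y))).trans (le_of_eq ?_)
          rw [← mul_sub, abs_mul, abs_of_pos hn']
      _ = _ := by
          rw [sum_add_distrib, ← mul_sum, sum_const, card_univ, nsmul_eq_mul, mul_one]
  calc (∑ y, |(cnt n π y : ℝ) - cnt n π' y|) / ∑ y, max (cnt n π y : ℝ) (cnt n π' y)
      ≤ (n * ∑ y, |π y - π' y| + Fintype.card Y) / n := by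
        apply div_le_div₀ _ hN hn' hU
        positivity
    _ = _ := by field_simp

/-- If the average of `f` is at most `c`, some value is. -/
theorem exists_le_of_expect_le {Ω : Type*} [Fintype Ω] [Nonempty Ω] (f : Ω → ℝ) {c : ℝ}
    (h : 𝔼 ω, f ω ≤ c) : ∃ ω, f ω ≤ c := by
  by_contra hcon
  push Not at hcon
  have h1 : (Fintype.card Ω : ℝ) * c < ∑ ω, f ω := by
    calc (Fintype.card Ω : ℝ) * c = ∑ _ω : Ω, c := by
          rw [sum_const, card_univ, nsmul_eq_mul]
      _ < _ := sum_lt_sum_of_nonempty univ_nonempty fun ω _ => hcon ω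
  rw [Fintype.expect_eq_sum_div_card] at h
  have h2 : (0 : ℝ) < Fintype.card Ω := by exact_mod_cast Fintype.card_pos
  rw [div_le_iff₀ h2] at h
  linarith

/-- **Derandomised labels** (block G2). For a finite family of pairs of probability vectors with
weights `c i ≥ 0` there is one labelling rule whose weighted number of separated pairs is at most
the weighted `ℓ¹` distance, up to `ε`. -/
theorem exists_labels [Nonempty Y] {ι : Type*} (s : Finset ι) (c : ι → ℝ)
    (hc : ∀ i ∈ s, 0 ≤ c i) (π π' : ι → Y → ℝ) (hπ : ∀ i ∈ s, IsPV (π i))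
    (hπ' : ∀ i ∈ s, IsPV (π' i)) {ε : ℝ} (hε : 0 < ε) :
    ∃ L : (Y → ℝ) → Y, (∀ q, IsPV q → 0 < q (L q)) ∧
      ∑ i ∈ s, c i * (open Classical in if L (π i) ≠ L (π' i) then (1 : ℝ) else 0) ≤
        ∑ i ∈ s, c i * ∑ y, |π i y - π' i y| + ε := by
  classical
  have hC0 : 0 ≤ ∑ i ∈ s, c i := sum_nonneg hc
  obtain ⟨n, hn⟩ := exists_nat_gt ((∑ i ∈ s, c i) * (Fintype.card Y : ℝ) / ε)
  have hn0 : (0 : ℝ) < n := lt_of_le_of_lt (by positivity) hn
  have hn1 : 0 < n := by exact_mod_cast hn0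
  have hne : Nonempty (Prio (Y × Fin n)) := ⟨Fintype.equivFin _⟩
  have key : 𝔼 σ : Prio (Y × Fin n), ∑ i ∈ s, c i *
      (if flab n σ (π i) ≠ flab n σ (π' i) then (1 : ℝ) else 0) ≤
      ∑ i ∈ s, c i * ∑ y, |π i y - π' i y| + ε := by
    rw [expect_sum_comm]
    calc ∑ i ∈ s, 𝔼 σ : Prio (Y × Fin n), c i *
          (if flab n σ (π i) ≠ flab n σ (π' i) then (1 : ℝ) else 0)
        ≤ ∑ i ∈ s, c i * (∑ y, |π i y - π' i y| + (Fintype.card Y : ℝ) / n) := by
          apply sum_le_sum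
          intro i hi
          rw [← mul_expect, ← pr_eq_expect]
          exact mul_le_mul_of_nonneg_left (pr_flab_ne_le (hπ i hi) (hπ' i hi) hn1) (hc i hi)
      _ = ∑ i ∈ s, c i * ∑ y, |π i y - π' i y| +
            (∑ i ∈ s, c i) * (Fintype.card Y : ℝ) / n := by
          simp only [mul_add, sum_add_distrib]
          rw [sum_mul, sum_div]
          congr 1
          exact sum_congr rfl fun i _ => by ring
      _ ≤ _ := by
          have : (∑ i ∈ s, c i) * (Fintype.card Y : ℝ) / n ≤ ε := by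
            rw [div_le_iff₀ hn0]
            rw [div_lt_iff₀ hε] at hn
            linarith
          linarith
  obtain ⟨σ, hσ⟩ := exists_le_of_expect_le _ key
  refine ⟨flab n σ, fun q hq => hq.flab_pos hn1 σ, ?_⟩
  convert hσ

end Crest.Agent.R314.Mh
end

-- ▼ part R314/Bay3
section

/-!
R314, block BAY, part 3: games whose relabelling price is the `ℓ¹` distance of probability vectors
("fractional labels"), summation over levels, deterministic labels.
-/

set_option autoImplicit false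
set_option linter.unusedSectionVars false

namespace Crest.Agent.R314.Bay

open Finset Function Crest.LogicCS.KServer Crest.Agent.R314 Crest.Agent.R314.Tk

universe u v w

/-- A game with fractional labels `π σ x : Z → ℝ`. -/
structure PGame (Y : Type u) (Z : Type v) [Fintype Y] [Fintype Z] where
  S : Type w
  S0 : S
  U : S → Y → ℝ
  U_nonneg : ∀ σ x, 0 ≤ U σ x
  π : S → Y → Z → ℝ
  π_pv : ∀ σ x, Mh.IsPV (π σ x)
  exists_min : ∀ m : Y → ℝ, (∀ x, 0 ≤ m x) → ∀ σ, ∃ τ, ∀ υ,
    ∑ x, m x * (U τ x + ∑ z, |π σ x z - π τ x z|) ≤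
      ∑ x, m x * (U υ x + ∑ z, |π σ x z - π υ x z|)

namespace PGame

variable {Y : Type u} {Z : Type v} [Fintype Y] [Fintype Z] (G : PGame.{u, v, w} Y Z)




end PGame

section Levels

variable {Y : Type u} {Z : Type v} [Fintype Y] [Fintype Z] [MetricSpace Y] {k : ℕ} [NeZero k]
variable (Q : Prior Y k) {L : ℕ} (G : Fin L → PGame.{u, v, w} Y Z)
  (op : ∀ p, List Y → (G p).S → (G p).S)





end Levels

end Crest.Agent.R314.Bay
end

-- ▼ part R314/Bay4
section

/-!
R314, block BAY, part 4: the ONE-update-per-step process with `ε`-minimisers (no existence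
hypothesis): information step, `ε`-best response for the mass before the flow, operation `op h`
(e.g. `Op (r, a_R)`), flow.  The state after the history `h` is the state used at the flow.
-/

set_option autoImplicit false
set_option linter.unusedSectionVars false

namespace Crest.Agent.R314.Bay

open Finset Function Crest.LogicCS.KServer Crest.Agent.R314 Crest.Agent.R314.Tk

universe u v w

/-- A system of states with linear potential `U` and fractional labels `π`. -/
structure EGame (Y : Type u) (Z : Type v) [Fintype Y] [Fintype Z] where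
  S : Type w
  S0 : S
  U : S → Y → ℝ
  U_nonneg : ∀ σ x, 0 ≤ U σ x
  π : S → Y → Z → ℝ
  π_pv : ∀ σ x, Mh.IsPV (π σ x)

namespace EGame

variable {Y : Type u} {Z : Type v} [Fintype Y] [Fintype Z] (G : EGame.{u, v, w} Y Z)

/-- `ℓ¹` distance of the labels. -/
noncomputable def nr (σ : G.S) (x : Y) (τ : G.S) (y : Y) : ℝ := ∑ z, |G.π σ x z - G.π τ y z|

theorem nr_nonneg (σ : G.S) (x : Y) (τ : G.S) (y : Y) : 0 ≤ G.nr σ x τ y :=
  sum_nonneg fun _ _ => abs_nonneg _

@[simp] theorem nr_self (σ : G.S) (x : Y) : G.nr σ x σ x = 0 := by simp [nr]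

theorem nr_tri (σ : G.S) (x : Y) (τ : G.S) (y : Y) (υ : G.S) (z : Y) :
    G.nr σ x υ z ≤ G.nr σ x τ y + G.nr τ y υ z := by
  unfold nr
  rw [← sum_add_distrib]
  exact sum_le_sum fun z _ => abs_sub_le _ _ _

/-- Potential of a state against a measure. -/
noncomputable def Phi (m : Y → ℝ) (σ : G.S) : ℝ := ∑ x, m x * G.U σ x

/-- Relabelling bill. -/
noncomputable def Rel (m : Y → ℝ) (σ τ : G.S) : ℝ := ∑ x, m x * G.nr σ x τ x

theorem Rel_nonneg {m : Y → ℝ} (hm : ∀ x, 0 ≤ m x) (σ τ : G.S) : 0 ≤ G.Rel m σ τ :=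
  sum_nonneg fun x _ => mul_nonneg (hm x) (G.nr_nonneg _ _ _ _)

theorem Phi_nonneg {m : Y → ℝ} (hm : ∀ x, 0 ≤ m x) (σ : G.S) : 0 ≤ G.Phi m σ :=
  sum_nonneg fun x _ => mul_nonneg (hm x) (G.U_nonneg _ _)

theorem Rel_self (m : Y → ℝ) (σ : G.S) : G.Rel m σ σ = 0 := by simp [Rel]

theorem Rel_tri {m : Y → ℝ} (hm : ∀ x, 0 ≤ m x) (σ τ υ : G.S) :
    G.Rel m σ υ ≤ G.Rel m σ τ + G.Rel m τ υ := by
  unfold Rel
  rw [← sum_add_distrib]
  apply sum_le_sum
  intro x _
  rw [← mul_add]
  exact mul_le_mul_of_nonneg_left (G.nr_tri _ _ _ _ _ _) (hm x)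

/-- No change of state pays for itself, up to `ε`. -/
def Stuck (ε : ℝ) (m : Y → ℝ) (σ : G.S) : Prop := ∀ τ, G.Phi m σ ≤ G.Phi m τ + G.Rel m σ τ + ε

/-- `ε`-best responses exist. -/
theorem exists_br {ε : ℝ} (hε : 0 < ε) {m : Y → ℝ} (hm : ∀ x, 0 ≤ m x) (σ : G.S) :
    ∃ τ, G.Phi m τ + G.Rel m σ τ ≤ G.Phi m σ ∧
      ∀ υ, G.Phi m τ + G.Rel m σ τ ≤ G.Phi m υ + G.Rel m σ υ + ε := by
  set f : G.S → ℝ := fun τ => G.Phi m τ + G.Rel m σ τ with hf
  have hb : BddBelow (Set.range f) := by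
    refine ⟨0, ?_⟩
    rintro _ ⟨τ, rfl⟩
    exact add_nonneg (G.Phi_nonneg hm τ) (G.Rel_nonneg hm σ τ)
  have hne : (Set.range f).Nonempty := ⟨f σ, σ, rfl⟩
  obtain ⟨_, ⟨τ, rfl⟩, hτ⟩ := exists_lt_of_csInf_lt hne (lt_add_of_pos_right (sInf (Set.range f)) hε)
  have hσ : f σ = G.Phi m σ := by simp [hf, G.Rel_self]
  have h1 : ∀ υ, sInf (Set.range f) ≤ f υ := fun υ => csInf_le hb ⟨υ, rfl⟩
  by_cases h : f τ ≤ f σ
  · exact ⟨τ, by rw [← hσ]; exact h, fun υ => by have := h1 υ; change f τ ≤ f υ + ε; linarith⟩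
  · push Not at h
    refine ⟨σ, by rw [G.Rel_self, add_zero], fun υ => ?_⟩
    have := h1 υ
    change f σ ≤ f υ + ε
    linarith

open Classical in
/-- The chosen `ε`-best response. -/
noncomputable def br (ε : ℝ) (m : Y → ℝ) (σ : G.S) : G.S :=
  if h : 0 < ε ∧ ∀ x, 0 ≤ m x then (G.exists_br h.1 h.2 σ).choose else σ

theorem br_spec {ε : ℝ} (hε : 0 < ε) {m : Y → ℝ} (hm : ∀ x, 0 ≤ m x) (σ : G.S) :
    G.Phi m (G.br ε m σ) + G.Rel m σ (G.br ε m σ) ≤ G.Phi m σ ∧
      ∀ υ, G.Phi m (G.br ε m σ) + G.Rel m σ (G.br ε m σ) ≤ G.Phi m υ + G.Rel m σ υ + ε := by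
  have hbr : G.br ε m σ = (G.exists_br hε hm σ).choose := by
    unfold br
    rw [dif_pos ⟨hε, hm⟩]
  rw [hbr]
  exact (G.exists_br hε hm σ).choose_spec

theorem br_stuck {ε : ℝ} (hε : 0 < ε) {m : Y → ℝ} (hm : ∀ x, 0 ≤ m x) (σ : G.S) :
    G.Stuck ε m (G.br ε m σ) := by
  intro τ
  have h1 := (G.br_spec hε hm σ).2 τ
  have h2 := G.Rel_tri hm σ (G.br ε m σ) τ
  linarith

section Process

variable {k : ℕ} [NeZero k] (Q : Prior Y k) (ep : List Y → ℝ) (op : List Y → G.S → G.S)

/-- The states along the prefixes of `h`. -/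
noncomputable def stN (h : List Y) : ℕ → G.S
  | 0 => G.S0
  | t + 1 => op (h.take (t + 1)) (G.br (ep (h.take (t + 1))) (Q.mm (h.take (t + 1))) (stN h t))

/-- The state after the history `h` (it is the state used at the flow of the last request). -/
noncomputable def st (h : List Y) : G.S := G.stN Q ep op h h.length

theorem stN_take (h : List Y) {n t : ℕ} (ht : t ≤ n) :
    G.stN Q ep op (h.take n) t = G.stN Q ep op h t := by
  induction t with
  | zero => rfl
  | succ t ih =>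
    rw [stN, stN, ih (by omega), List.take_take, min_eq_left ht]

@[simp] theorem st_nil : G.st Q ep op [] = G.S0 := rfl

/-- The `ε`-stuck state before the operation. -/
noncomputable def s1 (h : List Y) : G.S := G.br (ep h) (Q.mm h) (G.st Q ep op h.dropLast)

theorem st_eq {h : List Y} (h0 : h ≠ []) : G.st Q ep op h = op h (G.s1 Q ep op h) := by
  have hpos : 0 < h.length := List.length_pos_iff.2 h0
  obtain ⟨n, hn⟩ : ∃ n, h.length = n + 1 := ⟨h.length - 1, by omega⟩
  unfold st s1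
  rw [hn, stN, ← hn, List.take_length]
  congr 2
  unfold st
  rw [List.length_dropLast, hn, Nat.add_sub_cancel, List.dropLast_eq_take, hn,
    Nat.add_sub_cancel, G.stN_take Q ep op h le_rfl]

theorem s1_stuck {h : List Y} (he : 0 < ep h) : G.Stuck (ep h) (Q.mm h) (G.s1 Q ep op h) :=
  G.br_stuck he (Q.mm_nonneg h) _

/-- Bill at the history `h`: relabelling before the flow and cuts. -/
noncomputable def bill (h : List Y) : ℝ :=
  G.Rel (Q.mm h) (G.st Q ep op h.dropLast) (G.st Q ep op h) +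
  ∑ i ∈ Q.I h, Q.p i * G.nr (G.st Q ep op h) (Q.src i (h.length - 1))
    (G.st Q ep op h) (Q.rq i (h.length - 1))

/-- **Bill of a game.** -/
theorem bill_le (hep : ∀ h ∈ Q.H, 0 < ep h) (e sl : List Y → ℝ)
    (hop : ∀ h ∈ Q.H, ∀ σ, G.Stuck (ep h) (Q.mm h) σ →
      G.Phi (Q.mm h) (op h σ) + G.Rel (Q.mm h) σ (op h σ) ≤ G.Phi (Q.mm h) σ + e h)
    (hsl : ∀ h ∈ Q.H, ∀ σ, G.Stuck (ep h) (Q.mm h) σ →
      ∑ i ∈ Q.I h, Q.p i * (G.U (op h σ) (Q.rq i (h.length - 1)) -
        G.U (op h σ) (Q.src i (h.length - 1)) +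
        G.nr (op h σ) (Q.src i (h.length - 1)) (op h σ) (Q.rq i (h.length - 1))) ≤ sl h) :
    ∑ h ∈ Q.H, G.bill Q ep op h ≤
      (∑ i, Q.p i) * (∑ j, G.U G.S0 (Q.s j)) + ∑ h ∈ Q.H, (e h + sl h) := by
  have := Q.telescope (fun h c => ∑ j, G.U (G.st Q ep op h) (c j))
    (fun h c => sum_nonneg fun j _ => G.U_nonneg _ _) (G.bill Q ep op) (fun h => e h + sl h) ?_
  · simpa using this
  intro h hh
  have h0 := Q.ne_nil_of_mem_H hh
  have e1 : Q.Ep h (fun c => ∑ j, G.U (G.st Q ep op h) (c j)) =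
      G.Phi (Q.mm h) (G.st Q ep op h) + ∑ i ∈ Q.I h, Q.p i *
        (G.U (G.st Q ep op h) (Q.rq i (h.length - 1)) -
          G.U (G.st Q ep op h) (Q.src i (h.length - 1))) := by
    rw [Q.Ep_sum_server h0, ← Q.sum_mm]
    congr 1
    apply sum_congr rfl
    intro i hi
    rw [Q.rq_of_mem_I hi h0]
  have e2 : Q.Em h (fun c => ∑ j, G.U (G.st Q ep op h.dropLast) (c j)) =
      G.Phi (Q.mm h) (G.st Q ep op h.dropLast) := (Q.sum_mm h _).symm
  simp only [e1, e2]
  have a1 := (G.br_spec (hep h hh) (Q.mm_nonneg h) (G.st Q ep op h.dropLast)).1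
  have a2 := hop h hh _ (G.s1_stuck Q ep op (hep h hh))
  have a3 := hsl h hh _ (G.s1_stuck Q ep op (hep h hh))
  rw [← G.st_eq Q ep op h0] at a2 a3
  have a4 := G.Rel_tri (Q.mm_nonneg h) (G.st Q ep op h.dropLast) (G.s1 Q ep op h)
    (G.st Q ep op h)
  have a6 : ∑ i ∈ Q.I h, Q.p i * (G.U (G.st Q ep op h) (Q.rq i (h.length - 1)) -
        G.U (G.st Q ep op h) (Q.src i (h.length - 1)) +
        G.nr (G.st Q ep op h) (Q.src i (h.length - 1)) (G.st Q ep op h)
          (Q.rq i (h.length - 1))) =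
      ∑ i ∈ Q.I h, Q.p i * (G.U (G.st Q ep op h) (Q.rq i (h.length - 1)) -
        G.U (G.st Q ep op h) (Q.src i (h.length - 1))) +
      ∑ i ∈ Q.I h, Q.p i * G.nr (G.st Q ep op h) (Q.src i (h.length - 1)) (G.st Q ep op h)
          (Q.rq i (h.length - 1)) := by
    rw [← sum_add_distrib]
    exact sum_congr rfl fun i _ => by ring
  change G.Phi (Q.mm h) (G.s1 Q ep op h) + G.Rel (Q.mm h) (G.st Q ep op h.dropLast)
    (G.s1 Q ep op h) ≤ G.Phi (Q.mm h) (G.st Q ep op h.dropLast) at a1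
  unfold bill
  linarith

end Process

end EGame

section Levels

variable {Y : Type u} {Z : Type v} [Fintype Y] [Fintype Z] [MetricSpace Y] {k : ℕ} [NeZero k]
variable (Q : Prior Y k) {L : ℕ} (G : Fin L → EGame.{u, v, w} Y Z)
  (ep : Fin L → List Y → ℝ) (op : ∀ p, List Y → (G p).S → (G p).S)




end Levels

end Crest.Agent.R314.Bay
private theorem rz_9e5650dd37 : type_of% @_root_.Crest.Agent.R314.Bay.EGame.stN.eq_def := @_root_.Crest.Agent.R314.Bay.EGame.stN.eq_def -- L119
private theorem rz_f53134d20e : type_of% @_root_.Crest.Agent.R314.Bay.EGame.stN.eq_1 := @_root_.Crest.Agent.R314.Bay.EGame.stN.eq_1 -- L119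
end

-- ▼ part R314/Bay5
section

/-!
R314, block BAY, part 5: the one-update-per-step process for an abstract response relation
(`Stk m τ` = "stable for the masses `m`"): for every state `σ` there is a stable `τ` with
`Σ m (U τ + |π σ - π τ|) ≤ Σ m U σ` (435's `IM.exists_stable`).
-/

set_option autoImplicit false
set_option linter.unusedSectionVars false

namespace Crest.Agent.R314.Bay

open Finset Function Crest.LogicCS.KServer Crest.Agent.R314 Crest.Agent.R314.Tk

universe u v w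

/-- A system of states with linear potential `U`, fractional labels `π` and a response relation. -/
structure RGame (Y : Type u) (Z : Type v) [Fintype Y] [Fintype Z] where
  S : Type w
  S0 : S
  U : S → Y → ℝ
  U_nonneg : ∀ σ x, 0 ≤ U σ x
  π : S → Y → Z → ℝ
  π_pv : ∀ σ x, Mh.IsPV (π σ x)
  Stk : (Y → ℝ) → S → Prop
  exists_stk : ∀ m : Y → ℝ, (∀ x, 0 ≤ m x) → ∀ σ, ∃ τ, Stk m τ ∧
    ∑ x, m x * (U τ x + ∑ z, |π σ x z - π τ x z|) ≤ ∑ x, m x * U σ x

namespace RGame

variable {Y : Type u} {Z : Type v} [Fintype Y] [Fintype Z] (G : RGame.{u, v, w} Y Z)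

/-- `ℓ¹` distance of the labels. -/
noncomputable def nr (σ : G.S) (x : Y) (τ : G.S) (y : Y) : ℝ := ∑ z, |G.π σ x z - G.π τ y z|


@[simp] theorem nr_self (σ : G.S) (x : Y) : G.nr σ x σ x = 0 := by simp [nr]

theorem nr_tri (σ : G.S) (x : Y) (τ : G.S) (y : Y) (υ : G.S) (z : Y) :
    G.nr σ x υ z ≤ G.nr σ x τ y + G.nr τ y υ z := by
  unfold nr
  rw [← sum_add_distrib]
  exact sum_le_sum fun z _ => abs_sub_le _ _ _

/-- Potential of a state against a measure. -/
noncomputable def Phi (m : Y → ℝ) (σ : G.S) : ℝ := ∑ x, m x * G.U σ x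

/-- Relabelling bill. -/
noncomputable def Rel (m : Y → ℝ) (σ τ : G.S) : ℝ := ∑ x, m x * G.nr σ x τ x




theorem Rel_tri {m : Y → ℝ} (hm : ∀ x, 0 ≤ m x) (σ τ υ : G.S) :
    G.Rel m σ υ ≤ G.Rel m σ τ + G.Rel m τ υ := by
  unfold Rel
  rw [← sum_add_distrib]
  apply sum_le_sum
  intro x _
  rw [← mul_add]
  exact mul_le_mul_of_nonneg_left (G.nr_tri _ _ _ _ _ _) (hm x)

open Classical in
/-- The chosen response. -/
noncomputable def br (m : Y → ℝ) (σ : G.S) : G.S :=
  if h : ∀ x, 0 ≤ m x then (G.exists_stk m h σ).choose else σ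

theorem br_spec {m : Y → ℝ} (hm : ∀ x, 0 ≤ m x) (σ : G.S) :
    G.Stk m (G.br m σ) ∧ G.Phi m (G.br m σ) + G.Rel m σ (G.br m σ) ≤ G.Phi m σ := by
  have hbr : G.br m σ = (G.exists_stk m hm σ).choose := by
    unfold br
    rw [dif_pos hm]
  rw [hbr]
  have h := (G.exists_stk m hm σ).choose_spec
  refine ⟨h.1, le_trans (le_of_eq ?_) h.2⟩
  unfold Phi Rel nr
  rw [← sum_add_distrib]
  exact sum_congr rfl fun x _ => (mul_add _ _ _).symm

section Process

variable {k : ℕ} [NeZero k] (Q : Prior Y k) (op : List Y → G.S → G.S)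

/-- The states along the prefixes of `h`. -/
noncomputable def stN (h : List Y) : ℕ → G.S
  | 0 => G.S0
  | t + 1 => op (h.take (t + 1)) (G.br (Q.mm (h.take (t + 1))) (stN h t))

/-- The state after the history `h` (it is the state used at the flow of the last request). -/
noncomputable def st (h : List Y) : G.S := G.stN Q op h h.length

theorem stN_take (h : List Y) {n t : ℕ} (ht : t ≤ n) :
    G.stN Q op (h.take n) t = G.stN Q op h t := by
  induction t with
  | zero => rfl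
  | succ t ih =>
    rw [stN, stN, ih (by omega), List.take_take, min_eq_left ht]

@[simp] theorem st_nil : G.st Q op [] = G.S0 := rfl

/-- The stable state before the operation. -/
noncomputable def s1 (h : List Y) : G.S := G.br (Q.mm h) (G.st Q op h.dropLast)

theorem st_eq {h : List Y} (h0 : h ≠ []) : G.st Q op h = op h (G.s1 Q op h) := by
  have hpos : 0 < h.length := List.length_pos_iff.2 h0
  obtain ⟨n, hn⟩ : ∃ n, h.length = n + 1 := ⟨h.length - 1, by omega⟩
  unfold st s1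
  rw [hn, stN, ← hn, List.take_length]
  congr 2
  unfold st
  rw [List.length_dropLast, hn, Nat.add_sub_cancel, List.dropLast_eq_take, hn,
    Nat.add_sub_cancel, G.stN_take Q op h le_rfl]

theorem s1_stk (h : List Y) : G.Stk (Q.mm h) (G.s1 Q op h) :=
  (G.br_spec (Q.mm_nonneg h) _).1

/-- Bill at the history `h`: relabelling before the flow and cuts. -/
noncomputable def bill (h : List Y) : ℝ :=
  G.Rel (Q.mm h) (G.st Q op h.dropLast) (G.st Q op h) +
  ∑ i ∈ Q.I h, Q.p i * G.nr (G.st Q op h) (Q.src i (h.length - 1))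
    (G.st Q op h) (Q.rq i (h.length - 1))

/-- **Bill of a game.** -/
theorem bill_le (e sl : List Y → ℝ)
    (hop : ∀ h ∈ Q.H, ∀ σ, G.Stk (Q.mm h) σ →
      G.Phi (Q.mm h) (op h σ) + G.Rel (Q.mm h) σ (op h σ) ≤ G.Phi (Q.mm h) σ + e h)
    (hsl : ∀ h ∈ Q.H, ∀ σ, G.Stk (Q.mm h) σ →
      ∑ i ∈ Q.I h, Q.p i * (G.U (op h σ) (Q.rq i (h.length - 1)) -
        G.U (op h σ) (Q.src i (h.length - 1)) +
        G.nr (op h σ) (Q.src i (h.length - 1)) (op h σ) (Q.rq i (h.length - 1))) ≤ sl h) :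
    ∑ h ∈ Q.H, G.bill Q op h ≤
      (∑ i, Q.p i) * (∑ j, G.U G.S0 (Q.s j)) + ∑ h ∈ Q.H, (e h + sl h) := by
  have := Q.telescope (fun h c => ∑ j, G.U (G.st Q op h) (c j))
    (fun h c => sum_nonneg fun j _ => G.U_nonneg _ _) (G.bill Q op) (fun h => e h + sl h) ?_
  · simpa using this
  intro h hh
  have h0 := Q.ne_nil_of_mem_H hh
  have e1 : Q.Ep h (fun c => ∑ j, G.U (G.st Q op h) (c j)) =
      G.Phi (Q.mm h) (G.st Q op h) + ∑ i ∈ Q.I h, Q.p i *
        (G.U (G.st Q op h) (Q.rq i (h.length - 1)) -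
          G.U (G.st Q op h) (Q.src i (h.length - 1))) := by
    rw [Q.Ep_sum_server h0, ← Q.sum_mm]
    congr 1
    apply sum_congr rfl
    intro i hi
    rw [Q.rq_of_mem_I hi h0]
  have e2 : Q.Em h (fun c => ∑ j, G.U (G.st Q op h.dropLast) (c j)) =
      G.Phi (Q.mm h) (G.st Q op h.dropLast) := (Q.sum_mm h _).symm
  simp only [e1, e2]
  have a1 := (G.br_spec (Q.mm_nonneg h) (G.st Q op h.dropLast)).2
  have a2 := hop h hh _ (G.s1_stk Q op h)
  have a3 := hsl h hh _ (G.s1_stk Q op h)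
  rw [← G.st_eq Q op h0] at a2 a3
  have a4 := G.Rel_tri (Q.mm_nonneg h) (G.st Q op h.dropLast) (G.s1 Q op h)
    (G.st Q op h)
  have a6 : ∑ i ∈ Q.I h, Q.p i * (G.U (G.st Q op h) (Q.rq i (h.length - 1)) -
        G.U (G.st Q op h) (Q.src i (h.length - 1)) +
        G.nr (G.st Q op h) (Q.src i (h.length - 1)) (G.st Q op h)
          (Q.rq i (h.length - 1))) =
      ∑ i ∈ Q.I h, Q.p i * (G.U (G.st Q op h) (Q.rq i (h.length - 1)) -
        G.U (G.st Q op h) (Q.src i (h.length - 1))) +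
      ∑ i ∈ Q.I h, Q.p i * G.nr (G.st Q op h) (Q.src i (h.length - 1)) (G.st Q op h)
          (Q.rq i (h.length - 1)) := by
    rw [← sum_add_distrib]
    exact sum_congr rfl fun i _ => by ring
  change G.Phi (Q.mm h) (G.s1 Q op h) + G.Rel (Q.mm h) (G.st Q op h.dropLast)
    (G.s1 Q op h) ≤ G.Phi (Q.mm h) (G.st Q op h.dropLast) at a1
  unfold bill
  linarith

end Process

end RGame

section Levels

variable {Y : Type u} {Z : Type v} [Fintype Y] [Fintype Z] [MetricSpace Y] {k : ℕ} [NeZero k]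
variable (Q : Prior Y k) {L : ℕ} (G : Fin L → RGame.{u, v, w} Y Z)
  (op : ∀ p, List Y → (G p).S → (G p).S)

/-- **Summation over the levels** (one update per step). `K` = the constant `C log (k+1)`. -/
theorem sum_rbill_le (R : Fin L → ℝ) (hR : ∀ p, 0 ≤ R p)
    (r1 : List Y → ℝ)
    (hr1 : ∀ h ∈ Q.H, r1 h * Q.P h / 4 ≤
      ∑ i ∈ Q.I h, Q.p i * dist (Q.src i (h.length - 1)) (Q.rq i (h.length - 1)))
    {K : ℝ} (hK : 0 ≤ K) (e : Fin L → List Y → ℝ) (F : Fin L → List Y → Y → ℝ)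
    (hop : ∀ p, ∀ h ∈ Q.H, ∀ σ, (G p).Stk (Q.mm h) σ →
      (G p).Phi (Q.mm h) (op p h σ) + (G p).Rel (Q.mm h) σ (op p h σ) ≤
        (G p).Phi (Q.mm h) σ + e p h)
    (hsl : ∀ p, ∀ h ∈ Q.H, ∀ h0 : h ≠ [], ∀ σ, (G p).Stk (Q.mm h) σ → ∀ x,
      (G p).U (op p h σ) (h.getLast h0) - (G p).U (op p h σ) x +
        (G p).nr (op p h σ) x (op p h σ) (h.getLast h0) ≤ F p h x)
    (he : ∀ h ∈ Q.H, ∑ p, R p * e p h ≤ K * (Q.P h * r1 h))
    (hF : ∀ h ∈ Q.H, ∀ h0 : h ≠ [], ∀ x, ∑ p, R p * F p h x ≤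
      K * (dist x (h.getLast h0) + r1 h)) :
    ∑ h ∈ Q.H, ∑ p, R p * (G p).bill Q (op p) h ≤
      9 * K * Q.opt + (∑ i, Q.p i) * ∑ p, R p * ∑ j, (G p).U (G p).S0 (Q.s j) := by
  have h1 : ∀ p, ∑ h ∈ Q.H, (G p).bill Q (op p) h ≤
      (∑ i, Q.p i) * (∑ j, (G p).U (G p).S0 (Q.s j)) +
        ∑ h ∈ Q.H, (e p h + ∑ i ∈ Q.I h, Q.p i * F p h (Q.src i (h.length - 1))) := by
    intro p
    refine (G p).bill_le Q (op p) (e p)
      (fun h => ∑ i ∈ Q.I h, Q.p i * F p h (Q.src i (h.length - 1))) (hop p) ?_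
    intro h hh σ hσ
    apply sum_le_sum
    intro i hi
    apply mul_le_mul_of_nonneg_left _ (Q.p_nonneg i)
    have h0 := Q.ne_nil_of_mem_H hh
    rw [Q.rq_of_mem_I hi h0]
    exact hsl p h hh h0 σ hσ _
  have h2 : ∑ h ∈ Q.H, ∑ p, R p * (G p).bill Q (op p) h =
      ∑ p, R p * ∑ h ∈ Q.H, (G p).bill Q (op p) h := by
    rw [sum_comm]
    exact sum_congr rfl fun p _ => (mul_sum _ _ _).symm
  have h3 : ∑ p, R p * ∑ h ∈ Q.H, (G p).bill Q (op p) h ≤
      (∑ i, Q.p i) * ∑ p, R p * ∑ j, (G p).U (G p).S0 (Q.s j) +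
        ∑ h ∈ Q.H, (∑ p, R p * e p h +
          ∑ i ∈ Q.I h, Q.p i * ∑ p, R p * F p h (Q.src i (h.length - 1))) := by
    calc ∑ p, R p * ∑ h ∈ Q.H, (G p).bill Q (op p) h
        ≤ ∑ p, R p * ((∑ i, Q.p i) * (∑ j, (G p).U (G p).S0 (Q.s j)) +
          ∑ h ∈ Q.H, (e p h + ∑ i ∈ Q.I h, Q.p i * F p h (Q.src i (h.length - 1)))) :=
          sum_le_sum fun p _ => mul_le_mul_of_nonneg_left (h1 p) (hR p)
      _ = _ := by
          simp_rw [mul_add]
          rw [sum_add_distrib, mul_sum]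
          congr 1
          · exact sum_congr rfl fun p _ => by ring
          · simp_rw [mul_sum]
            rw [sum_comm]
            apply sum_congr rfl
            intro h _
            simp_rw [mul_add]
            rw [sum_add_distrib]
            congr 1
            simp_rw [mul_sum]
            rw [sum_comm]
            apply sum_congr rfl
            intro i _
            exact sum_congr rfl fun p _ => by ring
  have h4 : ∀ h ∈ Q.H, ∑ p, R p * e p h +
      ∑ i ∈ Q.I h, Q.p i * ∑ p, R p * F p h (Q.src i (h.length - 1)) ≤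
      9 * K * ∑ i ∈ Q.I h, Q.p i *
        dist (Q.src i (h.length - 1)) (Q.rq i (h.length - 1)) := by
    intro h hh
    have h0 := Q.ne_nil_of_mem_H hh
    have a1 := he h hh
    have a2 : ∑ i ∈ Q.I h, Q.p i * ∑ p, R p * F p h (Q.src i (h.length - 1)) ≤
        K * ∑ i ∈ Q.I h, Q.p i *
          dist (Q.src i (h.length - 1)) (Q.rq i (h.length - 1)) + K * (Q.P h * r1 h) := by
      calc ∑ i ∈ Q.I h, Q.p i * ∑ p, R p * F p h (Q.src i (h.length - 1))
          ≤ ∑ i ∈ Q.I h, Q.p i * (K * (dist (Q.src i (h.length - 1))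
              (Q.rq i (h.length - 1)) + r1 h)) := by
            apply sum_le_sum
            intro i hi
            apply mul_le_mul_of_nonneg_left _ (Q.p_nonneg i)
            rw [Q.rq_of_mem_I hi h0]
            exact hF h hh h0 _
        _ = _ := by
            unfold Prior.P
            rw [sum_mul, mul_sum, mul_sum, ← sum_add_distrib]
            exact sum_congr rfl fun i _ => by ring
    have a3 := hr1 h hh
    have a4 : K * (Q.P h * r1 h) ≤ 4 * (K * ∑ i ∈ Q.I h, Q.p i *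
          dist (Q.src i (h.length - 1)) (Q.rq i (h.length - 1))) := by
      have : Q.P h * r1 h ≤ 4 * ∑ i ∈ Q.I h, Q.p i *
          dist (Q.src i (h.length - 1)) (Q.rq i (h.length - 1)) := by linarith
      calc K * (Q.P h * r1 h) ≤ K * (4 * ∑ i ∈ Q.I h, Q.p i *
          dist (Q.src i (h.length - 1)) (Q.rq i (h.length - 1))) :=
            mul_le_mul_of_nonneg_left this hK
        _ = _ := by ring
    linarith
  rw [h2]
  refine h3.trans ?_
  have h5 := sum_le_sum h4
  rw [← mul_sum, ← Q.opt_eq] at h5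
  linarith


end Levels

end Crest.Agent.R314.Bay
private theorem rz_1f4331b099 : type_of% @_root_.Crest.Agent.R314.Bay.RGame.stN.eq_def := @_root_.Crest.Agent.R314.Bay.RGame.stN.eq_def -- L94
private theorem rz_c15dc4e1e8 : type_of% @_root_.Crest.Agent.R314.Bay.RGame.stN.eq_1 := @_root_.Crest.Agent.R314.Bay.RGame.stN.eq_1 -- L94
end

-- ▼ part R314/GO1
section

/-!
R314, block GO, part 1: fractional labels of all histories and levels are turned into
deterministic labels (derandomisation by `Mh.exists_labels`).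
-/

set_option autoImplicit false
set_option linter.unusedSectionVars false

namespace Crest.Agent.R314.GO

open Finset Crest.Agent.R314 Crest.Agent.R314.Tk Crest.Agent.R314.Bay Crest.LogicCS.KServer
open Crest.Agent.R314.Mh (IsPV)

universe u

variable {Y : Type u} {A : Type u} [Fintype A]

/-- Fractional label cost. -/
noncomputable def fcost (L : ℕ) (R : ℕ → ℝ) (pi : List Y → ℕ → Y → A → ℝ)
    (h : List Y) (x : Y) (h' : List Y) (x' : Y) : ℝ :=
  ∑ l ∈ range L, R l * ∑ a, |pi h l x a - pi h' l x' a|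

variable {k : ℕ} [NeZero k] [Fintype Y]

/-- Fractional label bill. -/
noncomputable def fbill (Q : Prior Y k) (L : ℕ) (R : ℕ → ℝ) (pi : List Y → ℕ → Y → A → ℝ)
    (h : List Y) : ℝ :=
  ∑ x, Q.mm h x * fcost L R pi h.dropLast x h x +
    ∑ i ∈ Q.I h, Q.p i * fcost L R pi h (Q.src i (h.length - 1)) h (Q.rq i (h.length - 1))

section Kernel

variable (Q : Prior Y k) (L : ℕ) (R : ℕ → ℝ) (pi : List Y → ℕ → Y → A → ℝ)

/-- first member of the pair -/
def pA (z : List Y × ℕ × (Y ⊕ Q.ι)) : A → ℝ :=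
  match z with
  | (h, l, Sum.inl x) => pi h.dropLast l x
  | (h, l, Sum.inr i) => pi h l (Q.src i (h.length - 1))

/-- second member of the pair -/
def pB (z : List Y × ℕ × (Y ⊕ Q.ι)) : A → ℝ :=
  match z with
  | (h, l, Sum.inl x) => pi h l x
  | (h, l, Sum.inr i) => pi h l (Q.rq i (h.length - 1))

open Classical in
/-- weight of the pair -/
noncomputable def pC (z : List Y × ℕ × (Y ⊕ Q.ι)) : ℝ :=
  match z with
  | (h, l, Sum.inl x) => R l * Q.mm h x
  | (h, l, Sum.inr i) => if i ∈ Q.I h then R l * Q.p i else 0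

theorem pC_nonneg (hR : ∀ l, 0 ≤ R l) (z : List Y × ℕ × (Y ⊕ Q.ι)) : 0 ≤ pC Q R z := by
  rcases z with ⟨h, l, x | i⟩
  · exact mul_nonneg (hR l) (Q.mm_nonneg h x)
  · simp only [pC]
    split_ifs
    · exact mul_nonneg (hR l) (Q.p_nonneg i)
    · exact le_rfl

theorem kernel_sum (K : (A → ℝ) → (A → ℝ) → ℝ) :
    ∑ z ∈ Q.H ×ˢ range L ×ˢ (univ : Finset (Y ⊕ Q.ι)), pC Q R z * K (pA Q pi z) (pB Q pi z) =
      ∑ h ∈ Q.H, (∑ x, Q.mm h x * ∑ l ∈ range L, R l * K (pi h.dropLast l x) (pi h l x) +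
        ∑ i ∈ Q.I h, Q.p i * ∑ l ∈ range L,
          R l * K (pi h l (Q.src i (h.length - 1))) (pi h l (Q.rq i (h.length - 1)))) := by
  classical
  rw [sum_product]
  apply sum_congr rfl
  intro h _
  rw [sum_product]
  simp only [Fintype.sum_sum_type, sum_add_distrib]
  congr 1
  · rw [sum_comm]
    apply sum_congr rfl
    intro x _
    rw [mul_sum]
    apply sum_congr rfl
    intro l _
    simp only [pC, pA, pB]
    ring
  · rw [sum_comm]
    have : ∀ i : Q.ι, (∑ l ∈ range L, pC Q R (h, l, Sum.inr i) *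
        K (pA Q pi (h, l, Sum.inr i)) (pB Q pi (h, l, Sum.inr i))) =
        if i ∈ Q.I h then Q.p i * ∑ l ∈ range L,
          R l * K (pi h l (Q.src i (h.length - 1))) (pi h l (Q.rq i (h.length - 1))) else 0 := by
      intro i
      split_ifs with hi
      · rw [mul_sum]
        apply sum_congr rfl
        intro l _
        simp only [pC, pA, pB, hi, if_true]
        ring
      · apply sum_eq_zero
        intro l _
        simp only [pC, hi, if_false, zero_mul]
    rw [sum_congr rfl fun i _ => this i, sum_ite_mem, univ_inter]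

end Kernel

/-- **Deterministic labels from fractional labels**, all histories and levels at once. -/
theorem exists_lam [Nonempty A] (Q : Prior Y k) (L : ℕ) (R : ℕ → ℝ) (hR : ∀ l, 0 ≤ R l)
    (pi : List Y → ℕ → Y → A → ℝ) (hpi : ∀ h l x, IsPV (pi h l x)) {ε : ℝ} (hε : 0 < ε) :
    ∃ lam : List Y → ℕ → Y → A, (∀ h l x, 0 < pi h l x (lam h l x)) ∧
      ∑ h ∈ Q.H, gbill Q L R lam h ≤ ∑ h ∈ Q.H, fbill Q L R pi h + ε := by
  classical
  obtain ⟨lb, h1, h2⟩ := Mh.exists_labels (Q.H ×ˢ range L ×ˢ (univ : Finset (Y ⊕ Q.ι)))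
    (pC Q R) (fun z _ => pC_nonneg Q R hR z) (pA Q pi) (pB Q pi)
    (fun z _ => by rcases z with ⟨h, l, x | i⟩ <;> exact hpi _ _ _)
    (fun z _ => by rcases z with ⟨h, l, x | i⟩ <;> exact hpi _ _ _) hε
  refine ⟨fun h l x => lb (pi h l x), fun h l x => h1 _ (hpi h l x), ?_⟩
  have e1 := kernel_sum Q L R pi (fun a b => if lb a ≠ lb b then (1 : ℝ) else 0)
  have e2 := kernel_sum Q L R pi (fun a b => ∑ y, |a y - b y|)
  have e3 : ∑ h ∈ Q.H, gbill Q L R (fun h l x => lb (pi h l x)) h =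
      ∑ z ∈ Q.H ×ˢ range L ×ˢ (univ : Finset (Y ⊕ Q.ι)),
        pC Q R z * (if lb (pA Q pi z) ≠ lb (pB Q pi z) then (1 : ℝ) else 0) := by
    rw [e1]
    apply sum_congr rfl
    intro h _
    unfold gbill lcost
    congr 1
    · apply sum_congr rfl; intro x _
      congr 1
      apply sum_congr rfl; intro l _
      congr 1
      by_cases hh : lb (pi h.dropLast l x) = lb (pi h l x) <;> simp [hh]
    · apply sum_congr rfl; intro i _
      congr 1
      apply sum_congr rfl; intro l _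
      congr 1
      by_cases hh : lb (pi h l (Q.src i (h.length - 1))) = lb (pi h l (Q.rq i (h.length - 1))) <;>
        simp [hh]
  have e4 : ∑ h ∈ Q.H, fbill Q L R pi h =
      ∑ z ∈ Q.H ×ˢ range L ×ˢ (univ : Finset (Y ⊕ Q.ι)),
        pC Q R z * ∑ y, |pA Q pi z y - pB Q pi z y| := by
    rw [e2]
    rfl
  rw [e3, e4]
  exact h2

end Crest.Agent.R314.GO
private theorem rz_73d27675b9 : type_of% @_root_.Crest.Agent.R314.GO.pA.eq_1 := @_root_.Crest.Agent.R314.GO.pA.eq_1 -- L39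
private theorem rz_ca06483433 : type_of% @_root_.Crest.Agent.R314.GO.pB.eq_1 := @_root_.Crest.Agent.R314.GO.pB.eq_1 -- L45
private theorem rz_4cca718830 : type_of% @_root_.Crest.Agent.R314.GO.pC.eq_1 := @_root_.Crest.Agent.R314.GO.pC.eq_1 -- L52
end

-- ▼ part R314/Gs1
section

/-!
R314, module G3 (summation over levels), part 1: pure real analysis of a nondecreasing sequence.
Author: helper529.

`g i` is the logarithmic increment `ln (M (i+1) / M i)` of the mass profile `M i = m (B (y, 2^i))`.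
-/

set_option autoImplicit false

namespace Crest.Agent.R314.Gs

open Finset

/-! ### The counting (rising sun) lemma -/


/-! ### Shifted sums -/

/-- forward windows -/
theorem sum_shift_right {g : ℕ → ℝ} (hg : ∀ i, 0 ≤ g i) {Q : ℕ} (h0 : ∀ i, Q ≤ i → g i = 0)
    (P j : ℕ) : ∑ n ∈ range P, g (n + j) ≤ ∑ i ∈ range Q, g i := by
  have h1 : ∑ n ∈ range P, g (n + j) = ∑ i ∈ Ico j (P + j), g i := by
    rw [range_eq_Ico, sum_Ico_add' g 0 P j]
    simp
  rw [h1]
  have h2 : ∑ i ∈ Ico j (P + j), g i = ∑ i ∈ (Ico j (P + j)).filter (fun i => i < Q), g i := by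
    rw [sum_filter]
    apply sum_congr rfl
    intro i _
    split_ifs with h
    · rfl
    · exact h0 i (by omega)
  rw [h2]
  apply sum_le_sum_of_subset_of_nonneg
  · intro i hi
    exact mem_range.2 (mem_filter.1 hi).2
  · intro i _ _
    exact hg i

/-- backward windows (only `j < n` counts) -/
theorem sum_shift_left {g : ℕ → ℝ} (hg : ∀ i, 0 ≤ g i) {Q : ℕ} (h0 : ∀ i, Q ≤ i → g i = 0)
    (P j : ℕ) : ∑ n ∈ range P, (if j < n then g (n - j - 1) else 0) ≤ ∑ i ∈ range Q, g i := by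
  have h1 : ∑ n ∈ range P, (if j < n then g (n - j - 1) else 0) =
      ∑ n ∈ (range P).filter (fun n => j < n), g (n - j - 1) := by
    rw [sum_filter]
  rw [h1]
  have h2 : ∑ n ∈ (range P).filter (fun n => j < n), g (n - j - 1) =
      ∑ i ∈ ((range P).filter (fun n => j < n)).image (fun n => n - j - 1), g i := by
    rw [sum_image]
    intro a ha b hb hab
    simp only [coe_filter, mem_range, Set.mem_ofPred_eq] at ha hb
    simp only at hab
    omega
  rw [h2]
  have h3 : ∑ i ∈ ((range P).filter (fun n => j < n)).image (fun n => n - j - 1), g i =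
      ∑ i ∈ (((range P).filter (fun n => j < n)).image (fun n => n - j - 1)).filter
        (fun i => i < Q), g i := by
    rw [sum_filter]
    apply sum_congr rfl
    intro i _
    split_ifs with h
    · rfl
    · exact h0 i (by omega)
  rw [h3]
  apply sum_le_sum_of_subset_of_nonneg
  · intro i hi
    exact mem_range.2 (mem_filter.1 hi).2
  · intro i _ _
    exact hg i

/-- weighted forward sums -/
theorem sum_sum_shift_right {g a : ℕ → ℝ} (hg : ∀ i, 0 ≤ g i) (ha : ∀ j, 0 ≤ a j) {Q : ℕ}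
    (h0 : ∀ i, Q ≤ i → g i = 0) (P J : ℕ) :
    ∑ n ∈ range P, ∑ j ∈ range J, a j * g (n + j) ≤
      (∑ j ∈ range J, a j) * ∑ i ∈ range Q, g i := by
  rw [sum_comm, sum_mul]
  apply sum_le_sum
  intro j _
  rw [← mul_sum]
  exact mul_le_mul_of_nonneg_left (sum_shift_right hg h0 P j) (ha j)

/-- weighted backward sums -/
theorem sum_sum_shift_left {g a : ℕ → ℝ} (hg : ∀ i, 0 ≤ g i) (ha : ∀ j, 0 ≤ a j) {Q : ℕ}
    (h0 : ∀ i, Q ≤ i → g i = 0) (P J : ℕ) :
    ∑ n ∈ range P, ∑ j ∈ range J, a j * (if j < n then g (n - j - 1) else 0) ≤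
      (∑ j ∈ range J, a j) * ∑ i ∈ range Q, g i := by
  rw [sum_comm, sum_mul]
  apply sum_le_sum
  intro j _
  rw [← mul_sum]
  exact mul_le_mul_of_nonneg_left (sum_shift_left hg h0 P j) (ha j)

end Crest.Agent.R314.Gs
end

-- ▼ part R314/Gs2
section

/-!
R314, module G3 (summation over levels), part 2: mass profiles.  Author: helper529.

`M i` = mass of the ball of radius `2^i r₁` about the requested point (`0 < M 0`, monotone, constant
from `Q` on), `lg M i = log (M (i+1) / M i)`.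
-/

set_option autoImplicit false

namespace Crest.Agent.R314.Gs

open Finset

/-- a mass profile -/
structure Profile (M : ℕ → ℝ) (Q : ℕ) : Prop where
  pos : 0 < M 0
  mono : Monotone M
  const : ∀ i, Q ≤ i → M i = M Q

/-- logarithmic increments -/
noncomputable def lg (M : ℕ → ℝ) (i : ℕ) : ℝ := Real.log (M (i + 1) / M i)

variable {M : ℕ → ℝ} {Q : ℕ}

namespace Profile

theorem pos' (h : Profile M Q) (i : ℕ) : 0 < M i := h.pos.trans_le (h.mono (Nat.zero_le i))

theorem le_total (h : Profile M Q) (i : ℕ) : M i ≤ M Q := by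
  rcases Nat.le_total i Q with hi | hi
  · exact h.mono hi
  · exact (h.const i hi).le

theorem lg_nonneg (h : Profile M Q) (i : ℕ) : 0 ≤ lg M i :=
  Real.log_nonneg ((one_le_div (h.pos' i)).2 (h.mono (Nat.le_succ i)))

theorem lg_zero (h : Profile M Q) (i : ℕ) (hi : Q ≤ i) : lg M i = 0 := by
  rw [lg, h.const i hi, h.const (i + 1) (by omega), div_self (h.pos' Q).ne', Real.log_one]

/-- telescoping -/
theorem sum_lg (h : Profile M Q) {a b : ℕ} (hab : a ≤ b) :
    ∑ i ∈ Ico a b, lg M i = Real.log (M b / M a) := by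
  induction b, hab using Nat.le_induction with
  | base => simp [div_self (h.pos' a).ne']
  | succ b hb ih =>
    rw [sum_Ico_succ_top hb, ih, lg, ← Real.log_mul (div_pos (h.pos' _) (h.pos' _)).ne'
      (div_pos (h.pos' _) (h.pos' _)).ne']
    congr 1
    have := (h.pos' a).ne'
    have := (h.pos' b).ne'
    field_simp

theorem sum_lg_total (h : Profile M Q) : ∑ i ∈ range Q, lg M i = Real.log (M Q / M 0) := by
  rw [range_eq_Ico, h.sum_lg (Nat.zero_le Q)]


/-- increments are controlled by logarithmic increments -/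
theorem sub_le (h : Profile M Q) (i : ℕ) : M (i + 1) - M i ≤ M (i + 1) * lg M i := by
  have h1 := h.pos' i
  have h2 := h.pos' (i + 1)
  have h3 := Real.one_sub_inv_le_log_of_pos (div_pos h2 h1)
  rw [inv_div] at h3
  unfold lg
  calc M (i + 1) - M i = M (i + 1) * (1 - M i / M (i + 1)) := by field_simp
    _ ≤ _ := by gcongr

/-! ### windows -/

/-- windows `[n - j, n + A)` -/
theorem sum_window (h : Profile M Q) (P A j : ℕ) :
    ∑ n ∈ range P, Real.log (M (n + A) / M (n - j)) ≤ (A + j) * Real.log (M Q / M 0) := by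
  have h1 : ∀ n, Real.log (M (n + A) / M (n - j)) ≤
      ∑ i ∈ range A, lg M (n + i) + ∑ i ∈ range j, (if i < n then lg M (n - i - 1) else 0) := by
    intro n
    rw [← h.sum_lg (a := n - j) (b := n + A) (by omega)]
    rw [← sum_Ico_consecutive _ (show n - j ≤ n by omega) (show n ≤ n + A by omega)]
    rw [add_comm]
    apply add_le_add
    · rw [sum_Ico_eq_sum_range]
      simp
    · rw [sum_Ico_eq_sum_range]
      have h2 : n - (n - j) = min j n := by omega
      rw [h2, ← sum_filter]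
      have h3 : (range j).filter (fun i => i < n) = range (min j n) := by
        ext x; simp
      rw [h3, ← sum_range_reflect]
      apply le_of_eq
      apply sum_congr rfl
      intro i hi
      rw [mem_range] at hi
      congr 1
      omega
  refine (sum_le_sum fun n _ => h1 n).trans ?_
  rw [sum_add_distrib, ← h.sum_lg_total]
  have e1 : ∑ n ∈ range P, ∑ i ∈ range A, lg M (n + i) ≤ A * ∑ i ∈ range Q, lg M i := by
    have := sum_sum_shift_right (g := lg M) (a := fun _ => (1 : ℝ)) h.lg_nonneg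
      (fun _ => zero_le_one) h.lg_zero P A
    simpa using this
  have e2 : ∑ n ∈ range P, ∑ i ∈ range j, (if i < n then lg M (n - i - 1) else 0) ≤
      j * ∑ i ∈ range Q, lg M i := by
    have := sum_sum_shift_left (g := lg M) (a := fun _ => (1 : ℝ)) h.lg_nonneg
      (fun _ => zero_le_one) h.lg_zero P j
    simpa using this
  linarith



/-- **tail part, trivial levels**: far mass with a summable kernel. `c j` is the growth allowed at
distance `j`. -/
theorem tail (h : Profile M Q) {a c : ℕ → ℝ} (ha : ∀ j, 0 ≤ a j) (hc : ∀ j, 0 ≤ c j)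
    (S : Finset ℕ) (hS : ∀ n ∈ S, ∀ j, M (n + j + 1) ≤ c j * M n) {P : ℕ} (hSP : ∀ n ∈ S, n < P)
    (J : ℕ) :
    ∑ n ∈ S, (∑ j ∈ range J, a j * (M (n + j + 1) - M (n + j))) / M n ≤
      (∑ j ∈ range J, a j * c j) * Real.log (M Q / M 0) := by
  rw [← h.sum_lg_total]
  have hSub : S ⊆ range P := fun n hn => mem_range.2 (hSP n hn)
  have h1 : ∑ n ∈ S, (∑ j ∈ range J, a j * (M (n + j + 1) - M (n + j))) / M n ≤
      ∑ n ∈ S, ∑ j ∈ range J, a j * c j * lg M (n + j) := by
    apply sum_le_sum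
    intro n hn
    rw [sum_div]
    apply sum_le_sum
    intro j _
    rw [mul_div_assoc, mul_assoc]
    apply mul_le_mul_of_nonneg_left _ (ha j)
    rw [div_le_iff₀ (h.pos' n)]
    have e1 := h.sub_le (n + j)
    have e2 := hS n hn j
    have e3 := h.lg_nonneg (n + j)
    nlinarith
  refine h1.trans (le_trans ?_ (sum_sum_shift_right (a := fun j => a j * c j) h.lg_nonneg
    (fun j => mul_nonneg (ha j) (hc j)) h.lg_zero P J))
  apply sum_le_sum_of_subset_of_nonneg hSub
  intro n _ _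
  apply sum_nonneg
  intro j _
  exact mul_nonneg (mul_nonneg (ha j) (hc j)) (h.lg_nonneg _)


end Profile

end Crest.Agent.R314.Gs
end

-- ▼ part R314/Gs3
section

/-!
R314, module G3, part 3: summation over the scales `R_i = 16 ^ i * R₀` of
`Γ_R(y) = ∫₀¹ log (m(B(y, 60 R)) / m(B(y, s R))) ds`.  Author: helper529.
-/

set_option autoImplicit false

namespace Crest.Agent.R314.Gs

open Finset MeasureTheory

variable {Y : Type*} [Fintype Y]

/-- mass of the closed ball of radius `r` about `y` for the distance function `d` -/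
noncomputable def bm (d : Y → Y → ℝ) (m : Y → ℝ) (y : Y) (r : ℝ) : ℝ :=
  ∑ x ∈ univ.filter (fun x => d x y ≤ r), m x

variable {d : Y → Y → ℝ} {m : Y → ℝ} {y : Y}

theorem bm_mono (hm : ∀ x, 0 ≤ m x) : Monotone (bm d m y) := by
  intro r r' h
  apply sum_le_sum_of_subset_of_nonneg
  · intro x hx
    rw [mem_filter] at hx ⊢
    exact ⟨hx.1, hx.2.trans h⟩
  · intro x _ _
    exact hm x

theorem bm_le (hm : ∀ x, 0 ≤ m x) (r : ℝ) : bm d m y r ≤ ∑ x, m x :=
  sum_le_sum_of_subset_of_nonneg (filter_subset _ _) fun x _ _ => hm x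




section

variable (hm : ∀ x, 0 ≤ m x) (hy : 0 < m y) (hd : d y y = 0)

include hm hy hd









end

end Crest.Agent.R314.Gs
end

-- ▼ part R314/Gs4
section

/-!
R314, module G3, part 4: the total increment of one flow over all the scales.  Author: helper529.
-/

set_option autoImplicit false

namespace Crest.Agent.R314.Gs

open Finset

/-- the scales below `x` have total size `≤ B / (B - 1) * x` -/
theorem sum_scales_lt {B R₀ x : ℝ} (hB : 1 < B) (hR₀ : 0 < R₀) (hx : 0 ≤ x) (I : ℕ) :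
    ∑ i ∈ (range I).filter (fun i => B ^ i * R₀ < x), B ^ i * R₀ ≤ B / (B - 1) * x := by
  have hB0 : (0 : ℝ) < B := by linarith
  have hB1 : 0 < B - 1 := by linarith
  have h0 : 0 ≤ B / (B - 1) * x := by positivity
  induction I with
  | zero => simpa using h0
  | succ I ih =>
    rw [range_add_one, filter_insert]
    split_ifs with h
    · -- all the smaller ones are `< x` too
      rw [sum_insert (by simp)]
      have h1 : ∑ i ∈ (range I).filter (fun i => B ^ i * R₀ < x), B ^ i * R₀ ≤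
          ∑ i ∈ range I, B ^ i * R₀ :=
        sum_le_sum_of_subset_of_nonneg (filter_subset _ _) fun i _ _ => by positivity
      have h2 : ∑ i ∈ range I, B ^ i * R₀ = (B ^ I - 1) / (B - 1) * R₀ := by
        rw [← sum_mul, geom_sum_eq hB.ne']
      have h3 : (B ^ I - 1) / (B - 1) * R₀ ≤ B ^ I * R₀ / (B - 1) := by
        rw [div_mul_eq_mul_div]
        gcongr
        linarith
      have h4 : B ^ I * R₀ + B ^ I * R₀ / (B - 1) = B / (B - 1) * (B ^ I * R₀) := by
        field_simp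
        ring
      calc _ ≤ B ^ I * R₀ + B ^ I * R₀ / (B - 1) := by linarith
        _ = B / (B - 1) * (B ^ I * R₀) := h4
        _ ≤ _ := by gcongr
    · exact ih


end Crest.Agent.R314.Gs
end

-- ▼ part R314/Gs5
section

/-!
R314, module G3, part 5: summation over the scales with a lower cut-off radius.
Author: helper529.
-/

set_option autoImplicit false

namespace Crest.Agent.R314.Gs

open Finset MeasureTheory

section Mono

variable {G : ℝ → ℝ} {g0 g1 : ℝ}

/-- For fixed `s` the sum over the scales telescopes (abstract form). -/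
theorem sum_fixed_mono (hG : MonotoneOn G (Set.Ici 0)) (h0 : ∀ r, 0 ≤ r → g0 ≤ G r)
    (h1 : ∀ r, 0 ≤ r → G r ≤ g1) {R₀ : ℝ} (hR₀ : 0 < R₀) {A : ℕ} {B : ℝ} (hB : 1 ≤ B) {a : ℝ}
    (ha : 0 ≤ a) (haB : a ≤ B ^ A) {s : ℝ} (j : ℕ) (hs : (B ^ j)⁻¹ ≤ s) (I : ℕ) :
    ∑ i ∈ range I, (G (a * (B ^ i * R₀)) - G (s * (B ^ i * R₀))) ≤ (A + j) * (g1 - g0) := by
  set M : ℕ → ℝ := fun n => if n = 0 then Real.exp g0 else
    if n ≤ I + A then Real.exp (G (B ^ (n - 1) * R₀)) else Real.exp g1 with hM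
  have hB0 : (0 : ℝ) < B := by linarith
  have hn0 : ∀ n : ℕ, (0 : ℝ) ≤ B ^ n * R₀ := fun n => by positivity
  have hpr : Profile M (I + A + 1) := by
    refine ⟨by simp only [hM, if_true]; positivity, ?_, ?_⟩
    · apply monotone_nat_of_le_succ
      intro n
      simp only [hM]
      by_cases hn : n = 0
      · subst hn
        rw [if_pos rfl, if_neg (by omega)]
        split_ifs with h2
        · exact Real.exp_le_exp.2 (h0 _ (hn0 _))
        · exact Real.exp_le_exp.2 ((h0 0 le_rfl).trans (h1 0 le_rfl))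
      · rw [if_neg hn, if_neg (Nat.succ_ne_zero n)]
        split_ifs with h2 h3
        · apply Real.exp_le_exp.2
          apply hG (hn0 _) (hn0 _)
          have : B ^ (n - 1) ≤ B ^ (n + 1 - 1) := pow_le_pow_right₀ hB (by omega)
          gcongr
        · exact Real.exp_le_exp.2 (h1 _ (hn0 _))
        · omega
        · exact le_rfl
    · intro i hi
      simp only [hM]
      rw [if_neg (by omega), if_neg (by omega), if_neg (by omega), if_neg (by omega)]
  have hQ : M (I + A + 1) = Real.exp g1 := by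
    simp only [hM]; rw [if_neg (by omega), if_neg (by omega)]
  have hM0 : M 0 = Real.exp g0 := by simp [hM]
  have hw := hpr.sum_window (I + 1) A j
  rw [hQ, hM0, ← Real.exp_sub, Real.log_exp] at hw
  refine le_trans ?_ hw
  rw [sum_range_succ' (fun n => Real.log (M (n + A) / M (n - j)))]
  have hlast : 0 ≤ Real.log (M (0 + A) / M (0 - j)) :=
    Real.log_nonneg ((one_le_div (hpr.pos' _)).2 (hpr.mono (by omega)))
  refine le_trans ?_ (le_add_of_nonneg_right hlast)
  apply sum_le_sum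
  intro i hi
  rw [mem_range] at hi
  have e0 := hpr.pos' (i + 1 + A)
  have e1 := hpr.pos' (i + 1 - j)
  rw [Real.log_div e0.ne' e1.ne']
  apply sub_le_sub
  · have : M (i + 1 + A) = Real.exp (G (B ^ (i + A) * R₀)) := by
      simp only [hM]
      rw [if_neg (by omega), if_pos (by omega)]
      congr 4
      omega
    rw [this, Real.log_exp]
    apply hG (mul_nonneg ha (hn0 i)) (hn0 _)
    calc a * (B ^ i * R₀) ≤ B ^ A * (B ^ i * R₀) := by gcongr
      _ = _ := by rw [pow_add]; ring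
  · have hs0 : 0 ≤ s := le_trans (by positivity) hs
    by_cases hij : i + 1 ≤ j
    · have : M (i + 1 - j) = Real.exp g0 := by
        have : i + 1 - j = 0 := by omega
        rw [this, hM0]
      rw [this, Real.log_exp]
      exact h0 _ (mul_nonneg hs0 (hn0 i))
    · have : M (i + 1 - j) = Real.exp (G (B ^ (i - j) * R₀)) := by
        simp only [hM]
        rw [if_neg (by omega), if_pos (by omega)]
        congr 4
        omega
      rw [this, Real.log_exp]
      apply hG (hn0 _) (mul_nonneg hs0 (hn0 i))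
      have h2 : B ^ (i - j) = (B ^ j)⁻¹ * B ^ i := by
        rw [pow_sub₀ B hB0.ne' (by omega)]
        ring
      rw [h2]
      calc (B ^ j)⁻¹ * B ^ i * R₀ = (B ^ j)⁻¹ * (B ^ i * R₀) := by ring
        _ ≤ s * (B ^ i * R₀) := by gcongr

theorem intervalIntegrable_mono (hG : MonotoneOn G (Set.Ici 0)) {R : ℝ} (hR : 0 ≤ R) {a b : ℝ}
    (ha : 0 ≤ a) (hb : 0 ≤ b) : IntervalIntegrable (fun s => G (s * R)) volume a b := by
  apply MonotoneOn.intervalIntegrable
  intro s hs t ht hst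
  have h0 : 0 ≤ s := by
    rcases Set.mem_uIcc.1 hs with h | h
    · exact ha.trans h.1
    · exact hb.trans h.1
  have ht0 : 0 ≤ t := h0.trans hst
  exact hG (mul_nonneg h0 hR) (mul_nonneg ht0 hR) (mul_le_mul_of_nonneg_right hst hR)

/-- **Summation over the scales** `R_i = B ^ i * R₀`, abstract form. -/
theorem sum_mono_le (hG : MonotoneOn G (Set.Ici 0)) (h0 : ∀ r, 0 ≤ r → g0 ≤ G r)
    (h1 : ∀ r, 0 ≤ r → G r ≤ g1) {R₀ : ℝ} (hR₀ : 0 < R₀) {A : ℕ} {B : ℝ} (hB : 1 < B) {a : ℝ}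
    (ha : 0 ≤ a) (haB : a ≤ B ^ A) (I : ℕ) :
    ∑ i ∈ range I, ∫ s in (0 : ℝ)..1, (G (a * (B ^ i * R₀)) - G (s * (B ^ i * R₀))) ≤
      (A + 1 + 1 / Real.log B) * (g1 - g0) := by
  have hlB : 0 < Real.log B := Real.log_pos hB
  have hB0 : (0 : ℝ) < B := by linarith
  set L : ℝ := g1 - g0 with hL
  have hL0 : 0 ≤ L := sub_nonneg.2 ((h0 0 le_rfl).trans (h1 0 le_rfl))
  have hint : ∀ i ∈ range I, IntervalIntegrable (fun s : ℝ => G (a * (B ^ i * R₀)) -
      G (s * (B ^ i * R₀))) volume 0 1 := fun i _ =>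
    intervalIntegrable_const.sub
      (intervalIntegrable_mono hG (by positivity) le_rfl zero_le_one)
  rw [← intervalIntegral.integral_finsetSum hint]
  have hlog : IntervalIntegrable (fun s : ℝ => Real.log s) volume 0 1 :=
    intervalIntegral.intervalIntegrable_log'
  have hmaj : IntervalIntegrable (fun s : ℝ => (A + 1 - Real.log s / Real.log B) * L) volume 0 1 :=
    (intervalIntegrable_const.sub (hlog.div_const _)).mul_const _
  have hsum : IntervalIntegrable (fun s : ℝ => ∑ i ∈ range I,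
      (G (a * (B ^ i * R₀)) - G (s * (B ^ i * R₀)))) volume 0 1 := by
    have e : (fun s : ℝ => ∑ i ∈ range I, (G (a * (B ^ i * R₀)) - G (s * (B ^ i * R₀)))) =
        ∑ i ∈ range I, fun s : ℝ => (G (a * (B ^ i * R₀)) - G (s * (B ^ i * R₀))) := by
      funext s
      rw [Finset.sum_apply]
    rw [e]
    exact IntervalIntegrable.sum (range I) hint
  have hle : (∫ s in (0 : ℝ)..1, ∑ i ∈ range I,
      (G (a * (B ^ i * R₀)) - G (s * (B ^ i * R₀)))) ≤
      ∫ s in (0 : ℝ)..1, (A + 1 - Real.log s / Real.log B) * L := by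
    apply intervalIntegral.integral_mono_on_of_le_Ioo zero_le_one hsum hmaj
    intro s hs
    set j : ℕ := ⌈-Real.log s / Real.log B⌉₊ with hj
    have hls : 0 ≤ -Real.log s := by
      have := Real.log_nonpos hs.1.le hs.2.le
      linarith
    have h1' : (B ^ j)⁻¹ ≤ s := by
      have h2 : -Real.log s / Real.log B ≤ j := Nat.le_ceil _
      rw [div_le_iff₀ hlB] at h2
      rw [← Real.log_le_log_iff (by positivity) hs.1, Real.log_inv, Real.log_pow]
      linarith
    have h2 : (j : ℝ) ≤ 1 - Real.log s / Real.log B := by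
      have := (Nat.ceil_lt_add_one (a := -Real.log s / Real.log B) (by positivity)).le
      have e : -Real.log s / Real.log B = - (Real.log s / Real.log B) := by ring
      rw [← hj, e] at this
      linarith
    refine (sum_fixed_mono hG h0 h1 hR₀ hB.le ha haB j h1' I).trans ?_
    rw [← hL]
    apply mul_le_mul_of_nonneg_right _ hL0
    linarith
  refine hle.trans (le_of_eq ?_)
  rw [intervalIntegral.integral_mul_const]
  congr 1
  rw [intervalIntegral.integral_sub intervalIntegrable_const (hlog.div_const _),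
    intervalIntegral.integral_const, intervalIntegral.integral_div, integral_log]
  simp
  ring

end Mono

section Cut

variable {Y : Type*} [Fintype Y] {d : Y → Y → ℝ} {m : Y → ℝ} {y : Y}

/-- the growth functional at scale `R` with lower cut-off radius `r1` -/
noncomputable def GamR (d : Y → Y → ℝ) (m : Y → ℝ) (y : Y) (A R r1 : ℝ) : ℝ :=
  ∫ s in (0 : ℝ)..1, (Real.log (bm d m y (A * R)) - Real.log (bm d m y (max (s * R) r1)))



theorem GamR_nonneg (hm : ∀ x, 0 ≤ m x) {r1 : ℝ} (hp : 0 < bm d m y r1) {A R : ℝ} (hA : 1 ≤ A)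
    (hR : 0 ≤ R) (hr : r1 ≤ R) : 0 ≤ GamR d m y A R r1 := by
  apply intervalIntegral.integral_nonneg zero_le_one
  intro s hs
  have : Real.log (bm d m y (max (s * R) r1)) ≤ Real.log (bm d m y (A * R)) := by
    apply Real.log_le_log (hp.trans_le (bm_mono hm (le_max_right _ _)))
    apply bm_mono hm
    apply max_le
    · exact mul_le_mul_of_nonneg_right (hs.2.trans hA) hR
    · nlinarith
  linarith

/-- **Summation over the scales with a cut-off.** -/
theorem sum_GamR_le (hm : ∀ x, 0 ≤ m x) {r1 : ℝ} (hp : 0 < bm d m y r1) {R₀ : ℝ} (hR₀ : 0 < R₀)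
    {A : ℕ} {B : ℝ} (hB : 1 < B) {a : ℝ} (ha : 1 ≤ a) (haB : a ≤ B ^ A) (I : ℕ) :
    ∑ i ∈ (range I).filter (fun i => r1 ≤ B ^ i * R₀), GamR d m y a (B ^ i * R₀) r1 ≤
      (A + 1 + 1 / Real.log B) * Real.log ((∑ x, m x) / bm d m y r1) := by
  set G : ℝ → ℝ := fun r => Real.log (bm d m y (max r r1)) with hGdef
  have hpos : ∀ r, 0 < bm d m y (max r r1) := fun r => hp.trans_le (bm_mono hm (le_max_right _ _))
  have hmono : Monotone G := fun r r' h =>
    Real.log_le_log (hpos r) (bm_mono hm (max_le_max_right _ h))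
  have hSpos : 0 < ∑ x, m x := hp.trans_le (bm_le hm _)
  have hkey := sum_mono_le (G := G) (g0 := Real.log (bm d m y r1)) (g1 := Real.log (∑ x, m x))
    (hmono.monotoneOn _)
    (fun r _ => Real.log_le_log hp (bm_mono hm (le_max_right _ _)))
    (fun r _ => Real.log_le_log (hpos r) (bm_le hm _)) hR₀ hB (by linarith) haB I
  rw [← Real.log_div hSpos.ne' hp.ne'] at hkey
  refine le_trans ?_ hkey
  calc ∑ i ∈ (range I).filter (fun i => r1 ≤ B ^ i * R₀), GamR d m y a (B ^ i * R₀) r1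
      = ∑ i ∈ (range I).filter (fun i => r1 ≤ B ^ i * R₀),
          ∫ s in (0 : ℝ)..1, (G (a * (B ^ i * R₀)) - G (s * (B ^ i * R₀))) := by
        apply sum_congr rfl
        intro i hi
        rw [mem_filter] at hi
        unfold GamR
        congr 1
        funext s
        simp only [hGdef]
        congr 3
        symm
        apply max_eq_left
        have : 0 < B ^ i * R₀ := by positivity
        nlinarith [hi.2]
    _ ≤ _ := by
        apply sum_le_sum_of_subset_of_nonneg (filter_subset _ _)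
        intro i _ _
        apply intervalIntegral.integral_nonneg zero_le_one
        intro s hs
        have h1 : (0 : ℝ) ≤ B ^ i * R₀ := by positivity
        have := hmono (mul_le_mul_of_nonneg_right (hs.2.trans ha) h1)
        linarith

end Cut

/-- geometric sum over the large scales -/
theorem sum_scales_ge {B R₀ x : ℝ} (hB : 1 < B) (hR₀ : 0 < R₀) (_hx : 0 ≤ x) (I : ℕ) :
    ∑ i ∈ (range I).filter (fun i => x ≤ B ^ i * R₀), x / (B ^ i * R₀) ≤ B / (B - 1) := by
  have hB0 : (0 : ℝ) < B := by linarith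
  have hB1 : 0 < B - 1 := by linarith
  have hBB : (0 : ℝ) ≤ B / (B - 1) := by positivity
  set F := (range I).filter (fun i => x ≤ B ^ i * R₀) with hF
  rcases F.eq_empty_or_nonempty with he | hne
  · rw [he]; simpa using hBB
  · set i₀ := F.min' hne with hi₀
    have hmem : i₀ ∈ F := F.min'_mem hne
    have hx0 : x ≤ B ^ i₀ * R₀ := (mem_filter.1 hmem).2
    have hi₀I : i₀ < I := mem_range.1 (mem_filter.1 hmem).1
    have h1 : ∀ i ∈ F, x / (B ^ i * R₀) ≤ (B⁻¹) ^ (i - i₀) := by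
      intro i hi
      have hle : i₀ ≤ i := F.min'_le i hi
      rw [div_le_iff₀ (by positivity), inv_pow]
      have : B ^ i = B ^ (i - i₀) * B ^ i₀ := by rw [← pow_add]; congr 1; omega
      rw [this]
      have e : (B ^ (i - i₀))⁻¹ * (B ^ (i - i₀) * B ^ i₀ * R₀) = B ^ i₀ * R₀ := by
        field_simp
      rw [e]
      exact hx0
    calc ∑ i ∈ F, x / (B ^ i * R₀) ≤ ∑ i ∈ F, (B⁻¹) ^ (i - i₀) := sum_le_sum h1
      _ ≤ ∑ i ∈ Ico i₀ I, (B⁻¹) ^ (i - i₀) := by
          apply sum_le_sum_of_subset_of_nonneg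
          · intro i hi
            rw [mem_Ico]
            exact ⟨F.min'_le i hi, mem_range.1 (mem_filter.1 hi).1⟩
          · intro i _ _
            positivity
      _ = ∑ j ∈ range (I - i₀), (B⁻¹) ^ j := by
          rw [sum_Ico_eq_sum_range]
          apply sum_congr rfl
          intro j _
          congr 1
          omega
      _ ≤ (1 - B⁻¹)⁻¹ := by
          have hlt : B⁻¹ < 1 := inv_lt_one_of_one_lt₀ hB
          have hb0 : (0 : ℝ) ≤ B⁻¹ := by positivity
          rw [← tsum_geometric_of_lt_one hb0 hlt]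
          exact (summable_geometric_of_lt_one hb0 hlt).sum_le_tsum _ fun j _ => by positivity
      _ = B / (B - 1) := by
          field_simp

/-- `∑ R_i min 1 ((r1/R_i)^2) ≤ C r1` -/
theorem sum_price_cut {B R₀ r1 : ℝ} (hB : 1 < B) (hR₀ : 0 < R₀) (hr : 0 ≤ r1) (I : ℕ) :
    ∑ i ∈ range I, B ^ i * R₀ * min 1 ((r1 / (B ^ i * R₀)) ^ 2) ≤ 2 * (B / (B - 1)) * r1 := by
  have hB0 : (0 : ℝ) < B := by linarith
  have hB1 : 0 < B - 1 := by linarith
  rw [← sum_filter_add_sum_filter_not (range I) (fun i => B ^ i * R₀ < r1)]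
  have h1 : ∑ i ∈ (range I).filter (fun i => B ^ i * R₀ < r1),
      B ^ i * R₀ * min 1 ((r1 / (B ^ i * R₀)) ^ 2) ≤ B / (B - 1) * r1 := by
    refine le_trans (sum_le_sum fun i _ => ?_) (sum_scales_lt hB hR₀ hr I)
    have : 0 < B ^ i * R₀ := by positivity
    calc B ^ i * R₀ * min 1 ((r1 / (B ^ i * R₀)) ^ 2) ≤ B ^ i * R₀ * 1 := by
          gcongr; exact min_le_left _ _
      _ = _ := mul_one _
  have h2 : ∑ i ∈ (range I).filter (fun i => ¬ B ^ i * R₀ < r1),
      B ^ i * R₀ * min 1 ((r1 / (B ^ i * R₀)) ^ 2) ≤ B / (B - 1) * r1 := by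
    have h3 := sum_scales_ge hB hR₀ hr I
    calc ∑ i ∈ (range I).filter (fun i => ¬ B ^ i * R₀ < r1),
          B ^ i * R₀ * min 1 ((r1 / (B ^ i * R₀)) ^ 2)
        ≤ ∑ i ∈ (range I).filter (fun i => r1 ≤ B ^ i * R₀), r1 / (B ^ i * R₀) * r1 := by
          simp only [not_lt]
          apply sum_le_sum
          intro i _
          have hp : 0 < B ^ i * R₀ := by positivity
          calc B ^ i * R₀ * min 1 ((r1 / (B ^ i * R₀)) ^ 2)
              ≤ B ^ i * R₀ * (r1 / (B ^ i * R₀)) ^ 2 := by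
                gcongr; exact min_le_right _ _
            _ = r1 / (B ^ i * R₀) * r1 := by field_simp
      _ = (∑ i ∈ (range I).filter (fun i => r1 ≤ B ^ i * R₀), r1 / (B ^ i * R₀)) * r1 := by
          rw [sum_mul]
      _ ≤ B / (B - 1) * r1 := by gcongr
  linarith

/-- square-root version of the geometric sum over the large scales -/
theorem sum_sqrt_scales_ge {B R₀ x : ℝ} (hB : 1 < B) (hR₀ : 0 < R₀) (hx : 0 ≤ x) (I : ℕ) :
    ∑ i ∈ (range I).filter (fun i => x ≤ B ^ i * R₀), Real.sqrt (x / (B ^ i * R₀)) ≤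
      Real.sqrt B / (Real.sqrt B - 1) := by
  have hB0 : (0 : ℝ) < B := by linarith
  have hsB : 1 < Real.sqrt B := by
    rw [show (1 : ℝ) = Real.sqrt 1 by simp]
    exact Real.sqrt_lt_sqrt zero_le_one hB
  have key := sum_scales_ge hsB (Real.sqrt_pos.2 hR₀) (Real.sqrt_nonneg x) I
  have e : ∀ i : ℕ, Real.sqrt B ^ i * Real.sqrt R₀ = Real.sqrt (B ^ i * R₀) := by
    intro i
    induction i with
    | zero => simp
    | succ i ih =>
      rw [pow_succ, pow_succ, mul_right_comm, ih, ← Real.sqrt_mul (by positivity)]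
      congr 1
      ring
  simp only [e] at key
  have hfil : (range I).filter (fun i => Real.sqrt x ≤ Real.sqrt (B ^ i * R₀)) =
      (range I).filter (fun i => x ≤ B ^ i * R₀) := by
    apply filter_congr
    intro i _
    exact Real.sqrt_le_sqrt_iff (by positivity)
  rw [hfil] at key
  refine le_trans (le_of_eq ?_) key
  apply sum_congr rfl
  intro i _
  rw [Real.sqrt_div hx]

theorem mul_log_inv_le {r : ℝ} (hr : 0 ≤ r) : r * Real.log (1 / r) ≤ 2 * Real.sqrt r := by
  rcases hr.eq_or_lt with h | h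
  · rw [← h]; simp
  · have hs : 0 < Real.sqrt r := Real.sqrt_pos.2 h
    have h1 : Real.log (1 / Real.sqrt r) ≤ 1 / Real.sqrt r - 1 :=
      Real.log_le_sub_one_of_pos (by positivity)
    have h2 : Real.log (1 / r) = 2 * Real.log (1 / Real.sqrt r) := by
      rw [one_div, one_div, Real.log_inv, Real.log_inv, Real.log_sqrt h.le]
      ring
    have h3 : r = Real.sqrt r * Real.sqrt r := (Real.mul_self_sqrt h.le).symm
    rw [h2]
    calc r * (2 * Real.log (1 / Real.sqrt r)) ≤ r * (2 * (1 / Real.sqrt r - 1)) := by gcongr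
      _ ≤ r * (2 * (1 / Real.sqrt r)) := by
          gcongr
          linarith
      _ = 2 * Real.sqrt r := by
          nth_rewrite 1 [h3]
          field_simp

/-- `∑ r_i log (2/a_i) ≤ C (1 + log (8k))` over the large scales, `a_i = r_i² / (4k)`. -/
theorem sum_floor_le {B R₀ r1 k : ℝ} (hB : 1 < B) (hR₀ : 0 < R₀) (hr : 0 ≤ r1) (hk : 1 ≤ k)
    (I : ℕ) :
    ∑ i ∈ (range I).filter (fun i => r1 ≤ B ^ i * R₀), (r1 / (B ^ i * R₀)) *
        Real.log (2 / (1 / (4 * k) * min 1 ((r1 / (B ^ i * R₀)) ^ 2))) ≤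
      B / (B - 1) * Real.log (8 * k) + 4 * (Real.sqrt B / (Real.sqrt B - 1)) := by
  have hlog : 0 ≤ Real.log (8 * k) := Real.log_nonneg (by linarith)
  have h1 : ∀ i ∈ (range I).filter (fun i => r1 ≤ B ^ i * R₀), (r1 / (B ^ i * R₀)) *
        Real.log (2 / (1 / (4 * k) * min 1 ((r1 / (B ^ i * R₀)) ^ 2))) ≤
      r1 / (B ^ i * R₀) * Real.log (8 * k) + 4 * Real.sqrt (r1 / (B ^ i * R₀)) := by
    intro i hi
    have hp : 0 < B ^ i * R₀ := by positivity
    set t := r1 / (B ^ i * R₀) with ht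
    have ht0 : 0 ≤ t := by positivity
    have ht1 : t ≤ 1 := by
      rw [ht, div_le_one hp]
      exact (mem_filter.1 hi).2
    rcases ht0.eq_or_lt with h | h
    · rw [← h]; simp
    · have hmin : min 1 (t ^ 2) = t ^ 2 := min_eq_right (by nlinarith)
      have e : (2 : ℝ) / (1 / (4 * k) * min 1 (t ^ 2)) = 8 * k * (1 / t) ^ 2 := by
        rw [hmin]
        field_simp
        ring
      rw [e, Real.log_mul (by positivity) (by positivity), Real.log_pow]
      have := mul_log_inv_le ht0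
      push_cast
      nlinarith
  refine (sum_le_sum h1).trans ?_
  rw [sum_add_distrib, ← sum_mul, ← mul_sum]
  gcongr
  · exact sum_scales_ge hB hR₀ hr I
  · exact sum_sqrt_scales_ge hB hR₀ hr I

end Crest.Agent.R314.Gs
end

-- ▼ part R314/G1_F2
section

/-!
R314, module G, part F2: the discrete growth functional (with cut-off) of `IM.ofDist` is at most
twice the continuous one.  Author: helper334.
-/

set_option autoImplicit false
set_option linter.unusedSectionVars false

namespace Crest.Agent.R314.G1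

open Finset MeasureTheory

/-- Left-endpoint sums against the integral of a nonnegative function: the cell `s ≥ 1` is compared
with the cell before it, the cell `0` with itself. -/
theorem disc_le_integral {f : ℝ → ℝ} {T : ℕ → ℝ} {n : ℕ} (hn : 0 < n)
    (hf : IntervalIntegrable f volume 0 1) (hf0 : ∀ t ∈ Set.Icc (0 : ℝ) 1, 0 ≤ f t)
    (h0 : ∀ t : ℝ, 0 < t → t < 1 / (n : ℝ) → T 0 ≤ f t)
    (hT : ∀ s : ℕ, s + 1 < n → ∀ t : ℝ, (s : ℝ) / n < t → t < ((s : ℝ) + 1) / n → T (s + 1) ≤ f t) :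
    (∑ s ∈ range n, T s) / n ≤ 2 * ∫ t in (0 : ℝ)..1, f t := by
  have hnr : (0 : ℝ) < n := by exact_mod_cast hn
  obtain ⟨n', rfl⟩ : ∃ n', n = n' + 1 := ⟨n - 1, by omega⟩
  set n := n' + 1 with hndef
  -- cells
  set a : ℕ → ℝ := fun s => (s : ℝ) / n with ha
  have ha0 : a 0 = 0 := by simp [ha]
  have han : a n = 1 := by simp only [ha]; exact div_self hnr.ne'
  have hmono : Monotone a := by
    intro s t hst
    simp only [ha]
    gcongr
  have ha01 : ∀ s ≤ n, a s ∈ Set.Icc (0 : ℝ) 1 := by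
    intro s hs
    refine ⟨by simp only [ha]; positivity, ?_⟩
    rw [← han]
    exact hmono hs
  have hsub : ∀ s < n, IntervalIntegrable f volume (a s) (a (s + 1)) := by
    intro s hs
    apply hf.mono_set
    rw [Set.uIcc_of_le zero_le_one, Set.uIcc_of_le (hmono (Nat.le_succ s))]
    intro t ht
    exact ⟨(ha01 s hs.le).1.trans ht.1, ht.2.trans (ha01 (s + 1) hs).2⟩
  have hlen : ∀ s : ℕ, a (s + 1) - a s = 1 / n := by
    intro s
    simp only [ha]
    push_cast
    field_simp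
    ring
  have hcell : ∀ s < n, ∀ c : ℝ, (∀ t, a s < t → t < a (s + 1) → c ≤ f t) →
      c / n ≤ ∫ t in (a s)..(a (s + 1)), f t := by
    intro s hs c hc
    have h1 : ∫ _ in (a s)..(a (s + 1)), c = c / n := by
      rw [intervalIntegral.integral_const, hlen, smul_eq_mul]
      ring
    rw [← h1]
    apply intervalIntegral.integral_mono_on_of_le_Ioo (hmono (Nat.le_succ s))
      intervalIntegrable_const (hsub s hs)
    intro t ht
    exact hc t ht.1 ht.2
  have hnn : ∀ s < n, 0 ≤ ∫ t in (a s)..(a (s + 1)), f t := by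
    intro s hs
    apply intervalIntegral.integral_nonneg (hmono (Nat.le_succ s))
    intro t ht
    exact hf0 t ⟨(ha01 s hs.le).1.trans ht.1, ht.2.trans (ha01 (s + 1) hs).2⟩
  have hsum : ∑ s ∈ range n, ∫ t in (a s)..(a (s + 1)), f t = ∫ t in (0 : ℝ)..1, f t := by
    rw [intervalIntegral.sum_integral_adjacent_intervals hsub, ha0, han]
  have hsum' : ∑ s ∈ range n', ∫ t in (a s)..(a (s + 1)), f t ≤ ∫ t in (0 : ℝ)..1, f t := by
    rw [← hsum, hndef, sum_range_succ]
    have := hnn n' (by omega)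
    linarith
  have hzero : T 0 / n ≤ ∫ t in (0 : ℝ)..1, f t := by
    have h1 : T 0 / n ≤ ∫ t in (a 0)..(a (0 + 1)), f t := by
      apply hcell 0 hn
      intro t ht1 ht2
      apply h0 t
      · rwa [ha0] at ht1
      · simpa [ha] using ht2
    refine h1.trans ?_
    rw [← hsum]
    exact single_le_sum (f := fun s => ∫ t in (a s)..(a (s + 1)), f t)
      (fun s hs => hnn s (mem_range.1 hs)) (mem_range.2 hn)
  have hrest : (∑ s ∈ range n', T (s + 1)) / n ≤ ∫ t in (0 : ℝ)..1, f t := by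
    refine le_trans ?_ hsum'
    rw [sum_div]
    apply sum_le_sum
    intro s hs
    rw [mem_range] at hs
    apply hcell s (by omega)
    intro t ht1 ht2
    apply hT s (by omega) t
    · simpa [ha] using ht1
    · simpa [ha] using ht2
  rw [hndef, sum_range_succ', add_div]
  rw [← hndef]
  linarith

variable {X : Type*} [MetricSpace X] [Fintype X] [DecidableEq X]

section

variable {R : ℝ} {J : ℕ} (hR : 0 < R) (hJ : 0 < J)

/-- masses of balls of grid radii -/
theorem bm_ofDist (m : X → ℝ) (y : X) (s : ℕ) :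
    (IM.ofDist R J hR hJ).bm m y ((s : ℝ) / (2 * J)) =
      Gs.bm dist m y ((s : ℝ) / (2 * J) * R) := by
  unfold IM.bm Gs.bm
  rw [sum_filter]
  apply sum_congr rfl
  intro x _
  have := IM.ofDist_le_iff hR hJ y x s
  rw [dist_comm y x] at this
  by_cases h : dist x y ≤ (s : ℝ) / (2 * J) * R
  · rw [if_pos h, if_pos (this.2 h)]
  · rw [if_neg h, if_neg (fun h' => h (this.1 h'))]

theorem bm_ofDist_nat (m : X → ℝ) (y : X) (c : ℕ) :
    (IM.ofDist R J hR hJ).bm m y c = Gs.bm dist m y (c * R) := by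
  have hJr : (0 : ℝ) < J := by exact_mod_cast hJ
  have h := bm_ofDist hR hJ m y (c * (2 * J))
  push_cast at h
  rw [mul_div_assoc, div_self (by positivity), mul_one] at h
  exact h

/-- **discrete to continuous**: cut-off index `ρ`, real cut-off `r₁ ≤ ρ R / (2J)`. -/
theorem GamR_le_GsGamR {m : X → ℝ} (hm : ∀ x, 0 ≤ m x) {y : X}
    (hfine : ∀ x z : X, x ≠ z → R ≤ 2 * J * dist x z) {ρ : ℕ} {r1 : ℝ} (hr1 : 0 ≤ r1)
    (hρ : r1 ≤ (ρ : ℝ) / (2 * J) * R) (hρ60 : ρ ≤ 120 * J) (hpos : 0 < Gs.bm dist m y r1) :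
    (IM.ofDist R J hR hJ).GamR m y ((ρ : ℝ) / (2 * J)) ≤ 2 * Gs.GamR dist m y 60 R r1 := by
  have hJr : (0 : ℝ) < J := by exact_mod_cast hJ
  set M := IM.ofDist (X := X) R J hR hJ with hM
  have hMJ : M.J = J := rfl
  have h60 : M.bm m y 60 = Gs.bm dist m y (60 * R) := by
    have := bm_ofDist_nat hR hJ m y 60
    exact_mod_cast this
  have hmono : Monotone (Gs.bm dist m y) := Gs.bm_mono hm
  have hposr : ∀ r, r1 ≤ r → 0 < Gs.bm dist m y r := fun r hr => hpos.trans_le (hmono hr)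
  have hlog : ∀ r r', r1 ≤ r → r ≤ r' →
      Real.log (Gs.bm dist m y r) ≤ Real.log (Gs.bm dist m y r') :=
    fun r r' h1 h2 => Real.log_le_log (hposr r h1) (hmono h2)
  -- the terms
  have hr60 : r1 ≤ 60 * R := by
    refine hρ.trans ?_
    apply mul_le_mul_of_nonneg_right _ hR.le
    rw [div_le_iff₀ (by positivity)]
    have : (ρ : ℝ) ≤ 120 * J := by exact_mod_cast hρ60
    linarith
  have hterm : ∀ s : ℕ, M.bm m y (max ((s : ℝ) / (2 * J)) ((ρ : ℝ) / (2 * J))) =
      Gs.bm dist m y (((max s ρ : ℕ) : ℝ) / (2 * J) * R) := by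
    intro s
    have h1 : max ((s : ℝ) / (2 * J)) ((ρ : ℝ) / (2 * J)) = ((max s ρ : ℕ) : ℝ) / (2 * J) := by
      rw [Nat.cast_max]
      exact (max_div_div_right (by positivity) _ _)
    rw [h1]
    exact bm_ofDist hR hJ m y _
  have hge : ∀ s : ℕ, r1 ≤ ((max s ρ : ℕ) : ℝ) / (2 * J) * R := by
    intro s
    refine hρ.trans ?_
    gcongr
    exact_mod_cast le_max_right s ρ
  have hT : ∀ s : ℕ, Real.log (M.bm m y 60 / M.bm m y (max ((s : ℝ) / (2 * M.J))
      ((ρ : ℝ) / (2 * J)))) = Real.log (Gs.bm dist m y (60 * R)) -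
        Real.log (Gs.bm dist m y (((max s ρ : ℕ) : ℝ) / (2 * J) * R)) := by
    intro s
    rw [hMJ, hterm, h60, Real.log_div (hposr _ hr60).ne' (hposr _ (hge s)).ne']
  have key := disc_le_integral (n := 2 * J) (by omega)
    (f := fun s => Real.log (Gs.bm dist m y (60 * R)) -
      Real.log (Gs.bm dist m y (max (s * R) r1)))
    (T := fun s : ℕ => Real.log (Gs.bm dist m y (60 * R)) -
        Real.log (Gs.bm dist m y (((max s ρ : ℕ) : ℝ) / (2 * J) * R))) ?_ ?_ ?_ ?_
  · unfold IM.GamR Gs.GamR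
    rw [hMJ]
    have e : ∑ s ∈ range (2 * J), Real.log (M.bm m y 60 / M.bm m y (max ((s : ℝ) / (2 * J))
        ((ρ : ℝ) / (2 * J)))) = ∑ s ∈ range (2 * J), (Real.log (Gs.bm dist m y (60 * R)) -
        Real.log (Gs.bm dist m y (((max s ρ : ℕ) : ℝ) / (2 * J) * R))) :=
      sum_congr rfl fun s _ => hT s
    rw [e]
    push_cast at key ⊢
    exact key
  · apply IntervalIntegrable.sub intervalIntegrable_const
    apply MonotoneOn.intervalIntegrable
    intro s _ t _ hst
    apply hlog _ _ (le_max_right _ _)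
    gcongr
  · intro t ht
    have := hlog (max (t * R) r1) (60 * R) (le_max_right _ _) (max_le (by
      apply mul_le_mul_of_nonneg_right _ hR.le
      linarith [ht.2]) hr60)
    linarith
  · intro t ht0 ht1
    have h1 : Real.log (Gs.bm dist m y (max (t * R) r1)) ≤
        Real.log (Gs.bm dist m y (((max 0 ρ : ℕ) : ℝ) / (2 * J) * R)) := by
      have htR : t * R ≤ 1 / (2 * J) * R := by
        have : t ≤ 1 / (2 * J) := by push_cast at ht1; exact ht1.le
        gcongr
      rcases Nat.eq_zero_or_pos ρ with h | h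
      · -- trivial balls
        subst h
        have hr10 : r1 = 0 := by
          apply le_antisymm _ hr1
          simpa using hρ
        subst hr10
        rw [max_eq_left (by positivity)]
        apply le_of_eq
        congr 1
        unfold Gs.bm
        apply sum_congr _ fun _ _ => rfl
        ext x
        simp only [mem_filter, mem_univ, true_and]
        constructor
        · intro h1
          by_cases hxy : y = x
          · subst hxy; simp
          · exfalso
            have h2 := hfine x y (Ne.symm hxy)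
            have h3 : t * R < 1 / (2 * J) * R := by
              have : t < 1 / (2 * J) := by push_cast at ht1; exact ht1
              gcongr
            have h4 : 1 / (2 * (J : ℝ)) * R ≤ dist x y := by
              rw [div_mul_eq_mul_div, one_mul, div_le_iff₀ (by positivity)]
              linarith
            linarith
        · intro h1
          have h2 : dist x y ≤ 0 := by simpa using h1
          exact h2.trans (by positivity)
      · apply hlog _ _ (le_max_right _ _)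
        apply max_le _ (hge 0)
        refine htR.trans ?_
        have h1 : (1 : ℝ) ≤ ((max 0 ρ : ℕ) : ℝ) := by
          have : 1 ≤ max 0 ρ := le_max_of_le_right h
          exact_mod_cast this
        gcongr
    linarith
  · intro s hs t ht0 ht1
    have h1 : Real.log (Gs.bm dist m y (max (t * R) r1)) ≤
        Real.log (Gs.bm dist m y (((max (s + 1) ρ : ℕ) : ℝ) / (2 * J) * R)) := by
      apply hlog _ _ (le_max_right _ _)
      apply max_le _ (hge (s + 1))
      push_cast at ht1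
      have h2 : t ≤ ((s : ℝ) + 1) / (2 * J) := ht1.le
      have h3 : ((s : ℝ) + 1) ≤ ((max (s + 1) ρ : ℕ) : ℝ) := by
        have : s + 1 ≤ max (s + 1) ρ := le_max_left _ _
        exact_mod_cast this
      calc t * R ≤ ((s : ℝ) + 1) / (2 * J) * R := by gcongr
        _ ≤ _ := by gcongr
    linarith

/-- the cut-off index of the real cut-off `r₁` -/
theorem exists_rho {r1 : ℝ} (hr1 : 0 ≤ r1) (h : r1 = 0 ∨ R ≤ 2 * J * r1) (hR : 0 < R)
    (hJ : 0 < J) : ∃ ρ : ℕ, r1 ≤ (ρ : ℝ) / (2 * J) * R ∧ (ρ : ℝ) / (2 * J) ≤ 2 * (r1 / R) := by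
  have hJr : (0 : ℝ) < J := by exact_mod_cast hJ
  refine ⟨⌈2 * (J : ℝ) * r1 / R⌉₊, ?_, ?_⟩
  · have h1 := Nat.le_ceil (2 * (J : ℝ) * r1 / R)
    rw [div_le_iff₀ hR] at h1
    rw [div_mul_eq_mul_div, le_div_iff₀ (by positivity)]
    linarith
  · rcases h with h | h
    · subst h; simp
    · have h1 : 1 ≤ 2 * (J : ℝ) * r1 / R := by
        rw [le_div_iff₀ hR]; linarith
      have h2 : ((⌈2 * (J : ℝ) * r1 / R⌉₊ : ℕ) : ℝ) ≤ 2 * J * r1 / R + 1 :=
        (Nat.ceil_lt_add_one (by linarith)).le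
      rw [div_le_iff₀ (by positivity)]
      calc ((⌈2 * (J : ℝ) * r1 / R⌉₊ : ℕ) : ℝ) ≤ 2 * (2 * J * r1 / R) := by linarith
        _ = 2 * (r1 / R) * (2 * J) := by field_simp

end

end Crest.Agent.R314.G1
end

-- ▼ part R314/Gs6
section

/-!
R314, module G3, part 6: total increment of one flow over all the scales, with the cut-off radius
`r1`.  Author: helper529.
-/

set_option autoImplicit false

namespace Crest.Agent.R314.Gs

open Finset

/-- `r_i * log (2 / a_i)` at scale `R`, `r = r1 / R`, `a = min 1 (r ^ 2) / (4 k)` -/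
noncomputable def flr (k r1 R : ℝ) : ℝ :=
  (r1 / R) * Real.log (2 / (1 / (4 * k) * min 1 ((r1 / R) ^ 2)))

theorem flr_nonneg {k r1 R : ℝ} (hk : 1 ≤ k) (hr : 0 ≤ r1) (hR : 0 < R) : 0 ≤ flr k r1 R := by
  unfold flr
  have ht : 0 ≤ r1 / R := by positivity
  rcases ht.eq_or_lt with h | h
  · rw [← h]; simp
  · apply mul_nonneg ht
    apply Real.log_nonneg
    have hm : 0 < min 1 ((r1 / R) ^ 2) := lt_min one_pos (by positivity)
    rw [le_div_iff₀ (by positivity), one_mul]
    have h1 : 1 / (4 * k) ≤ 1 := by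
      rw [div_le_one (by positivity)]; linarith
    have h2 : min 1 ((r1 / R) ^ 2) ≤ 1 := min_le_left _ _
    have h3 : 1 / (4 * k) * min 1 ((r1 / R) ^ 2) ≤ 1 * 1 := by
      gcongr
    linarith

theorem one_lt_sqrt {B : ℝ} (hB : 1 < B) : 1 < Real.sqrt B := by
  rw [show (1 : ℝ) = Real.sqrt 1 by simp]
  exact Real.sqrt_lt_sqrt zero_le_one hB

/-- **Total increment of a flow of length `dd` over all the scales, with cut-off.** -/
theorem sum_inc_cut {B R₀ r1 dd k K κ C S : ℝ} (hB : 1 < B) (hR₀ : 0 < R₀) (hdd : 0 ≤ dd)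
    (hr : 0 ≤ r1) (hk : 1 ≤ k) (hK : 1 ≤ K) (hκ : 0 ≤ κ) (hC : 0 ≤ C) {I : ℕ} {Γ inc : ℕ → ℝ}
    (hΓ : ∀ i < I, K * r1 ≤ B ^ i * R₀ → 0 ≤ Γ i)
    (hS : ∑ i ∈ (range I).filter (fun i => K * r1 ≤ B ^ i * R₀), Γ i ≤ S)
    (hbig : ∀ i < I, K * r1 ≤ B ^ i * R₀ → inc i ≤
      C * (dd / (B ^ i * R₀)) * (Γ i + r1 / (B ^ i * R₀) + flr k r1 (B ^ i * R₀)) +
      if B ^ i * R₀ < κ * dd then C * (1 + Γ i + flr k r1 (B ^ i * R₀)) else 0)
    (hsmall : ∀ i < I, B ^ i * R₀ < K * r1 → inc i ≤ C * (1 + Real.log (8 * k))) :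
    ∑ i ∈ range I, B ^ i * R₀ * inc i ≤
      C * dd * ((1 + κ) * (S + B / (B - 1) + (B / (B - 1) * Real.log (8 * k) +
        4 * (Real.sqrt B / (Real.sqrt B - 1)))) + κ * (B / (B - 1))) +
      C * (1 + Real.log (8 * k)) * (B / (B - 1) * (K * r1)) := by
  have hB0 : (0 : ℝ) < B := by linarith
  have hB1 : 0 < B - 1 := by linarith
  have hlog : 0 ≤ Real.log (8 * k) := Real.log_nonneg (by linarith)
  have hRi : ∀ i : ℕ, 0 < B ^ i * R₀ := fun i => by positivity
  set bb : ℝ := B / (B - 1) with hbb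
  have hbb0 : 0 ≤ bb := by positivity
  set F := (range I).filter (fun i => K * r1 ≤ B ^ i * R₀) with hF
  set sb : ℝ := Real.sqrt B / (Real.sqrt B - 1) with hsb
  have hsb0 : 0 ≤ sb := by
    have := one_lt_sqrt hB
    exact div_nonneg (by linarith) (by linarith)
  -- the set of big levels is contained in the levels with `r1 ≤ R_i`
  have hsub : F ⊆ (range I).filter (fun i => r1 ≤ B ^ i * R₀) := by
    intro i hi
    rw [hF, mem_filter] at hi
    rw [mem_filter]
    exact ⟨hi.1, by nlinarith [hi.2]⟩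
  have hrho : ∑ i ∈ F, r1 / (B ^ i * R₀) ≤ bb :=
    (sum_le_sum_of_subset_of_nonneg hsub fun i _ _ => div_nonneg hr (hRi i).le).trans
      (sum_scales_ge hB hR₀ hr I)
  have hflr : ∑ i ∈ F, flr k r1 (B ^ i * R₀) ≤ bb * Real.log (8 * k) + 4 * sb :=
    (sum_le_sum_of_subset_of_nonneg hsub fun i _ _ => flr_nonneg hk hr (hRi i)).trans
      (sum_floor_le hB hR₀ hr hk I)
  have hF0 : 0 ≤ ∑ i ∈ F, Γ i := sum_nonneg fun i hi => by
    rw [hF, mem_filter, mem_range] at hi
    exact hΓ i hi.1 hi.2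
  -- big levels
  have hbigsum : ∑ i ∈ F, B ^ i * R₀ * inc i ≤
      C * dd * ((1 + κ) * (S + bb + (bb * Real.log (8 * k) + 4 * sb)) + κ * bb) := by
    have h1 : ∀ i ∈ F, B ^ i * R₀ * inc i ≤
        C * dd * ((1 + κ) * (Γ i + r1 / (B ^ i * R₀) + flr k r1 (B ^ i * R₀))) +
          C * (if B ^ i * R₀ < κ * dd then B ^ i * R₀ else 0) := by
      intro i hi
      rw [hF, mem_filter, mem_range] at hi
      have hR := hRi i
      have hG := hΓ i hi.1 hi.2
      have hfl := flr_nonneg hk hr hR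
      have hρ : 0 ≤ r1 / (B ^ i * R₀) := div_nonneg hr hR.le
      calc B ^ i * R₀ * inc i ≤ B ^ i * R₀ * (C * (dd / (B ^ i * R₀)) *
            (Γ i + r1 / (B ^ i * R₀) + flr k r1 (B ^ i * R₀)) +
            if B ^ i * R₀ < κ * dd then C * (1 + Γ i + flr k r1 (B ^ i * R₀)) else 0) :=
            mul_le_mul_of_nonneg_left (hbig i hi.1 hi.2) hR.le
        _ = C * dd * (Γ i + r1 / (B ^ i * R₀) + flr k r1 (B ^ i * R₀)) +
            (if B ^ i * R₀ < κ * dd then
              B ^ i * R₀ * (C * (1 + Γ i + flr k r1 (B ^ i * R₀))) else 0) := by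
            rw [mul_add]
            congr 1
            · generalize Γ i + r1 / (B ^ i * R₀) + flr k r1 (B ^ i * R₀) = X
              field_simp
            · split_ifs
              · rfl
              · simp
        _ ≤ C * dd * (Γ i + r1 / (B ^ i * R₀) + flr k r1 (B ^ i * R₀)) +
            (C * dd * (κ * (Γ i + r1 / (B ^ i * R₀) + flr k r1 (B ^ i * R₀))) +
              C * (if B ^ i * R₀ < κ * dd then B ^ i * R₀ else 0)) := by
            gcongr
            split_ifs with h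
            · have h2 : B ^ i * R₀ * (C * (Γ i + flr k r1 (B ^ i * R₀))) ≤
                  κ * dd * (C * (Γ i + flr k r1 (B ^ i * R₀))) := by gcongr
              have h3 : 0 ≤ C * dd * (κ * (r1 / (B ^ i * R₀))) := by positivity
              nlinarith
            · have : 0 ≤ C * dd * (κ * (Γ i + r1 / (B ^ i * R₀) + flr k r1 (B ^ i * R₀))) := by
                positivity
              linarith
        _ = _ := by ring
    refine (sum_le_sum h1).trans ?_
    rw [sum_add_distrib, ← mul_sum, ← mul_sum, ← mul_sum, sum_add_distrib, sum_add_distrib]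
    have h4 : ∑ i ∈ F, (if B ^ i * R₀ < κ * dd then B ^ i * R₀ else 0) ≤ bb * (κ * dd) := by
      calc ∑ i ∈ F, (if B ^ i * R₀ < κ * dd then B ^ i * R₀ else 0)
          ≤ ∑ i ∈ range I, (if B ^ i * R₀ < κ * dd then B ^ i * R₀ else 0) := by
            apply sum_le_sum_of_subset_of_nonneg (filter_subset _ _)
            intro i _ _
            split_ifs
            · exact (hRi i).le
            · exact le_rfl
        _ = ∑ i ∈ (range I).filter (fun i => B ^ i * R₀ < κ * dd), B ^ i * R₀ := by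
            rw [sum_filter]
        _ ≤ _ := sum_scales_lt hB hR₀ (by positivity) I
    calc _ ≤ C * dd * ((1 + κ) * (S + bb + (bb * Real.log (8 * k) + 4 * sb))) +
          C * (bb * (κ * dd)) := by gcongr
      _ = _ := by ring
  -- small levels
  have hsmallsum : ∑ i ∈ (range I).filter (fun i => ¬ K * r1 ≤ B ^ i * R₀), B ^ i * R₀ * inc i ≤
      C * (1 + Real.log (8 * k)) * (bb * (K * r1)) := by
    calc ∑ i ∈ (range I).filter (fun i => ¬ K * r1 ≤ B ^ i * R₀), B ^ i * R₀ * inc i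
        ≤ ∑ i ∈ (range I).filter (fun i => B ^ i * R₀ < K * r1),
            C * (1 + Real.log (8 * k)) * (B ^ i * R₀) := by
          simp only [not_le]
          apply sum_le_sum
          intro i hi
          rw [mem_filter, mem_range] at hi
          have := mul_le_mul_of_nonneg_left (hsmall i hi.1 hi.2) (hRi i).le
          linarith
      _ = C * (1 + Real.log (8 * k)) *
            ∑ i ∈ (range I).filter (fun i => B ^ i * R₀ < K * r1), B ^ i * R₀ := by
          rw [mul_sum]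
      _ ≤ _ := by
          gcongr
          exact sum_scales_lt hB hR₀ (by positivity) I
  rw [← sum_filter_add_sum_filter_not (range I) (fun i => K * r1 ≤ B ^ i * R₀)]
  exact add_le_add hbigsum hsmallsum

/-- Corollary: the bound `C' (dd + r1) (1 + log (8k))`. -/
theorem sum_inc_cut' {B R₀ r1 dd k K κ C C1 : ℝ} (hB : 1 < B) (hR₀ : 0 < R₀) (hdd : 0 ≤ dd)
    (hr : 0 ≤ r1) (hk : 1 ≤ k) (hK : 1 ≤ K) (hκ : 0 ≤ κ) (hC : 0 ≤ C) (hC1 : 0 ≤ C1) {I : ℕ}
    {Γ inc : ℕ → ℝ}
    (hΓ : ∀ i < I, K * r1 ≤ B ^ i * R₀ → 0 ≤ Γ i)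
    (hS : ∑ i ∈ (range I).filter (fun i => K * r1 ≤ B ^ i * R₀), Γ i ≤ C1 * Real.log (8 * k))
    (hbig : ∀ i < I, K * r1 ≤ B ^ i * R₀ → inc i ≤
      C * (dd / (B ^ i * R₀)) * (Γ i + r1 / (B ^ i * R₀) + flr k r1 (B ^ i * R₀)) +
      if B ^ i * R₀ < κ * dd then C * (1 + Γ i + flr k r1 (B ^ i * R₀)) else 0)
    (hsmall : ∀ i < I, B ^ i * R₀ < K * r1 → inc i ≤ C * (1 + Real.log (8 * k))) :
    ∑ i ∈ range I, B ^ i * R₀ * inc i ≤
      C * ((1 + κ) * (C1 + 2 * (B / (B - 1)) + 4 * (Real.sqrt B / (Real.sqrt B - 1))) +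
        (κ + K) * (B / (B - 1))) * (dd + r1) * (1 + Real.log (8 * k)) := by
  have hlog : 0 ≤ Real.log (8 * k) := Real.log_nonneg (by linarith)
  have hB0 : (0 : ℝ) < B := by linarith
  have hB1 : 0 < B - 1 := by linarith
  refine (sum_inc_cut hB hR₀ hdd hr hk hK hκ hC hΓ hS hbig hsmall).trans ?_
  set l := Real.log (8 * k) with hl
  set bb : ℝ := B / (B - 1) with hbb
  have hbb0 : 0 ≤ bb := by positivity
  set sb : ℝ := Real.sqrt B / (Real.sqrt B - 1) with hsb
  have hsb0 : 0 ≤ sb := by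
    have := one_lt_sqrt hB
    exact div_nonneg (by linarith) (by linarith)
  have hK0 : 0 ≤ K := by linarith
  have e1 : C * dd * ((1 + κ) * (C1 * l + bb + (bb * l + 4 * sb)) + κ * bb) ≤
      C * dd * ((1 + κ) * ((C1 + 2 * bb + 4 * sb) * (1 + l)) + κ * bb * (1 + l)) := by
    have t1 : C1 * l + bb + (bb * l + 4 * sb) ≤ (C1 + 2 * bb + 4 * sb) * (1 + l) := by
      nlinarith [mul_nonneg hbb0 hlog, mul_nonneg hsb0 hlog, mul_nonneg hC1 hlog]
    have t2 : κ * bb ≤ κ * bb * (1 + l) := by nlinarith [mul_nonneg (mul_nonneg hκ hbb0) hlog]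
    exact mul_le_mul_of_nonneg_left (add_le_add (mul_le_mul_of_nonneg_left t1 (by linarith)) t2)
      (by positivity)
  have e2 : C * dd * ((1 + κ) * ((C1 + 2 * bb + 4 * sb) * (1 + l)) + κ * bb * (1 + l)) =
      C * ((1 + κ) * (C1 + 2 * bb + 4 * sb) + κ * bb) * (1 + l) * dd := by ring
  have e3 : C * (1 + l) * (bb * (K * r1)) = C * (K * bb) * (1 + l) * r1 := by ring
  have e4 : C * ((1 + κ) * (C1 + 2 * bb + 4 * sb) + κ * bb) * (1 + l) * dd ≤
      C * ((1 + κ) * (C1 + 2 * bb + 4 * sb) + (κ + K) * bb) * (1 + l) * dd := by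
    gcongr
    linarith
  have e5 : C * (K * bb) * (1 + l) * r1 ≤
      C * ((1 + κ) * (C1 + 2 * bb + 4 * sb) + (κ + K) * bb) * (1 + l) * r1 := by
    gcongr
    have : 0 ≤ (1 + κ) * (C1 + 2 * bb + 4 * sb) + κ * bb := by positivity
    linarith
  calc _ ≤ C * ((1 + κ) * (C1 + 2 * bb + 4 * sb) + (κ + K) * bb) * (1 + l) * dd +
        C * ((1 + κ) * (C1 + 2 * bb + 4 * sb) + (κ + K) * bb) * (1 + l) * r1 := by
        rw [e3]
        exact add_le_add ((e1.trans_eq e2).trans e4) e5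
    _ = _ := by ring

end Crest.Agent.R314.Gs
end

-- ▼ part R314/GO2
section

/-!
R314, block GO, part b (helper723): the game of module G on every level, cut-off radius,
summation over the levels: `GEO1C → GOb`.
-/

set_option autoImplicit false
set_option linter.unusedSectionVars false

namespace Crest.Agent.R314.GO

open Finset Crest.Agent.R314 Crest.Agent.R314.Tk Crest.Agent.R314.Bay Crest.LogicCS.KServer
open Crest.Agent.R314.G1 (St IM Ok)

universe u

/-- The slope statement of module G (helper435's (GA)). -/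
def GEO1C : Prop :=
  ∃ CG : ℝ, 0 ≤ CG ∧ ∀ (Y : Type u) [Fintype Y] [DecidableEq Y] (M : IM Y) (m : Y → ℝ) (S : St Y)
    (y x : Y) (r a : ℝ), (∀ x, 0 ≤ m x) → M.Stable m S → 0 ≤ r → r ≤ 1 / 1024 →
    0 < M.bm m y r → 0 ≤ a → a ≤ 1 / 2 → (0 < a ∨ r = 0) →
    M.U ⟨S.P, S.β, M.op S.w y a⟩ y - M.U ⟨S.P, S.β, M.op S.w y a⟩ x +
        M.nrm ⟨S.P, S.β, M.op S.w y a⟩ y ⟨S.P, S.β, M.op S.w y a⟩ x ≤
      CG * (M.d x y * (M.GamR m y r + r + r * Real.log (2 / a))) +
        (if 1 / 64 < M.d x y then CG * (1 + M.GamR m y r + r * Real.log (2 / a)) else 0)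

section Game

variable {Y : Type u} [Fintype Y] [DecidableEq Y]

/-- The game of one level. -/
noncomputable def lg (M : IM Y) : RGame.{u, u, u} Y (Option Y) where
  S := {S : St Y // Ok M S}
  S0 := ⟨IM.St0, M.ok_St0⟩
  U S x := M.U S.1 x
  U_nonneg S x := M.U_nonneg S.2 x
  π S x := M.lab S.1 x
  π_pv S x := ⟨M.lab_nonneg S.2.w0 x, M.sum_lab S.2.w0 x⟩
  Stk m S := M.Stable m S.1
  exists_stk m hm σ := by
    obtain ⟨S, h1, h2⟩ := M.exists_stable hm σ.2
    exact ⟨⟨S, h1.1⟩, h1, h2⟩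

/-- The operation at `y`. -/
noncomputable def opS (M : IM Y) (y : Y) {a : ℝ} (ha0 : 0 ≤ a) (ha1 : a ≤ 1 / 2)
    (S : (lg M).S) : (lg M).S :=
  ⟨⟨S.1.P, S.1.β, M.op S.1.w y a⟩, M.op_Ok S.2 ha0 (by linarith) y⟩

theorem opS_price (M : IM Y) (y : Y) {a : ℝ} (ha0 : 0 ≤ a) (ha1 : a ≤ 1 / 2) (S : (lg M).S)
    {m : Y → ℝ} (hm : ∀ x, 0 ≤ m x) :
    (lg M).Phi m (opS M y ha0 ha1 S) + (lg M).Rel m S (opS M y ha0 ha1 S) ≤
      (lg M).Phi m S + 34 * a * ∑ x, m x := by
  have h := M.geo_D_op_le hm S.2 ha0 ha1 y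
  have e : (lg M).Phi m (opS M y ha0 ha1 S) + (lg M).Rel m S (opS M y ha0 ha1 S) -
      (lg M).Phi m S = M.D m S.1 ⟨S.1.P, S.1.β, M.op S.1.w y a⟩ := by
    unfold RGame.Phi RGame.Rel IM.D
    rw [← sum_add_distrib, ← sum_sub_distrib]
    apply sum_congr rfl
    intro x _
    change m x * M.U ⟨S.1.P, S.1.β, M.op S.1.w y a⟩ x + m x * M.nrm S.1 x
      ⟨S.1.P, S.1.β, M.op S.1.w y a⟩ x - m x * M.U S.1 x = _
    ring
  linarith

end Game

section Slope

variable {Y : Type u} [MetricSpace Y] [Fintype Y] [DecidableEq Y]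

/-- The weight of the operation. -/
noncomputable def aa (k : ℕ) (r1 R : ℝ) : ℝ := 1 / (4 * (k : ℝ)) * min 1 ((r1 / R) ^ 2)

theorem aa_nonneg (k : ℕ) (r1 R : ℝ) : 0 ≤ aa k r1 R := by
  unfold aa
  have : 0 ≤ min 1 ((r1 / R) ^ 2) := le_min zero_le_one (sq_nonneg _)
  positivity

theorem aa_le {k : ℕ} (hk : 1 ≤ k) (r1 R : ℝ) : aa k r1 R ≤ 1 / 2 := by
  unfold aa
  have h1 : 0 ≤ min 1 ((r1 / R) ^ 2) := le_min zero_le_one (sq_nonneg _)
  have h2 : min 1 ((r1 / R) ^ 2) ≤ 1 := min_le_left _ _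
  have hk' : (1 : ℝ) ≤ k := by exact_mod_cast hk
  have h3 : 1 / (4 * (k : ℝ)) ≤ 1 / 4 := by
    apply div_le_div_of_nonneg_left <;> linarith
  nlinarith

theorem aa_pos {k : ℕ} (hk : 1 ≤ k) {r1 R : ℝ} (hr : 0 < r1) (hR : 0 < R) : 0 < aa k r1 R := by
  unfold aa
  have hk' : (1 : ℝ) ≤ k := by exact_mod_cast hk
  have : 0 < min 1 ((r1 / R) ^ 2) := lt_min one_pos (by positivity)
  positivity

variable {R : ℝ} {J : ℕ} (hR : 0 < R) (hJ : 0 < J)

/-- Slope on one level, small cut-off radius. -/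
theorem slope_big {CG : ℝ} (hCG : 0 ≤ CG) {m : Y → ℝ} (hm : ∀ x, 0 ≤ m x) {S : St Y} {y x : Y}
    (hG : ∀ (r a : ℝ), 0 ≤ r → r ≤ 1 / 1024 →
      0 < (IM.ofDist R J hR hJ).bm m y r → 0 ≤ a → a ≤ 1 / 2 → (0 < a ∨ r = 0) →
      (IM.ofDist R J hR hJ).U ⟨S.P, S.β, (IM.ofDist R J hR hJ).op S.w y a⟩ y -
        (IM.ofDist R J hR hJ).U ⟨S.P, S.β, (IM.ofDist R J hR hJ).op S.w y a⟩ x +
        (IM.ofDist R J hR hJ).nrm ⟨S.P, S.β, (IM.ofDist R J hR hJ).op S.w y a⟩ y
          ⟨S.P, S.β, (IM.ofDist R J hR hJ).op S.w y a⟩ x ≤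
      CG * ((IM.ofDist R J hR hJ).d x y *
          ((IM.ofDist R J hR hJ).GamR m y r + r + r * Real.log (2 / a))) +
        (if 1 / 64 < (IM.ofDist R J hR hJ).d x y then
          CG * (1 + (IM.ofDist R J hR hJ).GamR m y r + r * Real.log (2 / a)) else 0))
    (hfine : ∀ x z : Y, x ≠ z → R ≤ 2 * J * dist x z) {r1 : ℝ} (hr1 : 0 ≤ r1)
    (hatt : r1 = 0 ∨ R ≤ 2 * J * r1) (hpos : 0 < Gs.bm dist m y r1) {k : ℕ} (hk : 1 ≤ k)
    (hK : 2048 * r1 ≤ R) :
    (IM.ofDist R J hR hJ).U ⟨S.P, S.β, (IM.ofDist R J hR hJ).op S.w y (aa k r1 R)⟩ y -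
      (IM.ofDist R J hR hJ).U ⟨S.P, S.β, (IM.ofDist R J hR hJ).op S.w y (aa k r1 R)⟩ x +
      (IM.ofDist R J hR hJ).nrm ⟨S.P, S.β, (IM.ofDist R J hR hJ).op S.w y (aa k r1 R)⟩ y
        ⟨S.P, S.β, (IM.ofDist R J hR hJ).op S.w y (aa k r1 R)⟩ x ≤
      4 * CG * (dist x y / R) * (Gs.GamR dist m y 60 R r1 + r1 / R + Gs.flr k r1 R) +
        if R < 128 * dist x y then 4 * CG * (1 + Gs.GamR dist m y 60 R r1 + Gs.flr k r1 R)
          else 0 := by
  have hJr : (0 : ℝ) < J := by exact_mod_cast hJ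
  have hkr : (1 : ℝ) ≤ k := by exact_mod_cast hk
  obtain ⟨ρ, hρ1, hρ2⟩ := G1.exists_rho hr1 hatt hR hJ
  set M := IM.ofDist (X := Y) R J hR hJ with hM
  set a := aa k r1 R with ha
  set r : ℝ := (ρ : ℝ) / (2 * J) with hr
  have hr0 : 0 ≤ r := by rw [hr]; positivity
  have hrR : r1 / R ≤ 1 / 2048 := by
    rw [div_le_div_iff₀ hR (by norm_num)]; linarith
  have hr1024 : r ≤ 1 / 1024 := by
    refine hρ2.trans ?_
    linarith
  have hbm : M.bm m y r = Gs.bm dist m y (r * R) := G1.bm_ofDist hR hJ m y ρ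
  have hbpos : 0 < M.bm m y r := by
    rw [hbm]
    exact hpos.trans_le (Gs.bm_mono hm hρ1)
  have hcase : 0 < a ∨ r = 0 := by
    rcases hr1.eq_or_lt with h | h
    · right
      rw [← h, zero_div, mul_zero] at hρ2
      exact le_antisymm hρ2 hr0
    · left
      exact aa_pos hk h hR
  have hρ60 : ρ ≤ 120 * J := by
    have h1 : (ρ : ℝ) ≤ 1 / 1024 * (2 * J) := by
      rw [hr, div_le_iff₀ (by positivity)] at hr1024
      exact hr1024
    have h2 : (ρ : ℝ) ≤ ((120 * J : ℕ) : ℝ) := by push_cast; linarith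
    exact_mod_cast h2
  have hGam : M.GamR m y r ≤ 2 * Gs.GamR dist m y 60 R r1 :=
    G1.GamR_le_GsGamR hR hJ hm hfine hr1 hρ1 hρ60 hpos
  have hGam0 : 0 ≤ Gs.GamR dist m y 60 R r1 :=
    Gs.GamR_nonneg hm hpos (by norm_num) hR.le (by nlinarith)
  have hflr : r * Real.log (2 / a) ≤ 2 * Gs.flr k r1 R := by
    have h1 : 0 ≤ Real.log (2 / a) := by
      rcases hcase with h | h
      · apply Real.log_nonneg
        rw [le_div_iff₀ h]
        have := aa_le hk r1 R
        linarith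
      · have h2 : r1 / R ≤ 0 := by
          rw [h] at hρ1
          rw [zero_mul] at hρ1
          have : r1 = 0 := le_antisymm hρ1 hr1
          rw [this, zero_div]
        have h3 : r1 / R = 0 := le_antisymm h2 (by positivity)
        have h4 : a = 0 := by
          rw [ha]
          unfold aa
          rw [h3]
          simp
        rw [h4]
        simp
    unfold Gs.flr
    have h2 : Real.log (2 / (1 / (4 * (k : ℝ)) * min 1 ((r1 / R) ^ 2))) = Real.log (2 / a) := rfl
    rw [h2]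
    calc r * Real.log (2 / a) ≤ 2 * (r1 / R) * Real.log (2 / a) := by gcongr
      _ = _ := by ring
  have hflr0 : 0 ≤ Gs.flr k r1 R := Gs.flr_nonneg hkr hr1 hR
  have hd2 : M.d x y ≤ 2 * (dist x y / R) := by
    have := IM.ofDist_le_two hR hJ hfine x y
    rw [← mul_div_assoc, le_div_iff₀ hR]
    linarith
  have hd0 := M.d_nonneg x y
  have h0 : 0 ≤ dist x y / R := by positivity
  refine (hG r a hr0 hr1024 hbpos (aa_nonneg _ _ _) (aa_le hk _ _) hcase).trans ?_
  apply add_le_add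
  · have h1 : M.GamR m y r + r + r * Real.log (2 / a) ≤
        2 * (Gs.GamR dist m y 60 R r1 + r1 / R + Gs.flr k r1 R) := by linarith
    calc CG * (M.d x y * (M.GamR m y r + r + r * Real.log (2 / a)))
        ≤ CG * (M.d x y * (2 * (Gs.GamR dist m y 60 R r1 + r1 / R + Gs.flr k r1 R))) := by
          gcongr
      _ ≤ CG * (2 * (dist x y / R) *
          (2 * (Gs.GamR dist m y 60 R r1 + r1 / R + Gs.flr k r1 R))) := by
          gcongr
      _ = _ := by ring
  · by_cases h1 : 1 / 64 < M.d x y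
    · rw [if_pos h1]
      have h2 : R < 128 * dist x y := by
        have h3 : 1 / 64 < 2 * (dist x y / R) := h1.trans_le hd2
        rw [← mul_div_assoc, div_lt_div_iff₀ (by norm_num) hR] at h3
        linarith
      rw [if_pos h2]
      have h3 : 1 + M.GamR m y r + r * Real.log (2 / a) ≤
          2 * (1 + Gs.GamR dist m y 60 R r1 + Gs.flr k r1 R) := by linarith
      calc CG * (1 + M.GamR m y r + r * Real.log (2 / a))
          ≤ CG * (2 * (1 + Gs.GamR dist m y 60 R r1 + Gs.flr k r1 R)) := by gcongr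
        _ ≤ _ := by
            have : 0 ≤ CG * (1 + Gs.GamR dist m y 60 R r1 + Gs.flr k r1 R) := by positivity
            linarith
    · rw [if_neg h1]
      split_ifs
      · positivity
      · exact le_rfl

/-- Slope on one level, large cut-off radius. -/
theorem slope_small (M : IM Y) {S : St Y} (hS : Ok M S) {k : ℕ} (hk : 1 ≤ k) {r1 R' : ℝ}
    (hR' : 0 < R') (hK : R' < 2048 * r1) (y x : Y) :
    M.U ⟨S.P, S.β, M.op S.w y (aa k r1 R')⟩ y - M.U ⟨S.P, S.β, M.op S.w y (aa k r1 R')⟩ x +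
      M.nrm ⟨S.P, S.β, M.op S.w y (aa k r1 R')⟩ y ⟨S.P, S.β, M.op S.w y (aa k r1 R')⟩ x ≤
      400 * (1 + Real.log (8 * k)) := by
  have hkr : (1 : ℝ) ≤ k := by exact_mod_cast hk
  have hr1 : 0 < r1 := by nlinarith
  have ha := aa_pos hk hr1 hR'
  refine (M.geo_crude hS ha (aa_le hk _ _) y x).trans ?_
  have h1 : 1 / (4 * (k : ℝ)) * (1 / 2048) ^ 2 ≤ aa k r1 R' := by
    unfold aa
    apply mul_le_mul_of_nonneg_left _ (by positivity)
    apply le_min (by norm_num)
    apply pow_le_pow_left₀ (by norm_num)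
    rw [div_le_div_iff₀ (by norm_num) hR']
    linarith
  have h2 : 2 / aa k r1 R' ≤ 8 * k * 2048 ^ 2 := by
    rw [div_le_iff₀ ha]
    calc (2 : ℝ) = 8 * k * 2048 ^ 2 * (1 / (4 * (k : ℝ)) * (1 / 2048) ^ 2) := by
          field_simp
          norm_num
      _ ≤ _ := by gcongr
  have h4 : Real.log ((2048 : ℝ) ^ 2) ≤ 16 := by
    have e : (2048 : ℝ) ^ 2 = 2 ^ 22 := by norm_num
    rw [e, Real.log_pow]
    have := Real.log_two_lt_d9
    push_cast
    linarith
  have h3 : Real.log (2 / aa k r1 R') ≤ Real.log (8 * k) + 16 := by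
    have h6 : Real.log (8 * k * 2048 ^ 2) = Real.log (8 * k) + Real.log ((2048 : ℝ) ^ 2) :=
      Real.log_mul (by positivity) (by norm_num)
    have h7 := Real.log_le_log (by positivity) h2
    rw [h6] at h7
    exact h7.trans (add_le_add le_rfl h4)
  have h5 : 0 ≤ Real.log (8 * (k : ℝ)) := Real.log_nonneg (by linarith)
  generalize Real.log (2 / aa k r1 R') = u at h3 ⊢
  generalize Real.log (8 * (k : ℝ)) = v at h3 h5 ⊢
  linarith

end Slope

end Crest.Agent.R314.GO
end

-- ▼ part R314/GO3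

/-!
R314, block GO, part b, end (helper723): `GEO1C → GOb`.
-/

set_option autoImplicit false
set_option linter.unusedSectionVars false

namespace Crest.Agent.R314.GO

open Finset Crest.Agent.R314 Crest.Agent.R314.Tk Crest.Agent.R314.Bay Crest.LogicCS.KServer
open Crest.Agent.R314.G1 (St IM Ok)

universe u

section Radius

variable {Y : Type u} [MetricSpace Y] [Fintype Y] {k : ℕ} [NeZero k] (Q : Prior Y k)

/-- Attained quantile radius. -/
theorem exists_quantile_att (h : List Y) (r : Y) :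
    ∃ x0 : Y, 3 / 4 * Q.P h ≤ Q.hit h r (dist x0 r) ∧ Q.hit' h r (dist x0 r) ≤ 3 / 4 * Q.P h := by
  classical
  obtain ⟨r1, h0, h1, h2⟩ := Q.exists_quantile h r
  have hne : (univ.filter fun x : Y => dist x r ≤ r1).Nonempty := ⟨r, by simpa using h0⟩
  obtain ⟨x0, hx0, hmax⟩ := exists_max_image _ (fun x : Y => dist x r) hne
  rw [mem_filter] at hx0
  refine ⟨x0, h1.trans ?_, le_trans ?_ h2⟩
  · apply Q.Em_mono
    intro c
    by_cases hc : ∃ j, dist (c j) r ≤ r1
    · obtain ⟨j, hj⟩ := hc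
      have h3 : dist (c j) r ≤ dist x0 r := hmax (c j) (mem_filter.2 ⟨mem_univ _, hj⟩)
      rw [if_pos ⟨j, hj⟩, if_pos ⟨j, h3⟩]
    · rw [if_neg hc]
      split_ifs <;> norm_num
  · apply Q.Em_mono
    intro c
    by_cases hc : ∃ j, dist (c j) r < dist x0 r
    · obtain ⟨j, hj⟩ := hc
      have h3 : dist (c j) r < r1 := hj.trans_le hx0.2
      rw [if_pos ⟨j, hj⟩, if_pos ⟨j, h3⟩]
    · rw [if_neg hc]
      split_ifs <;> norm_num

/-- The radius of a history: quantile radius, or large if the history has probability `0`. -/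
theorem exists_radius (big : ℝ) (hbig : 0 ≤ big) (h : List Y) (h0 : h ≠ []) :
    ∃ r1 : ℝ, 0 ≤ r1 ∧
      r1 * Q.P h / 4 ≤ ∑ i ∈ Q.I h, Q.p i * dist (Q.src i (h.length - 1)) (Q.rq i (h.length - 1)) ∧
      ((Q.P h = 0 ∧ r1 = big) ∨ (0 < Q.P h ∧ (∃ x0 : Y, r1 = dist x0 (h.getLast h0)) ∧
        3 / 4 * Q.P h ≤ Gs.bm dist (Q.mm h) (h.getLast h0) r1)) := by
  classical
  rcases (Q.P_nonneg h).eq_or_lt with hP | hP
  · refine ⟨big, hbig, ?_, Or.inl ⟨hP.symm, rfl⟩⟩
    rw [← hP, mul_zero, zero_div]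
    exact sum_nonneg fun i _ => mul_nonneg (Q.p_nonneg i) dist_nonneg
  · obtain ⟨x0, h1, h2⟩ := exists_quantile_att Q h (h.getLast h0)
    refine ⟨dist x0 (h.getLast h0), dist_nonneg, ?_, Or.inr ⟨hP, ⟨x0, rfl⟩, ?_⟩⟩
    · refine (Q.quantile_flow h0 dist_nonneg h2).trans (le_of_eq ?_)
      exact sum_congr rfl fun i hi => by rw [Q.rq_of_mem_I hi h0]
    · exact h1.trans (Q.hit_le_mass h _ _)

end Radius

section Final

variable {Y : Type u} [MetricSpace Y] [Fintype Y] [DecidableEq Y]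

/-- The sum of the slopes over the levels. -/
theorem sum_slopes {CG : ℝ} (hCG : 0 ≤ CG) {R0 : ℝ} {J L : ℕ} (hR0 : 0 < R0) (hJ : 0 < J)
    (hgrid : ∀ i, i ≤ L → ∀ x y : Y, x ≠ y → R0 * 16 ^ i ≤ 2 * J * dist x y)
    {k : ℕ} (hk : 1 ≤ k) {m : Y → ℝ} (hm : ∀ x, 0 ≤ m x) {P : ℝ} (hmP : ∑ x, m x = k * P)
    (y x : Y) {r1 : ℝ} (hr1 : 0 ≤ r1)
    (hr : r1 = R0 * 16 ^ L ∨ (0 < P ∧ (∃ x0 : Y, r1 = dist x0 y) ∧
      3 / 4 * P ≤ Gs.bm dist m y r1)) (F : ℕ → ℝ)
    (hF : ∀ i, i < L → (2048 * r1 ≤ R0 * 16 ^ i → 0 < Gs.bm dist m y r1 → F i ≤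
      4 * CG * (dist x y / (R0 * 16 ^ i)) * (Gs.GamR dist m y 60 (R0 * 16 ^ i) r1 +
        r1 / (R0 * 16 ^ i) + Gs.flr k r1 (R0 * 16 ^ i)) +
        if R0 * 16 ^ i < 128 * dist x y then 4 * CG * (1 + Gs.GamR dist m y 60 (R0 * 16 ^ i) r1 +
          Gs.flr k r1 (R0 * 16 ^ i)) else 0))
    (hF' : ∀ i, i < L → R0 * 16 ^ i < 2048 * r1 → F i ≤ 400 * (1 + Real.log (8 * k))) :
    ∑ i ∈ range L, R0 * 16 ^ i * F i ≤
      (4 * CG + 400) * 4000 * (dist x y + r1) * (1 + Real.log (8 * k)) := by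
  have hkr : (1 : ℝ) ≤ k := by exact_mod_cast hk
  have hl8 : 0 < Real.log (8 * (k : ℝ)) := Real.log_pos (by linarith)
  have hsq : Real.sqrt 16 = 4 := by
    rw [show (16 : ℝ) = 4 ^ 2 by norm_num]
    exact Real.sqrt_sq (by norm_num)
  have hcomm : ∀ i : ℕ, (16 : ℝ) ^ i * R0 = R0 * 16 ^ i := fun i => mul_comm _ _
  -- positivity of the ball whenever a level is large
  have hpos : ∀ i, i < L → 2048 * r1 ≤ R0 * 16 ^ i → 0 < P ∧ 3 / 4 * P ≤ Gs.bm dist m y r1 := by
    intro i hi h1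
    rcases hr with h | h
    · exfalso
      have h2 : R0 * 16 ^ i ≤ R0 * 16 ^ L :=
        mul_le_mul_of_nonneg_left (pow_le_pow_right₀ (by norm_num) hi.le) hR0.le
      have h3 : 0 < R0 * 16 ^ i := by positivity
      rw [h] at h1
      linarith
    · exact ⟨h.1, h.2.2⟩
  have hS : ∑ i ∈ (range L).filter (fun i => 2048 * r1 ≤ (16 : ℝ) ^ i * R0),
      Gs.GamR dist m y 60 ((16 : ℝ) ^ i * R0) r1 ≤ 4 * Real.log (8 * k) := by
    by_cases hne : ((range L).filter (fun i => 2048 * r1 ≤ (16 : ℝ) ^ i * R0)).Nonempty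
    · obtain ⟨i0, hi0⟩ := hne
      rw [mem_filter, mem_range, hcomm] at hi0
      obtain ⟨hP, hbm⟩ := hpos i0 hi0.1 hi0.2
      have hb : 0 < Gs.bm dist m y r1 := lt_of_lt_of_le (by positivity) hbm
      have h1 := Gs.sum_GamR_le (d := dist) hm hb hR0 (A := 2) (B := 16) (by norm_num)
        (a := 60) (by norm_num) (by norm_num) L
      have h2 : ∑ i ∈ (range L).filter (fun i => 2048 * r1 ≤ (16 : ℝ) ^ i * R0),
          Gs.GamR dist m y 60 ((16 : ℝ) ^ i * R0) r1 ≤
          ∑ i ∈ (range L).filter (fun i => r1 ≤ (16 : ℝ) ^ i * R0),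
          Gs.GamR dist m y 60 ((16 : ℝ) ^ i * R0) r1 := by
        apply sum_le_sum_of_subset_of_nonneg
        · intro i hi
          rw [mem_filter] at hi ⊢
          refine ⟨hi.1, ?_⟩
          have := hi.2
          linarith
        · intro i hi _
          rw [mem_filter] at hi
          exact Gs.GamR_nonneg hm hb (by norm_num) (by positivity) hi.2
      refine h2.trans (h1.trans ?_)
      rw [hmP]
      have h3 : (k : ℝ) * P / Gs.bm dist m y r1 ≤ 8 * k := by
        rw [div_le_iff₀ hb]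
        have : 8 * (k : ℝ) * (3 / 4 * P) ≤ 8 * k * Gs.bm dist m y r1 := by gcongr
        nlinarith
      have h4 : 0 < (k : ℝ) * P / Gs.bm dist m y r1 := by positivity
      have h5 := Real.log_le_log h4 h3
      have h6 : 1 ≤ Real.log 16 := by
        rw [show (16 : ℝ) = 2 ^ 4 by norm_num, Real.log_pow]
        have := Real.log_two_gt_d9
        push_cast
        linarith
      have h7 : 1 / Real.log 16 ≤ 1 := by
        rw [div_le_one (by linarith)]
        exact h6
      have h8 : 0 ≤ 1 / Real.log 16 := by positivity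
      push_cast
      calc (2 + 1 + 1 / Real.log 16) * Real.log (k * P / Gs.bm dist m y r1)
          ≤ (2 + 1 + 1 / Real.log 16) * Real.log (8 * k) := by gcongr
        _ ≤ _ := by nlinarith
    · rw [not_nonempty_iff_eq_empty] at hne
      rw [hne, sum_empty]
      positivity
  have key := Gs.sum_inc_cut' (B := 16) (R₀ := R0) (r1 := r1) (dd := dist x y) (k := k)
    (K := 2048) (κ := 128) (C := 4 * CG + 400) (C1 := 4) (I := L)
    (Γ := fun i => Gs.GamR dist m y 60 ((16 : ℝ) ^ i * R0) r1) (inc := F)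
    (by norm_num) hR0 dist_nonneg hr1 hkr (by norm_num) (by norm_num) (by positivity)
    (by norm_num) ?_ hS ?_ ?_
  · simp only [hcomm] at key
    refine key.trans ?_
    rw [hsq]
    have h1 : 0 ≤ dist x y + r1 := by positivity
    have h2 : 0 ≤ 1 + Real.log (8 * (k : ℝ)) := by linarith
    gcongr
    norm_num
  · intro i hi h1
    rw [hcomm] at h1
    obtain ⟨hP, hbm⟩ := hpos i hi h1
    have hb : 0 < Gs.bm dist m y r1 := lt_of_lt_of_le (by positivity) hbm
    simp only [hcomm]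
    exact Gs.GamR_nonneg hm hb (by norm_num) (by positivity) (by linarith)
  · intro i hi h1
    rw [hcomm] at h1
    obtain ⟨hP, hbm⟩ := hpos i hi h1
    have hb : 0 < Gs.bm dist m y r1 := lt_of_lt_of_le (by positivity) hbm
    have h2 := hF i hi h1 hb
    have hRi : 0 < R0 * 16 ^ i := by positivity
    have hG0 : 0 ≤ Gs.GamR dist m y 60 (R0 * 16 ^ i) r1 :=
      Gs.GamR_nonneg hm hb (by norm_num) hRi.le (by linarith)
    have hfl := Gs.flr_nonneg hkr hr1 hRi
    simp only [hcomm]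
    refine h2.trans (add_le_add ?_ ?_)
    · have h3 : 0 ≤ dist x y / (R0 * 16 ^ i) * (Gs.GamR dist m y 60 (R0 * 16 ^ i) r1 +
        r1 / (R0 * 16 ^ i) + Gs.flr k r1 (R0 * 16 ^ i)) := by positivity
      nlinarith
    · split_ifs
      · nlinarith
      · exact le_rfl
  · intro i hi h1
    rw [hcomm] at h1
    refine (hF' i hi h1).trans ?_
    nlinarith

theorem one_add_log_le {k : ℕ} (hk : 2 ≤ k) :
    1 + Real.log (8 * k) ≤ 5 * Real.log (k + 1) := by
  have hkr : (2 : ℝ) ≤ k := by exact_mod_cast hk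
  have h1 : 1 ≤ Real.log (k + 1) := by
    rw [Real.le_log_iff_exp_le (by linarith)]
    have := Real.exp_one_lt_d9
    linarith
  have h2 : Real.log (8 * k) = Real.log 8 + Real.log k :=
    Real.log_mul (by norm_num) (by positivity)
  have h3 : Real.log k ≤ Real.log (k + 1) := Real.log_le_log (by linarith) (by linarith)
  have h4 : Real.log 8 ≤ 3 := by
    rw [show (8 : ℝ) = 2 ^ 3 by norm_num, Real.log_pow]
    have := Real.log_two_lt_d9
    push_cast
    linarith
  rw [h2]
  linarith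

section Proc

variable {k : ℕ} [NeZero k] (Q : Prior Y k)

open Classical in
/-- The radius of a history. -/
noncomputable def rr (c : ℝ) (h : List Y) : ℝ :=
  if h0 : h ≠ [] then (exists_radius Q |c| (abs_nonneg c) h h0).choose else 0

theorem rr_spec (c : ℝ) {h : List Y} (h0 : h ≠ []) :
    0 ≤ rr Q c h ∧
      rr Q c h * Q.P h / 4 ≤
        ∑ i ∈ Q.I h, Q.p i * dist (Q.src i (h.length - 1)) (Q.rq i (h.length - 1)) ∧
      ((Q.P h = 0 ∧ rr Q c h = |c|) ∨
        (0 < Q.P h ∧ (∃ x0 : Y, rr Q c h = dist x0 (h.getLast h0)) ∧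
        3 / 4 * Q.P h ≤ Gs.bm dist (Q.mm h) (h.getLast h0) (rr Q c h))) := by
  have e : rr Q c h = (exists_radius Q |c| (abs_nonneg c) h h0).choose := by
    unfold rr
    rw [dif_pos h0]
  rw [e]
  exact (exists_radius Q |c| (abs_nonneg c) h h0).choose_spec

open Classical in
/-- The operation of the level `i` at the history `h`. -/
noncomputable def opN {R0 : ℝ} {J : ℕ} (hR0 : 0 < R0) (hJ : 0 < J) (hk : 1 ≤ k) (r1 : List Y → ℝ)
    (i : ℕ) (h : List Y) (S : (lg (Mi (Y := Y) R0 J hR0 hJ i)).S) :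
    (lg (Mi (Y := Y) R0 J hR0 hJ i)).S :=
  if h0 : h ≠ [] then opS (Mi R0 J hR0 hJ i) (h.getLast h0)
    (aa_nonneg k (r1 h) (R0 * 16 ^ i)) (aa_le hk (r1 h) (R0 * 16 ^ i)) S
  else S

/-- The last request of a history. -/
noncomputable def yv (h : List Y) : Y :=
  open Classical in if h0 : h ≠ [] then h.getLast h0 else Q.s 0

/-- The bound for the slope. -/
noncomputable def Fb (R0 CG : ℝ) (r1 : List Y → ℝ) (i : ℕ) (h : List Y) (x : Y) : ℝ :=
  open Classical in
  if 2048 * r1 h ≤ R0 * 16 ^ i then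
    4 * CG * (dist x (yv Q h) / (R0 * 16 ^ i)) *
      (Gs.GamR dist (Q.mm h) (yv Q h) 60 (R0 * 16 ^ i) (r1 h) +
        r1 h / (R0 * 16 ^ i) + Gs.flr k (r1 h) (R0 * 16 ^ i)) +
      if R0 * 16 ^ i < 128 * dist x (yv Q h) then
        4 * CG * (1 + Gs.GamR dist (Q.mm h) (yv Q h) 60 (R0 * 16 ^ i) (r1 h) +
          Gs.flr k (r1 h) (R0 * 16 ^ i)) else 0
  else 400 * (1 + Real.log (8 * k))

end Proc

/-- **Module G, part b.** -/
theorem gob_of_geo (hG : GEO1C.{u}) : GOb.{u} := by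
  classical
  obtain ⟨CG, hCG, hG⟩ := hG
  set K1 : ℝ := (4 * CG + 400) * 4000 + 20 with hK1
  have hK1pos : 0 ≤ K1 := by positivity
  refine ⟨9 * K1 * 5, by positivity, ?_⟩
  intro k _ hk Y _ _ _ R0 J L hR0 hJ hgrid
  have hk1 : 1 ≤ k := by omega
  have hkr : (1 : ℝ) ≤ k := by exact_mod_cast hk1
  have hl8 : 0 < Real.log (8 * (k : ℝ)) := Real.log_pos (by linarith)
  set V : ℝ := 110 + 16 * Real.log (2 * Fintype.card Y) with hV
  have hRn : ∀ i : ℕ, 0 < R0 * (16 : ℝ) ^ i := fun i => by positivity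
  set B' : ℝ := (∑ i ∈ range L, R0 * 16 ^ i) * (k * |V|) + 1 with hB'
  have hRs : 0 ≤ ∑ i ∈ range L, R0 * (16 : ℝ) ^ i := sum_nonneg fun i _ => (hRn i).le
  refine ⟨B', by positivity, ?_⟩
  intro Q
  have hp0 : 0 ≤ ∑ i, Q.p i := sum_nonneg fun i _ => Q.p_nonneg i
  -- games
  let G : ℕ → RGame.{u, u, u} Y (Option Y) := fun i => lg (Mi (Y := Y) R0 J hR0 hJ i)
  let r1 : List Y → ℝ := rr Q (R0 * 16 ^ L)
  let op : ∀ i, List Y → (G i).S → (G i).S := fun i => opN hR0 hJ hk1 r1 i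
  let st : List Y → ℕ → St Y := fun h i => ((G i).st Q (op i) h).1
  have hopt : 0 ≤ Q.opt := by
    rw [Q.opt_eq]
    exact sum_nonneg fun h _ => sum_nonneg fun i _ => mul_nonneg (Q.p_nonneg i) dist_nonneg
  set K : ℝ := K1 * (1 + Real.log (8 * k)) with hK
  have hKpos : 0 ≤ K := by positivity
  have hyv : ∀ {h : List Y} (h0 : h ≠ []), yv Q h = h.getLast h0 := by
    intro h h0
    unfold yv
    rw [dif_pos h0]
  have hop_eq : ∀ i (h : List Y) (h0 : h ≠ []) (σ : (G i).S), op i h σ =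
      opS (Mi R0 J hR0 hJ i) (h.getLast h0) (aa_nonneg k (r1 h) (R0 * 16 ^ i))
        (aa_le hk1 (r1 h) (R0 * 16 ^ i)) σ := by
    intro i h h0 σ
    change opN hR0 hJ hk1 r1 i h σ = _
    unfold opN
    rw [dif_pos h0]
  -- the bills
  have hbills := sum_rbill_le Q (L := L) (fun p => G p.1) (fun p => op p.1)
    (fun p => R0 * 16 ^ p.1) (fun p => (hRn p.1).le) r1
    (fun h hh => (rr_spec Q _ (Q.ne_nil_of_mem_H hh)).2.1) hKpos
    (fun p h => 34 * aa k (r1 h) (R0 * 16 ^ p.1) * (k * Q.P h))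
    (fun p h x => Fb Q R0 CG r1 p.1 h x) ?_ ?_ ?_ ?_
  · -- labels
    have swap : ∀ (ι' : Type u) (s : Finset ι') (c : ι' → ℝ) (N : ℕ → ι' → ℝ),
        ∑ x ∈ s, c x * ∑ l ∈ range L, R0 * 16 ^ l * N l x =
          ∑ l ∈ range L, R0 * 16 ^ l * ∑ x ∈ s, c x * N l x := by
      intro ι' s c N
      simp_rw [mul_sum]
      rw [sum_comm]
      exact sum_congr rfl fun l _ => sum_congr rfl fun x _ => by ring
    have swap' : ∀ (s : Finset Q.ι) (c : Q.ι → ℝ) (N : ℕ → Q.ι → ℝ),
        ∑ x ∈ s, c x * ∑ l ∈ range L, R0 * 16 ^ l * N l x =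
          ∑ l ∈ range L, R0 * 16 ^ l * ∑ x ∈ s, c x * N l x := by
      intro s c N
      simp_rw [mul_sum]
      rw [sum_comm]
      exact sum_congr rfl fun l _ => sum_congr rfl fun x _ => by ring
    set pi : List Y → ℕ → Y → Option Y → ℝ :=
      fun h l x => (Mi R0 J hR0 hJ l).lab (st h l) x with hpi
    have hfb : ∑ h ∈ Q.H, fbill Q L (fun l => R0 * 16 ^ l) pi h =
        ∑ h ∈ Q.H, ∑ p : Fin L, R0 * 16 ^ p.1 * (G p.1).bill Q (op p.1) h := by
      apply sum_congr rfl
      intro h _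
      rw [Fin.sum_univ_eq_sum_range (fun i => R0 * (16 : ℝ) ^ i * (G i).bill Q (op i) h) L]
      unfold fbill fcost RGame.bill RGame.Rel
      simp_rw [mul_add (R0 * _)]
      rw [sum_add_distrib]
      congr 1
      · exact swap Y univ (Q.mm h) fun l x => ∑ a, |pi h.dropLast l x a - pi h l x a|
      · exact swap' (Q.I h) Q.p fun l i => ∑ a, |pi h l (Q.src i (h.length - 1)) a -
          pi h l (Q.rq i (h.length - 1)) a|
    have hpv : ∀ h l x, Mh.IsPV (pi h l x) := fun h l x => (G l).π_pv _ _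
    have hinit : ∑ p : Fin L, R0 * 16 ^ p.1 * ∑ j, (G p.1).U (G p.1).S0 (Q.s j) ≤
        (∑ i ∈ range L, R0 * 16 ^ i) * (k * |V|) := by
      rw [sum_mul, ← Fin.sum_univ_eq_sum_range (fun i => R0 * (16 : ℝ) ^ i * (k * |V|)) L]
      apply sum_le_sum
      intro p _
      apply mul_le_mul_of_nonneg_left _ (hRn p.1).le
      have h1 : ∀ j : Fin k, (G p.1).U (G p.1).S0 (Q.s j) ≤ |V| := fun j =>
        ((Mi R0 J hR0 hJ p.1).U_le (G p.1).S0.2 (Q.s j)).trans (le_abs_self V)
      calc ∑ j, (G p.1).U (G p.1).S0 (Q.s j) ≤ ∑ _j : Fin k, |V| := sum_le_sum fun j _ => h1 j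
        _ = k * |V| := by simp
    have hKlog : 9 * K * Q.opt ≤ 9 * K1 * 5 * Real.log (k + 1) * Q.opt := by
      apply mul_le_mul_of_nonneg_right _ hopt
      have := one_add_log_le hk
      calc 9 * K = 9 * K1 * (1 + Real.log (8 * k)) := by rw [hK]; ring
        _ ≤ 9 * K1 * (5 * Real.log (k + 1)) := by gcongr
        _ = _ := by ring
    rcases hp0.eq_or_lt with hp | hp
    · -- no mass at all
      obtain ⟨lam, hl1, hl2⟩ := exists_lam (A := Option Y) Q L (fun l => R0 * 16 ^ l)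
        (fun l => (hRn l).le) pi hpv one_pos
      refine ⟨st, lam, fun h i _ => ((G i).st Q (op i) h).2, fun h i _ x => hl1 h i x, ?_⟩
      have hpz : ∀ i, Q.p i = 0 := fun i =>
        (sum_eq_zero_iff_of_nonneg fun i _ => Q.p_nonneg i).1 hp.symm i (mem_univ i)
      have hz : ∑ h ∈ Q.H, gbill Q L (fun l => R0 * 16 ^ l) lam h = 0 := by
        apply sum_eq_zero
        intro h _
        unfold gbill
        have h1 : ∀ x, Q.mm h x = 0 := by
          intro x
          unfold Prior.mm Prior.Em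
          exact sum_eq_zero fun i _ => by rw [hpz i, zero_mul]
        simp [h1, hpz]
      rw [hz, ← hp, mul_zero, add_zero]
      have hlog : 0 ≤ Real.log ((k : ℝ) + 1) := Real.log_nonneg (by linarith)
      positivity
    · obtain ⟨lam, hl1, hl2⟩ := exists_lam (A := Option Y) Q L (fun l => R0 * 16 ^ l)
        (fun l => (hRn l).le) pi hpv hp
      refine ⟨st, lam, fun h i _ => ((G i).st Q (op i) h).2, fun h i _ x => hl1 h i x, ?_⟩
      rw [hfb] at hl2
      have h3 := mul_le_mul_of_nonneg_left hinit hp0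
      calc ∑ h ∈ Q.H, gbill Q L (fun l => R0 * 16 ^ l) lam h
          ≤ 9 * K * Q.opt + (∑ i, Q.p i) * ((∑ i ∈ range L, R0 * 16 ^ i) * (k * |V|)) +
            ∑ i, Q.p i := by linarith
        _ ≤ 9 * K1 * 5 * Real.log (k + 1) * Q.opt +
            (∑ i, Q.p i) * ((∑ i ∈ range L, R0 * 16 ^ i) * (k * |V|)) + ∑ i, Q.p i := by linarith
        _ = _ := by rw [hB']; ring
  · -- hop
    intro p h hh σ _
    have h0 := Q.ne_nil_of_mem_H hh
    rw [hop_eq p.1 h h0 σ]
    have := opS_price (Mi R0 J hR0 hJ p.1) (h.getLast h0) (aa_nonneg k (r1 h) (R0 * 16 ^ p.1))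
      (aa_le hk1 (r1 h) (R0 * 16 ^ p.1)) σ (Q.mm_nonneg h)
    rw [Q.sum_mm_one] at this
    exact this
  · -- hsl
    intro p h hh h0 σ hσ x
    rw [hop_eq p.1 h h0 σ]
    have hsp := rr_spec Q (R0 * 16 ^ L) h0
    have e1 : (G p.1).U (opS (Mi R0 J hR0 hJ p.1) (h.getLast h0)
          (aa_nonneg k (r1 h) (R0 * 16 ^ p.1)) (aa_le hk1 (r1 h) (R0 * 16 ^ p.1)) σ)
          (h.getLast h0) -
        (G p.1).U (opS (Mi R0 J hR0 hJ p.1) (h.getLast h0)
          (aa_nonneg k (r1 h) (R0 * 16 ^ p.1)) (aa_le hk1 (r1 h) (R0 * 16 ^ p.1)) σ) x +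
        (G p.1).nr (opS (Mi R0 J hR0 hJ p.1) (h.getLast h0)
          (aa_nonneg k (r1 h) (R0 * 16 ^ p.1)) (aa_le hk1 (r1 h) (R0 * 16 ^ p.1)) σ) x
          (opS (Mi R0 J hR0 hJ p.1) (h.getLast h0)
          (aa_nonneg k (r1 h) (R0 * 16 ^ p.1)) (aa_le hk1 (r1 h) (R0 * 16 ^ p.1)) σ)
          (h.getLast h0) =
        (Mi R0 J hR0 hJ p.1).U ⟨σ.1.P, σ.1.β, (Mi R0 J hR0 hJ p.1).op σ.1.w (h.getLast h0)
            (aa k (r1 h) (R0 * 16 ^ p.1))⟩ (h.getLast h0) -
          (Mi R0 J hR0 hJ p.1).U ⟨σ.1.P, σ.1.β, (Mi R0 J hR0 hJ p.1).op σ.1.w (h.getLast h0)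
            (aa k (r1 h) (R0 * 16 ^ p.1))⟩ x +
          (Mi R0 J hR0 hJ p.1).nrm ⟨σ.1.P, σ.1.β, (Mi R0 J hR0 hJ p.1).op σ.1.w (h.getLast h0)
            (aa k (r1 h) (R0 * 16 ^ p.1))⟩ (h.getLast h0)
            ⟨σ.1.P, σ.1.β, (Mi R0 J hR0 hJ p.1).op σ.1.w (h.getLast h0)
            (aa k (r1 h) (R0 * 16 ^ p.1))⟩ x := by
      congr 1
      rw [IM.nrm_comm]
      rfl
    rw [e1]
    unfold Fb
    rw [hyv h0]
    by_cases hbig : 2048 * r1 h ≤ R0 * 16 ^ p.1
    · rw [if_pos hbig]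
      rcases hsp.2.2 with hP | hP
      · exfalso
        have h1 : r1 h = |R0 * 16 ^ L| := hP.2
        rw [h1, abs_of_pos (hRn L)] at hbig
        have h2 : R0 * (16 : ℝ) ^ p.1 ≤ R0 * 16 ^ L :=
          mul_le_mul_of_nonneg_left (pow_le_pow_right₀ (by norm_num) p.2.le) hR0.le
        have := hRn L
        linarith
      · obtain ⟨hP1, ⟨x0, hx0⟩, hP2⟩ := hP
        have hb : 0 < Gs.bm dist (Q.mm h) (h.getLast h0) (r1 h) :=
          lt_of_lt_of_le (by positivity) hP2
        refine slope_big (hRn p.1) hJ hCG (Q.mm_nonneg h) (S := σ.1) (y := h.getLast h0) (x := x)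
          ?_ (hgrid p.1 p.2.le) hsp.1 ?_ hb hk1 hbig
        · intro r a hr0 hr1 hb2 ha0 ha1 hc
          exact hG Y (Mi R0 J hR0 hJ p.1) (Q.mm h) σ.1 (h.getLast h0) x r a (Q.mm_nonneg h) hσ hr0
            hr1 hb2 ha0 ha1 hc
        · by_cases hx : x0 = h.getLast h0
          · left
            change r1 h = 0
            have : r1 h = dist x0 (h.getLast h0) := hx0
            rw [this, hx, dist_self]
          · right
            change R0 * 16 ^ p.1 ≤ 2 * J * r1 h
            have : r1 h = dist x0 (h.getLast h0) := hx0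
            rw [this]
            exact hgrid p.1 p.2.le x0 _ hx
    · rw [if_neg hbig]
      push Not at hbig
      exact slope_small (Mi R0 J hR0 hJ p.1) σ.2 hk1 (hRn p.1) hbig _ x
  · -- he
    intro h hh
    have h0 := Q.ne_nil_of_mem_H hh
    have hsp := rr_spec Q (R0 * 16 ^ L) h0
    have h1 : ∑ p : Fin L, R0 * 16 ^ p.1 * (34 * aa k (r1 h) (R0 * 16 ^ p.1) * (k * Q.P h)) =
        17 / 2 * Q.P h * ∑ i ∈ range L, (16 : ℝ) ^ i * R0 * min 1 ((r1 h / (16 ^ i * R0)) ^ 2) := by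
      rw [Fin.sum_univ_eq_sum_range
        (fun i => R0 * (16 : ℝ) ^ i * (34 * aa k (r1 h) (R0 * 16 ^ i) * (k * Q.P h))) L, mul_sum]
      apply sum_congr rfl
      intro i _
      unfold aa
      rw [mul_comm R0 ((16 : ℝ) ^ i)]
      field_simp
      ring
    rw [h1]
    have h2 := Gs.sum_price_cut (B := 16) (by norm_num) hR0 hsp.1 L
    have hP := Q.P_nonneg h
    calc 17 / 2 * Q.P h * ∑ i ∈ range L, (16 : ℝ) ^ i * R0 * min 1 ((r1 h / (16 ^ i * R0)) ^ 2)
        ≤ 17 / 2 * Q.P h * (2 * (16 / (16 - 1)) * r1 h) := by gcongr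
      _ ≤ 20 * (Q.P h * r1 h) := by
          have : 0 ≤ Q.P h * r1 h := mul_nonneg hP hsp.1
          nlinarith
      _ ≤ K * (Q.P h * r1 h) := by
          apply mul_le_mul_of_nonneg_right _ (mul_nonneg hP hsp.1)
          have : 0 ≤ (4 * CG + 400) * 4000 := by positivity
          nlinarith
  · -- hF
    intro h hh h0 x
    have hsp := rr_spec Q (R0 * 16 ^ L) h0
    rw [Fin.sum_univ_eq_sum_range (fun i => R0 * (16 : ℝ) ^ i * Fb Q R0 CG r1 i h x) L]
    have h1 := sum_slopes hCG hR0 hJ hgrid hk1 (Q.mm_nonneg h) (Q.sum_mm_one h) (h.getLast h0) x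
      hsp.1 (by
        rcases hsp.2.2 with hP | hP
        · left
          rw [hP.2, abs_of_pos (hRn L)]
        · exact Or.inr hP) (fun i => Fb Q R0 CG r1 i h x) ?_ ?_
    · refine h1.trans ?_
      have : 0 ≤ dist x (h.getLast h0) + r1 h := add_nonneg dist_nonneg hsp.1
      calc (4 * CG + 400) * 4000 * (dist x (h.getLast h0) + rr Q (R0 * 16 ^ L) h) *
            (1 + Real.log (8 * k)) =
            (4 * CG + 400) * 4000 * (1 + Real.log (8 * k)) * (dist x (h.getLast h0) + r1 h) := by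
            ring
        _ ≤ K * (dist x (h.getLast h0) + r1 h) := by
            apply mul_le_mul_of_nonneg_right _ this
            rw [hK, hK1]
            nlinarith
    · intro i hi hb _
      simp only [Fb]
      rw [if_pos hb, hyv h0]
    · intro i hi hb
      simp only [Fb]
      rw [if_neg (not_le.2 hb)]

end Final

end Crest.Agent.R314.GO
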