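import Mathlib
import Crest.Agent.R314.G1_G0
import Crest.Agent.R314.G1_F
import Crest.Agent.R314.G1_C2
import Crest.Agent.R314.G1_B5
import Crest.Agent.R314.G1_A2
import Crest.Agent.R314.G1_R
import Crest.Agent.R314.GOa1
import Crest.Agent.R314.GO3
import Crest.Agent.R314.C2s
import Crest.Agent.R314.C2p
import Crest.Agent.R314.C3
import Crest.Agent.R314.C2h1
import Crest.Agent.R314.C7d

-- ▼ part R314/G1_G1
section

/-!
R314, module G (one scale), part G1: combination of the two claims and of the slopes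
(helper435), with the inputs as hypotheses.
-/

set_option autoImplicit false
set_option linter.unusedSectionVars false

namespace Crest.Agent.R314.G1

open Finset

variable {Y : Type*} [Fintype Y] [DecidableEq Y] (M : IM Y)

namespace IM

theorem geo_GamR_nonneg {m : Y → ℝ} (hm : ∀ x, 0 ≤ m x) {y : Y} {r : ℝ} (hr : r ≤ 60)
    (hy : 0 < M.bm m y r) : 0 ≤ M.GamR m y r := by
  have hJ := M.Jr
  unfold GamR
  apply div_nonneg _ (by positivity)
  apply sum_nonneg
  intro s hs
  have h1 : 0 < M.bm m y (max ((s : ℝ) / (2 * M.J)) r) :=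
    hy.trans_le (M.bm_mono_r hm y (le_max_right _ _))
  apply Real.log_nonneg
  rw [le_div_iff₀ h1, one_mul]
  apply M.bm_mono_r hm
  apply max_le _ hr
  rw [div_le_iff₀ (by positivity)]
  have h2 : ((s : ℕ) : ℝ) ≤ (2 * M.J : ℕ) := by exact_mod_cast (mem_range.1 hs).le
  push_cast at h2
  nlinarith

theorem log_1001 : 1 / 1001 ≤ Real.log (1 + 1 / 1000) := by
  have h := Real.one_sub_inv_le_log_of_pos (show (0 : ℝ) < 1 + 1 / 1000 by norm_num)
  norm_num at h ⊢
  linarith


end IM

end Crest.Agent.R314.G1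
end

-- ▼ part R314/G1_C3
section

/-!
R314, module G (GEO1), block G1_C, part 3: the final form of the slopes, after `Op(y, a)` with cut-off `r`
(input [291, G1_C2] of helper435's #8916).  Author: helper291.
-/

set_option autoImplicit false
set_option linter.unusedSectionVars false

namespace Crest.Agent.R314.G1

open Finset

variable {Y : Type*} [Fintype Y] [DecidableEq Y] (M : IM Y)

namespace IM
namespace C

theorem log104 : Real.log (2 / (1 / 52)) ≤ 5 := by
  have h : (2 : ℝ) / (1 / 52) ≤ Real.exp 5 := by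
    have h1 : (2.7 : ℝ) ≤ Real.exp 1 := by
      have := Real.exp_one_gt_d9
      linarith
    have h2 : (2.7 : ℝ) ^ 5 ≤ Real.exp 1 ^ 5 := by gcongr
    rw [← Real.exp_nat_mul] at h2
    norm_num at h2 ⊢
    linarith
  calc Real.log (2 / (1 / 52)) ≤ Real.log (Real.exp 5) := Real.log_le_log (by norm_num) h
    _ = 5 := Real.log_exp 5

variable {M}

section
variable {S : St Y} {m : Y → ℝ} (hS : Stable M m S) (hm : ∀ x, 0 ≤ m x) {y : Y} {r : ℝ}
  (hr : 0 ≤ r) (hr1 : r ≤ 60) (hpos : 0 < M.bm m y r) {a : ℝ} (ha0 : 0 ≤ a) (ha : a ≤ 1 / 2)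
  (har : 0 < a ∨ r = 0)
include hS hm hr hr1 hpos ha0 ha har

omit hS hm hr1 hpos ha0 in
theorem rlog_nonneg : 0 ≤ r * Real.log (2 / a) := by
  rcases har with h0 | h0
  · exact mul_nonneg hr (Real.log_nonneg (by rw [le_div_iff₀ h0]; linarith))
  · rw [h0, zero_mul]




end

section
variable {S : St Y} {m : Y → ℝ} (hS : Stable M m S) (hm : ∀ x, 0 ≤ m x) {y : Y} {r : ℝ}
  (hr : 0 ≤ r) (hr1 : r ≤ 60) (hpos : 0 < M.bm m y r) {a : ℝ} (ha0 : 0 < a) (ha : a ≤ 1 / 2)
include hS hm hr hr1 hpos ha0 ha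




end

end C
end IM

end Crest.Agent.R314.G1
end

-- ▼ part R314/G1_P
section

/-!
R314, module G (one scale), part P: locality of the operations, the pointwise comparison
lemma (helper869; statement of helper435, post 8699).
-/

set_option autoImplicit false
set_option linter.unusedSectionVars false
set_option linter.unusedVariables false

namespace Crest.Agent.R314.G1

open Finset

variable {Y : Type*} [Fintype Y] [DecidableEq Y] (M : IM Y)

namespace IM

/-! ### locality -/

theorem p_W_congr {w w' : Y → ℝ} {x : Y} {r : ℝ} (h : ∀ z, M.d x z ≤ r → w z = w' z) :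
    M.W w x r = M.W w' x r := by
  unfold W bm
  refine Finset.sum_congr rfl fun z _ => ?_
  by_cases hz : M.d x z ≤ r
  · simp [hz, fl, h z hz]
  · simp [hz]

theorem p_psi_congr {w w' : Y → ℝ} {x : Y} (h : ∀ z, M.d x z ≤ 1 → w z = w' z) {i : ℕ}
    (hi : i ≤ M.J) : M.psi w x i = M.psi w' x i := by
  unfold psi
  rw [M.p_W_congr (fun z hz => h z (hz.trans (M.rad_le_one hi)))]

theorem p_L_congr {w w' : Y → ℝ} {x : Y} (h : ∀ z, M.d x z ≤ 1 → w z = w' z) :
    M.L w x = M.L w' x := by
  unfold L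
  rw [M.E_congr fun s hs => M.p_psi_congr h hs.le]

theorem p_lam_congr {w w' : Y → ℝ} {x : Y} (h : ∀ z, M.d x z ≤ 1 → w z = w' z) (z : Y) :
    M.lam w x z = M.lam w' x z := by
  unfold lam
  refine M.E_congr fun s hs => ?_
  have hr := M.rad_le_one hs.le
  unfold lam1
  rw [M.p_W_congr (fun z hz => h z (hz.trans hr))]
  by_cases hz : M.d x z ≤ M.rad s
  · simp [hz, fl, h z (hz.trans hr)]
  · simp [hz]

/-- far separated sets -/
def Far (A : Finset Y) : Prop := ∀ p ∈ A, ∀ q ∈ A, p ≠ q → 40 ≤ M.d p q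

variable {M}

theorem p_mop_eq_op {A : Finset Y} {a w : Y → ℝ} (hA : M.Far A) {q x z : Y} (hq : q ∈ A)
    (hx : M.d q x ≤ 3) (hz : M.d x z ≤ 1) : M.mop w A a z = M.op w q (a q) z := by
  have hqz : M.d q z ≤ 4 := by have := M.d_tri q x z; linarith
  have h1 : (∑ p ∈ A, if M.d p z ≤ 2 then a p else 0) = if M.d q z ≤ 2 then a q else 0 := by
    refine Finset.sum_eq_single_of_mem q hq fun p hp hpq => ?_
    have h40 := hA p hp q hq hpq
    have h3 := M.d_tri p z q
    rw [M.d_symm z q] at h3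
    rw [if_neg]; linarith
  have h2 : (if z ∈ A then a z else 0) = if z = q then a q else 0 := by
    by_cases hzq : z = q
    · subst hzq; simp [hq]
    · rw [if_neg hzq, if_neg]
      intro hzA
      have h40 := hA z hzA q hq hzq
      rw [M.d_symm z q] at h40
      linarith
  unfold mop op
  rw [h1, h2]
  split_ifs <;> ring

theorem p_mop_eq_self {A : Finset Y} {a w : Y → ℝ} {x z : Y}
    (hx : ∀ q ∈ A, 3 < M.d q x) (hz : M.d x z ≤ 1) : M.mop w A a z = w z := by
  have h1 : (∑ p ∈ A, if M.d p z ≤ 2 then a p else 0) = 0 := by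
    refine Finset.sum_eq_zero fun p hp => ?_
    have h3 := M.d_tri p z x
    rw [M.d_symm z x] at h3
    have := hx p hp
    rw [if_neg]; linarith
  have h2 : z ∉ A := by
    intro hzA
    have := hx z hzA
    rw [M.d_symm z x] at this
    linarith
  unfold mop
  rw [h1, if_neg h2]; ring

/-- the ball-mass of `mop` -/
theorem p_op_nonneg {w : Y → ℝ} (hw : ∀ z, 0 ≤ w z) {q : Y} {a : ℝ} (h0 : 0 ≤ a) (h1 : a ≤ 1)
    (z : Y) : 0 ≤ M.op w q a z := by
  unfold op
  have := hw z
  split_ifs <;> nlinarith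

theorem p_bm_congr {m m' : Y → ℝ} {x : Y} {r : ℝ} (h : ∀ z, M.d x z ≤ r → m z = m' z) :
    M.bm m x r = M.bm m' x r := by
  unfold bm
  refine Finset.sum_congr rfl fun z _ => ?_
  by_cases hz : M.d x z ≤ r
  · simp [hz, h z hz]
  · simp [hz]

theorem bm_op_le {w : Y → ℝ} (hw : ∀ z, 0 ≤ w z) {q : Y} {a : ℝ} (h0 : 0 ≤ a) (h1 : a ≤ 1)
    {y : Y} (hy : M.bm w y 1 ≤ 1) : M.bm (M.op w q a) y 1 ≤ 1 := by
  by_cases hq : M.d y q ≤ 1
  · -- the ball contains `q` and lies in `B(q,2)`
    have h : M.bm (M.op w q a) y 1 = (1 - a) * M.bm w y 1 + a := by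
      unfold bm op
      have : ∀ z, (if M.d y z ≤ 1 then
          ((if M.d q z ≤ 2 then (1 - a) * w z else w z) + if z = q then a else 0) else 0)
          = (1 - a) * (if M.d y z ≤ 1 then w z else 0) + if z = q then a else 0 := by
        intro z
        by_cases hz : M.d y z ≤ 1
        · have : M.d q z ≤ 2 := by
            have := M.d_tri q y z
            rw [M.d_symm q y] at this
            linarith
          simp [hz, this]
        · have : z ≠ q := by rintro rfl; exact hz hq
          simp [hz, this]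
      simp_rw [this]
      rw [Finset.sum_add_distrib, ← Finset.mul_sum]
      simp
    rw [h]
    nlinarith
  · have h : M.bm (M.op w q a) y 1 ≤ M.bm w y 1 := by
      unfold bm op
      refine Finset.sum_le_sum fun z _ => ?_
      by_cases hz : M.d y z ≤ 1
      · have : z ≠ q := by rintro rfl; exact hq hz
        have hwz := hw z
        simp only [hz, this, if_true, if_false, add_zero]
        split_ifs <;> nlinarith
      · simp [hz]
    exact h.trans hy

theorem p_mop_nonneg {A : Finset Y} {a w : Y → ℝ} (hA : M.Far A) (hw : ∀ z, 0 ≤ w z)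
    (h0 : ∀ q ∈ A, 0 ≤ a q) (h1 : ∀ q ∈ A, a q ≤ 1) (z : Y) : 0 ≤ M.mop w A a z := by
  by_cases h : ∃ q ∈ A, M.d q z ≤ 3
  · obtain ⟨q, hq, hqz⟩ := h
    rw [p_mop_eq_op hA hq hqz (by rw [M.d_self]; norm_num)]
    exact p_op_nonneg hw (h0 q hq) (h1 q hq) z
  · push Not at h
    rw [p_mop_eq_self h (by rw [M.d_self]; norm_num)]
    exact hw z

theorem bm_mop_le {A : Finset Y} {a w : Y → ℝ} (hA : M.Far A) (hw : ∀ z, 0 ≤ w z)
    (h0 : ∀ q ∈ A, 0 ≤ a q) (h1 : ∀ q ∈ A, a q ≤ 1) (hp : ∀ y, M.bm w y 1 ≤ 1) (y : Y) :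
    M.bm (M.mop w A a) y 1 ≤ 1 := by
  by_cases h : ∃ q ∈ A, M.d q y ≤ 3
  · obtain ⟨q, hq, hqz⟩ := h
    rw [p_bm_congr (m' := M.op w q (a q)) fun z hz => p_mop_eq_op hA hq hqz hz]
    exact bm_op_le hw (h0 q hq) (h1 q hq) (hp y)
  · push Not at h
    rw [p_bm_congr (m' := w) fun z hz => p_mop_eq_self h hz]
    exact hp y

/-! ### the light potential after an operation -/

theorem fl_op_ge {w : Y → ℝ} (hw : ∀ z, 0 ≤ w z) {q : Y} {a : ℝ} (h0 : 0 ≤ a) (z : Y) :
    (1 - a) * fl w z ≤ fl (M.op w q a) z := by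
  have h1 := hw z
  have h2 := card_pos z
  have h3 : 0 ≤ a * (1 / (Fintype.card Y : ℝ)) := by positivity
  have h4 : 0 ≤ a * w z := by positivity
  unfold fl op
  split_ifs <;> nlinarith

theorem W_op_ge {w : Y → ℝ} (hw : ∀ z, 0 ≤ w z) {q : Y} {a : ℝ} (h0 : 0 ≤ a) (x : Y) (r : ℝ) :
    (1 - a) * M.W w x r ≤ M.W (M.op w q a) x r := by
  unfold W bm
  rw [mul_sum]
  refine sum_le_sum fun z _ => ?_
  split_ifs
  · exact fl_op_ge hw h0 z
  · simp

theorem W_op_ge' {w : Y → ℝ} (hw : ∀ z, 0 ≤ w z) {q : Y} {a : ℝ} (h0 : 0 ≤ a) (h1 : a ≤ 1)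
    {x : Y} {r : ℝ} (hq : M.d x q ≤ r) : a ≤ M.W (M.op w q a) x r := by
  have h := M.le_bm (m := fl (M.op w q a)) (x := x) (z := q) (r := r)
    (fun z => (fl_pos (fun y => p_op_nonneg hw h0 h1 y) z).le) hq
  refine le_trans ?_ h
  have h2 := card_pos q
  have h3 := hw q
  have h4 : 0 ≤ (1 - a) * w q := mul_nonneg (by linarith) h3
  have h5 : (0 : ℝ) ≤ 1 / (Fintype.card Y : ℝ) := by positivity
  unfold fl op
  rw [M.d_self]
  simp only [show (0 : ℝ) ≤ 2 by norm_num, if_true]
  linarith

/-- an operation costs at most `16 ln 2` -/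
theorem L_op_le_add {w : Y → ℝ} (hw : ∀ z, 0 ≤ w z) {q : Y} {a : ℝ} (h0 : 0 ≤ a)
    (h1 : a ≤ 1 / 2) (x : Y) : M.L (M.op w q a) x ≤ M.L w x + 16 * Real.log 2 := by
  have h : M.E (M.psi (M.op w q a) x) ≤ M.E (fun s => M.psi w x s + Real.log 2) := by
    refine M.E_mono fun s hs => ?_
    unfold psi
    have hW := M.W_pos hw x (M.rad_nonneg s)
    have hW' := M.W_pos (fun y => p_op_nonneg hw h0 (by linarith) y : ∀ y, 0 ≤ M.op w q a y) x
      (M.rad_nonneg s)
    have hge := W_op_ge (M := M) hw h0 x (M.rad s) (q := q) (a := a)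
    rw [← Real.log_mul (by positivity) (by norm_num)]
    apply Real.log_le_log (by positivity)
    rw [div_mul_eq_mul_div, div_le_div_iff₀ hW' hW]
    nlinarith
  rw [E_add, E_const] at h
  unfold L
  linarith

theorem L_op_le_log {w : Y → ℝ} (hw : ∀ z, 0 ≤ w z) {q : Y} {a : ℝ} (h0 : 0 < a)
    (h1 : a ≤ 1) {x : Y} (hx : M.d q x ≤ 1 / 2) :
    M.L (M.op w q a) x ≤ 16 * Real.log (2 / a) := by
  have h : M.E (M.psi (M.op w q a) x) ≤ M.E (fun _ => Real.log (2 / a)) := by
    refine M.E_mono fun s hs => ?_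
    unfold psi
    have hW' := M.W_pos (fun y => p_op_nonneg hw h0.le h1 y : ∀ y, 0 ≤ M.op w q a y) x
      (M.rad_nonneg s)
    have hge := W_op_ge' hw h0.le h1 (q := q) (a := a) (x := x) (r := M.rad s)
      (by rw [M.d_symm]; exact hx.trans (M.half_le_rad s))
    apply Real.log_le_log (by positivity)
    exact div_le_div_of_nonneg_left (by norm_num) h0 hge
  rw [E_const] at h
  unfold L
  linarith

theorem p_op_eq_self {w : Y → ℝ} {q x z : Y} {a : ℝ} (hx : 3 < M.d q x) (hz : M.d x z ≤ 1) :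
    M.op w q a z = w z := by
  have h3 := M.d_tri q z x
  rw [M.d_symm z x] at h3
  have h4 : ¬ M.d q z ≤ 2 := by linarith
  have h5 : z ≠ q := by
    rintro rfl
    rw [M.d_self] at h4
    exact h4 (by norm_num)
  unfold op
  rw [if_neg h4, if_neg h5, add_zero]

theorem L_op_far {w : Y → ℝ} {q x : Y} {a : ℝ} (hx : 3 < M.d q x) :
    M.L (M.op w q a) x = M.L w x :=
  M.p_L_congr fun _ hz => p_op_eq_self hx hz

theorem lam_op_far {w : Y → ℝ} {q x : Y} {a : ℝ} (hx : 3 < M.d q x) (z : Y) :
    M.lam (M.op w q a) x z = M.lam w x z :=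
  M.p_lam_congr (fun _ hz => p_op_eq_self hx hz) z

theorem L_mop_near {A : Finset Y} {a w : Y → ℝ} (hA : M.Far A) {q x : Y} (hq : q ∈ A)
    (hx : M.d q x ≤ 3) : M.L (M.mop w A a) x = M.L (M.op w q (a q)) x :=
  M.p_L_congr fun _ hz => p_mop_eq_op hA hq hx hz


theorem L_mop_far {A : Finset Y} {a w : Y → ℝ} {x : Y} (hx : ∀ q ∈ A, 3 < M.d q x) :
    M.L (M.mop w A a) x = M.L w x :=
  M.p_L_congr fun _ hz => p_mop_eq_self hx hz

theorem lam_mop_far {A : Finset Y} {a w : Y → ℝ} {x : Y} (hx : ∀ q ∈ A, 3 < M.d q x) (z : Y) :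
    M.lam (M.mop w A a) x z = M.lam w x z :=
  M.p_lam_congr (fun _ hz => p_mop_eq_self hx hz) z

/-! ### aliases (names of helper197's local copy) -/

alias L_congr_p := p_L_congr
alias W_congr_p := p_W_congr
alias bm_congr_p := p_bm_congr
alias lam_congr_p := p_lam_congr
alias mop_eq_op_p := p_mop_eq_op
alias mop_eq_self_p := p_mop_eq_self
alias mop_nonneg_p := p_mop_nonneg
alias op_nonneg_p := p_op_nonneg

end IM

end Crest.Agent.R314.G1
end

-- ▼ part R314/G1_D
section

/-!
R314, module G (one scale), part D: removal of a main and claim 1 (helper869).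
-/

set_option autoImplicit false
set_option linter.unusedSectionVars false
set_option linter.unusedVariables false

namespace Crest.Agent.R314.G1

open Finset

variable {Y : Type*} [Fintype Y] [DecidableEq Y] {M : IM Y}

namespace IM

/-- the two-zone bookkeeping: `c₁` inside radius `r₁`, `c₂` between `r₁` and `r₂` -/
theorem sum_two_zone (m : Y → ℝ) (q : Y) {r₁ r₂ : ℝ} (h : r₁ ≤ r₂) (c₁ c₂ : ℝ) :
    ∑ x, m x * (if M.d q x ≤ r₁ then c₁ else if M.d q x ≤ r₂ then c₂ else 0) =
      c₁ * M.bm m q r₁ + c₂ * (M.bm m q r₂ - M.bm m q r₁) := by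
  unfold bm
  rw [← sum_sub_distrib, mul_sum, mul_sum, ← sum_add_distrib]
  refine sum_congr rfl fun x _ => ?_
  by_cases h1 : M.d q x ≤ r₁
  · rw [if_pos h1, if_pos h1, if_pos (h1.trans h)]; ring
  · rw [if_neg h1, if_neg h1]
    split_ifs <;> ring

/-- `M ln(N/M) ≤ N - M` in the form used for removals -/
theorem mul_log_ratio {A N : ℝ} (hA : 0 < A) (hN : A ≤ N) :
    A * (16 * Real.log (2 / (A / (2 * N)))) ≤ 22.2 * A + 16 * (N - A) := by
  have hN0 : 0 < N := lt_of_lt_of_le hA hN
  have h1 : (2 : ℝ) / (A / (2 * N)) = 2 * 2 * (N / A) := by field_simp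
  rw [h1, Real.log_mul (by norm_num) (by positivity), Real.log_mul (by norm_num) (by norm_num)]
  have h2 := Real.log_two_lt_d9
  have h3 : Real.log (N / A) ≤ N / A - 1 := Real.log_le_sub_one_of_pos (by positivity)
  have h4 : A * Real.log (N / A) ≤ N - A := by
    calc A * Real.log (N / A) ≤ A * (N / A - 1) := by gcongr
      _ = N - A := by field_simp
  nlinarith

/-- monotone functions of the distance which are constant from `3` on do not feel the removal
of a main at distance more than `3` -/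
theorem u_min_le {P P' : Finset Y} {x : Y} {c : ℝ} (hc : c ≤ 100)
    (h : ∀ p ∈ P, p ∈ P' ∨ c ≤ M.d x p) : min (M.u P' x) c ≤ min (M.u P x) c := by
  refine le_min ?_ (min_le_right _ _)
  refine M.le_u ((min_le_right _ _).trans hc) fun p hp => ?_
  rcases h p hp with h1 | h1
  · exact (min_le_left _ _).trans (M.u_le h1 x)
  · exact (min_le_right _ _).trans h1

theorem qf_min (u : ℝ) : qf (min u 3) = qf u := by
  rcases le_total u 3 with h | h
  · rw [min_eq_left h]
  · rw [min_eq_right h, qf_eq_one (by norm_num), qf_eq_one (by linarith)]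

theorem zf_min (u : ℝ) : zf (min u 3) = zf u := by
  rcases le_total u 3 with h | h
  · rw [min_eq_left h]
  · rw [min_eq_right h, zf_eq_one (by norm_num), zf_eq_one (by linarith)]

theorem tf_min (u : ℝ) : tf (min u 3) = tf u := by
  rcases le_total u 3 with h | h
  · rw [min_eq_left h]
  · rw [min_eq_right h, tf_eq_one (by norm_num), tf_eq_one (by linarith)]

theorem tf_min_one (u : ℝ) : tf (min u 1) = tf u := by
  rcases le_total u 1 with h | h
  · rw [min_eq_left h]
  · rw [min_eq_right h, tf_eq_one (by norm_num), tf_eq_one (by linarith)]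

/-- removing a main -/
theorem rem_exists {m : Y → ℝ} (hm : ∀ x, 0 ≤ m x) {S : St Y} (hS : Ok M S) {q : Y}
    (hq : q ∈ S.P) :
    ∃ S' : St Y, Ok M S' ∧ S'.P = S.P.erase q ∧ S'.β = S.β ∧
      (∀ z, 2 < M.d q z → S'.w z = S.w z) ∧
      M.D m S S' ≤ (45 - 90 * S.β q) * M.bm m q 3 := by
  set A := M.bm m q (1 / 16) with hA
  set N := M.bm m q 3 with hN
  have hA0 : 0 ≤ A := M.bm_nonneg hm _ _
  have hAN : A ≤ N := M.bm_mono_r hm _ (by norm_num)
  have hN0 : 0 ≤ N := hA0.trans hAN
  set a := A / (2 * N) with ha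
  have ha0 : 0 ≤ a := by positivity
  have ha1 : a ≤ 1 / 2 := by
    rcases eq_or_lt_of_le hN0 with h | h
    · rw [ha, ← h]; simp
    · rw [ha, div_le_iff₀ (by positivity)]; linarith
  have hop0 : ∀ z, 0 ≤ M.op S.w q a z := fun z => p_op_nonneg hS.w0 ha0 (by linarith) z
  have hop1 : ∀ y, M.bm (M.op S.w q a) y 1 ≤ 1 := fun y =>
    bm_op_le hS.w0 ha0 (by linarith) (hS.pack y)
  have hOk : Ok M (⟨S.P.erase q, S.β, M.op S.w q a⟩ : St Y) :=
    { β0 := hS.β0
      β1 := hS.β1
      w0 := hop0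
      pack := hop1
      sep := fun p hp p' hp' h =>
        hS.sep p (mem_of_mem_erase hp) p' (mem_of_mem_erase hp') h }
  refine ⟨⟨S.P.erase q, S.β, M.op S.w q a⟩, hOk, rfl, rfl, ?_, ?_⟩
  · intro z hz
    have h5 : z ≠ q := by
      rintro rfl
      rw [M.d_self] at hz
      linarith
    simp only [op]
    rw [if_neg (by linarith), if_neg h5, add_zero]
  · set S' : St Y := ⟨S.P.erase q, S.β, M.op S.w q a⟩ with hS'
    have hlog2 := Real.log_two_lt_d9
    set c₁ : ℝ := 22 - 90 * S.β q + 16 * Real.log (2 / a) with hc₁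
    set c₂ : ℝ := 14 - 90 * S.β q with hc₂
    -- near the removed main the timer term of the new state vanishes
    have hbt' : ∀ x, M.d q x ≤ 4 → M.bt S' x = 0 := by
      intro x hx
      refine M.bt_eq_zero fun p hp => ?_
      have h1 := hS.sep40 q hq p (mem_of_mem_erase hp) (ne_of_mem_erase hp).symm
      have h2 := M.d_tri q x p
      linarith
    have hbt : ∀ x, M.d q x ≤ 3 → M.bt S x = S.β q := by
      intro x hx
      rw [M.bt_eq hS.sep40 hq (by rw [M.d_symm]; linarith),
        cf_eq_one (by rw [M.d_symm]; exact hx), mul_one]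
    have key : ∀ x, m x * (M.U S' x - M.U S x + M.nrm S x S' x) ≤
        m x * (if M.d q x ≤ 1 / 16 then c₁ else if M.d q x ≤ 3 then c₂ else 0) := by
      intro x
      have hnrm := M.nrm_le_two hS.w0 hop0 x x (S := S) (S' := S')
      have hL := M.L_nonneg hS.w0 hS.pack x
      have hL' := M.L_nonneg hop0 hop1 x
      by_cases h1 : M.d q x ≤ 1 / 16
      · rw [if_pos h1]
        rcases eq_or_lt_of_le hA0 with h0 | h0
        · have : m x = 0 := le_antisymm
            (by have := M.le_bm hm h1; rw [← hA, ← h0] at this; exact this) (hm x)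
          rw [this]; simp
        · have ha0' : 0 < a := by
            have : 0 < N := lt_of_lt_of_le h0 hAN
            positivity
          refine mul_le_mul_of_nonneg_left ?_ (hm x)
          have e1 := hbt' x (by linarith)
          have e2 := hbt x (by linarith)
          have e3 := L_op_le_log (M := M) hS.w0 ha0' (by linarith) (q := q) (x := x) (by linarith)
          have e4 := qf_le_one (M.u S'.P x)
          have e5 := qf_nonneg (M.u S.P x)
          have e6 := zf_nonneg (M.u S.P x)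
          have e7 := zf_le_one (M.u S'.P x)
          have e8 := zf_nonneg (M.u S'.P x)
          unfold U
          rw [e1, e2]
          have e9 : zf (M.u S'.P x) * M.L S'.w x ≤ 16 * Real.log (2 / a) := by
            calc zf (M.u S'.P x) * M.L S'.w x ≤ 1 * M.L S'.w x := by gcongr
              _ ≤ _ := by rw [one_mul]; exact e3
          have e10 : 0 ≤ zf (M.u S.P x) * M.L S.w x := mul_nonneg e6 hL
          linarith
      · rw [if_neg h1]
        by_cases h2 : M.d q x ≤ 3
        · rw [if_pos h2]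
          refine mul_le_mul_of_nonneg_left ?_ (hm x)
          have e1 := hbt' x (by linarith)
          have e2 := hbt x h2
          have e3 := L_op_le_add (M := M) hS.w0 ha0 ha1 (q := q) x
          have e4 := qf_le_one (M.u S'.P x)
          have e7 := zf_le_one (M.u S'.P x)
          have e8 := zf_nonneg (M.u S'.P x)
          have hu : 1 / 16 ≤ M.u S.P x := by
            rw [M.u_near hS.sep40 hq (by rw [M.d_symm]; linarith), M.d_symm]
            linarith
          unfold U
          rw [e1, e2, qf_eq_one (by linarith : 1 / 32 ≤ M.u S.P x), zf_eq_one hu]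
          have e9 : zf (M.u S'.P x) * M.L S'.w x ≤ 1 * M.L S'.w x := by gcongr
          have e10 : M.L S'.w x ≤ M.L S.w x + 16 * Real.log 2 := e3
          linarith
        · rw [if_neg h2, mul_zero]
          push Not at h2
          refine mul_nonpos_of_nonneg_of_nonpos (hm x) ?_
          have e1 : min (M.u S'.P x) 3 = min (M.u S.P x) 3 := by
            apply le_antisymm
            · refine M.u_min_le (by norm_num) fun p hp => ?_
              by_cases hpq : p = q
              · right; rw [hpq, M.d_symm]; exact h2.le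
              · left; exact mem_erase.2 ⟨hpq, hp⟩
            · exact M.u_min_le (by norm_num) fun p hp => Or.inl (mem_of_mem_erase hp)
          have e2 : qf (M.u S'.P x) = qf (M.u S.P x) := by
            rw [← qf_min (M.u S'.P x), e1, qf_min]
          have e3 : zf (M.u S'.P x) = zf (M.u S.P x) := by
            rw [← zf_min (M.u S'.P x), e1, zf_min]
          have e4 : tf (M.u S'.P x) = tf (M.u S.P x) := by
            rw [← tf_min (M.u S'.P x), e1, tf_min]
          have e5 : M.L S'.w x = M.L S.w x := L_op_far h2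
          have e6 : M.bt S' x ≤ M.bt S x := by
            unfold bt
            refine sum_le_sum_of_subset_of_nonneg (erase_subset _ _) fun p _ _ => ?_
            exact mul_nonneg (hS.β0 p) (cf_nonneg _)
          have e7 : M.nrm S x S' x = 0 := by
            refine le_antisymm ?_ (M.nrm_nonneg _ _ _ _)
            refine (M.nrm_le hS.w0 hop0 x x (S := S) (S' := S')).trans ?_
            rw [e4]
            have : ∀ z, |M.lam S.w x z - M.lam S'.w x z| = 0 := by
              intro z
              have : M.lam S'.w x z = M.lam S.w x z := lam_op_far h2 z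
              rw [this]; simp
            simp [this]
          unfold U
          rw [e2, e3, e5, e7]
          linarith
    have hsum : M.D m S S' ≤ c₁ * A + c₂ * (N - A) := by
      rw [← sum_two_zone m q (by norm_num : (1 : ℝ) / 16 ≤ 3) c₁ c₂]
      exact sum_le_sum fun x _ => key x
    refine hsum.trans ?_
    rcases eq_or_lt_of_le hA0 with h0 | h0
    · rw [← h0, hc₂]
      nlinarith
    · have hlog := mul_log_ratio h0 hAN
      rw [← ha] at hlog
      rw [hc₁, hc₂]
      nlinarith

/-- **removal of an old main is free** -/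
theorem remove_free {m : Y → ℝ} (hm : ∀ x, 0 ≤ m x) {S : St Y} (hS : Ok M S) {q : Y}
    (hq : q ∈ S.P) (hβ : 1 / 2 ≤ S.β q) :
    ∃ S' : St Y, Ok M S' ∧ S'.P = S.P.erase q ∧ S'.β = S.β ∧
      (∀ z, 2 < M.d q z → S'.w z = S.w z) ∧ M.D m S S' ≤ 0 := by
  obtain ⟨S', h1, h2, h3, h4, h5⟩ := rem_exists hm hS hq
  refine ⟨S', h1, h2, h3, h4, h5.trans ?_⟩
  have := M.bm_nonneg hm q 3
  nlinarith

/-- disjoint balls around far separated points -/
theorem sum_bm_le {m : Y → ℝ} (hm : ∀ x, 0 ≤ m x) {A : Finset Y} (hA : M.Far A) {y : Y} {R : ℝ}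
    (h : ∀ q ∈ A, M.d y q + 3 ≤ R) : ∑ q ∈ A, M.bm m q 3 ≤ M.bm m y R := by
  unfold bm
  rw [sum_comm]
  refine sum_le_sum fun z _ => ?_
  by_cases hz : ∃ q ∈ A, M.d q z ≤ 3
  · obtain ⟨q, hq, hqz⟩ := hz
    rw [sum_eq_single_of_mem q hq, if_pos hqz, if_pos]
    · have := M.d_tri y q z
      have := h q hq
      linarith
    · intro p hp hpq
      have h1 := hA p hp q hq hpq
      have h2 := M.d_tri p z q
      rw [M.d_symm z q] at h2
      rw [if_neg]; linarith
  · push Not at hz
    rw [sum_eq_zero fun q hq => by rw [if_neg (not_le.2 (hz q hq))]]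
    split_ifs <;> [exact hm z; exact le_rfl]

/-- **claim 1** (item (6) of post 8508): at a stable state a point whose ball of radius `60`
has almost the same mass as its core has a main within `1/64` -/
theorem claim_one {m : Y → ℝ} (hm : ∀ x, 0 ≤ m x) {S : St Y} (hS : M.Stable m S) {y : Y}
    (hy0 : 0 < M.bm m y (1 / 1024))
    (hy1 : M.bm m y 60 ≤ (1 + 1 / 1000) * M.bm m y (1 / 1024)) :
    ∃ p ∈ S.P, M.d p y ≤ 1 / 64 := by
  by_contra hno
  push Not at hno
  obtain ⟨hOk, hst⟩ := hS
  have h40 := hOk.sep40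
  set m' : Y → ℝ := fun x => if M.d y x ≤ 1 / 1024 then 0 else m x with hm'
  have hm'0 : ∀ x, 0 ≤ m' x := fun x => by
    simp only [hm']; split_ifs <;> [exact le_rfl; exact hm x]
  set A : Finset Y := S.P.filter (fun p => M.d p y ≤ 42) with hA
  set F : Finset Y := S.P.filter (fun p => 42 < M.d p y) with hF
  have hAP : ∀ q ∈ A, q ∈ S.P := fun q hq => (mem_filter.1 hq).1
  have hAd : ∀ q ∈ A, M.d q y ≤ 42 := fun q hq => (mem_filter.1 hq).2
  have hFP : ∀ q ∈ F, q ∈ S.P := fun q hq => (mem_filter.1 hq).1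
  have hFd : ∀ q ∈ F, 42 < M.d q y := fun q hq => (mem_filter.1 hq).2
  have hAF : ∀ p ∈ S.P, p ∈ A ∨ p ∈ F := fun p hp => by
    rcases le_or_gt (M.d p y) 42 with h | h
    · exact Or.inl (mem_filter.2 ⟨hp, h⟩)
    · exact Or.inr (mem_filter.2 ⟨hp, h⟩)
  have hFar : M.Far A := fun p hp q hq hpq => h40 p (hAP p hp) q (hAP q hq) hpq
  set a : Y → ℝ := fun q => M.bm m' q (1 / 16) / (2 * M.bm m' q 3) with ha
  have hbmA : ∀ q, 0 ≤ M.bm m' q (1 / 16) := fun q => M.bm_nonneg hm'0 _ _
  have hbmN : ∀ q, 0 ≤ M.bm m' q 3 := fun q => M.bm_nonneg hm'0 _ _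
  have hbmAN : ∀ q, M.bm m' q (1 / 16) ≤ M.bm m' q 3 := fun q =>
    M.bm_mono_r hm'0 _ (by norm_num)
  have ha0 : ∀ q, 0 ≤ a q := fun q => div_nonneg (hbmA q) (by have := hbmN q; linarith)
  have ha1 : ∀ q, a q ≤ 1 / 2 := by
    intro q
    simp only [ha]
    rcases eq_or_lt_of_le (hbmN q) with h | h
    · rw [← h]; simp
    · rw [div_le_iff₀ (by positivity)]; have := hbmAN q; linarith
  set w' : Y → ℝ := M.mop S.w A a with hw'
  have hop0 : ∀ z, 0 ≤ w' z :=
    p_mop_nonneg hFar hOk.w0 (fun q _ => ha0 q) (fun q _ => by have := ha1 q; linarith)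
  have hop1 : ∀ z, M.bm w' z 1 ≤ 1 :=
    bm_mop_le hFar hOk.w0 (fun q _ => ha0 q) (fun q _ => by have := ha1 q; linarith) hOk.pack
  have hyP : y ∉ S.P := fun h => by
    have := hno y h
    rw [M.d_self] at this
    linarith
  set β' : Y → ℝ := Function.update S.β y 0 with hβ'
  have hβy : β' y = 0 := by simp [hβ']
  have hβF : ∀ p, p ≠ y → β' p = S.β p := fun p hp => by simp [hβ', hp]
  have hFy : ∀ p ∈ F, p ≠ y := fun p hp h => hyP (h ▸ hFP p hp)
  set S' : St Y := ⟨insert y F, β', w'⟩ with hS'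
  have hOk' : Ok M S' := by
    constructor
    · intro x
      by_cases hx : x = y
      · subst hx; exact hβy.ge
      · show 0 ≤ β' x
        rw [hβF x hx]; exact hOk.β0 x
    · intro x
      by_cases hx : x = y
      · subst hx; show β' x ≤ 1; rw [hβy]; norm_num
      · show β' x ≤ 1
        rw [hβF x hx]; exact hOk.β1 x
    · exact hop0
    · exact hop1
    · intro p hp q hq hpq
      show 42 ≤ M.d p q + β' p + β' q
      rcases mem_insert.1 hp with hp | hp
      · rcases mem_insert.1 hq with hq | hq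
        · exact absurd (hp.trans hq.symm) hpq
        · rw [hβF q (hFy q hq), hp, hβy]
          have h1 := hFd q hq
          have h2 := hOk.β0 q
          rw [M.d_symm y q]
          linarith
      · rcases mem_insert.1 hq with hq | hq
        · rw [hβF p (hFy p hp), hq, hβy]
          have h1 := hFd p hp
          have h2 := hOk.β0 p
          linarith
        · rw [hβF p (hFy p hp), hβF q (hFy q hq)]
          exact hOk.sep p (hFP p hp) q (hFP q hq) hpq
  have hD := hst S' hOk'
  have hlog2 := Real.log_two_lt_d9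
  -- timer terms
  have hbt'0 : ∀ x, (∀ p ∈ F, 4 ≤ M.d x p) → M.bt S' x = 0 := by
    intro x hx
    unfold bt
    refine sum_eq_zero fun p hp => ?_
    rcases mem_insert.1 hp with hp | hp
    · show β' p * _ = 0
      rw [hp, hβy, zero_mul]
    · rw [cf_eq_zero (hx p hp), mul_zero]
  have hbt'le : ∀ x, M.bt S' x ≤ M.bt S x := by
    intro x
    unfold bt
    have hyF : y ∉ F := fun h => hyP (hFP y h)
    show ∑ p ∈ insert y F, β' p * cf (M.d x p) ≤ _
    rw [sum_insert hyF, hβy, zero_mul, zero_add]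
    calc ∑ p ∈ F, β' p * cf (M.d x p) = ∑ p ∈ F, S.β p * cf (M.d x p) :=
          sum_congr rfl fun p hp => by rw [hβF p (hFy p hp)]
      _ ≤ _ := sum_le_sum_of_subset_of_nonneg (filter_subset _ _)
          fun p _ _ => mul_nonneg (hOk.β0 p) (cf_nonneg _)
  set c₁ : Y → ℝ := fun q => 22 + 16 * Real.log (2 / a q) with hc₁
  have hc₁0 : ∀ q, 0 ≤ c₁ q := by
    intro q
    have : 0 ≤ Real.log (2 / a q) := by
      rcases eq_or_lt_of_le (ha0 q) with h | h
      · rw [← h]; simp
      · apply Real.log_nonneg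
        rw [le_div_iff₀ h]; have := ha1 q; linarith
    simp only [hc₁]; linarith
  set g : Y → Y → ℝ := fun q x =>
    if M.d q x ≤ 1 / 16 then c₁ q else if M.d q x ≤ 3 then 14 else 0 with hg
  have hg0 : ∀ q x, 0 ≤ g q x := by
    intro q x
    simp only [hg]
    split_ifs
    · exact hc₁0 q
    · norm_num
    · exact le_rfl
  have key : ∀ x, m x * (M.U S' x - M.U S x + M.nrm S x S' x) ≤
      (-(2375 / 1000)) * (if M.d y x ≤ 1 / 1024 then m x else 0) +
      (∑ q ∈ A, m' x * g q x) + 2 * (if M.d y x ≤ 60 then m' x else 0) := by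
    intro x
    have hnrm := M.nrm_le_two hOk.w0 hop0 x x (S := S) (S' := S')
    have hL := M.L_nonneg hOk.w0 hOk.pack x
    have hL' : 0 ≤ M.L w' x := M.L_nonneg hop0 hop1 x
    have hU' : M.U S' x = 20 * qf (M.u S'.P x) + 90 * M.bt S' x + zf (M.u S'.P x) * M.L w' x := rfl
    have hU : M.U S x = 20 * qf (M.u S.P x) + 90 * M.bt S x + zf (M.u S.P x) * M.L S.w x := rfl
    have z0 := zf_nonneg (M.u S.P x)
    have z0' := zf_nonneg (M.u S'.P x)
    have z1' := zf_le_one (M.u S'.P x)
    have q1' := qf_le_one (M.u S'.P x)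
    have q0 := qf_nonneg (M.u S.P x)
    have b0 := M.bt_nonneg hOk.β0 x (S := S)
    have p0 : 0 ≤ zf (M.u S.P x) * M.L S.w x := mul_nonneg z0 hL
    by_cases hcore : M.d y x ≤ 1 / 1024
    · -- the core
      have hm'x : m' x = 0 := by simp only [hm']; rw [if_pos hcore]
      rw [if_pos hcore, hm'x]
      have hu' : M.u S'.P x ≤ 1 / 1024 := by
        refine (M.u_le (mem_insert_self y F) x).trans ?_
        rw [M.d_symm]; exact hcore
      have hu : 15 / 1024 ≤ M.u S.P x := by
        refine M.le_u (by norm_num) fun p hp => ?_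
        have h1 := hno p hp
        have h2 := M.d_tri p x y
        rw [M.d_symm p x, M.d_symm x y] at h2
        linarith
      have e1 : qf (M.u S'.P x) ≤ 1 / 1024 := by
        refine (qf_mono (M.u_nonneg _ _) hu').trans ?_
        refine (qf_le_sq _).trans ?_
        norm_num
      have e2 : 225 / 1024 ≤ qf (M.u S.P x) := by
        refine le_trans ?_ (qf_mono (by norm_num) hu)
        rw [qf_eq_sq (by norm_num) (by norm_num)]
        norm_num
      have e3 : zf (M.u S'.P x) = 0 := zf_eq_zero (by linarith)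
      have e4 : M.bt S' x = 0 := by
        refine hbt'0 x fun p hp => ?_
        have h1 := hFd p hp
        have h2 := M.d_tri p x y
        rw [M.d_symm p x, M.d_symm x y] at h2
        linarith
      have e5 : M.U S' x - M.U S x + M.nrm S x S' x ≤ -(2375 / 1000) := by
        rw [hU', hU, e3, e4]
        linarith
      have e6 := mul_le_mul_of_nonneg_left e5 (hm x)
      simp only [zero_mul, sum_const_zero, ite_self, mul_zero, add_zero]
      linarith
    · have hm'x : m' x = m x := by simp only [hm']; rw [if_neg hcore]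
      rw [if_neg hcore, hm'x, mul_zero, zero_add]
      have t0 : 0 ≤ 2 * (if M.d y x ≤ 60 then m x else 0) := by
        split_ifs
        · have := hm x; linarith
        · simp
      by_cases hq : ∃ q ∈ A, M.d q x ≤ 3
      · obtain ⟨q, hq, hqx⟩ := hq
        have hsingle : m x * g q x ≤ ∑ q ∈ A, m x * g q x :=
          single_le_sum (f := fun q => m x * g q x)
            (fun p _ => mul_nonneg (hm x) (hg0 p x)) hq
        have e4 : M.bt S' x = 0 := by
          refine hbt'0 x fun p hp => ?_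
          have hqp : q ≠ p := by
            rintro rfl
            have := hAd q hq; have := hFd q hp; linarith
          have h1 := h40 q (hAP q hq) p (hFP p hp) hqp
          have h2 := M.d_tri q x p
          linarith
        refine le_trans ?_ (le_trans hsingle (by linarith))
        simp only [hg]
        by_cases h1 : M.d q x ≤ 1 / 16
        · rw [if_pos h1]
          rcases eq_or_lt_of_le (hbmA q) with h0 | h0
          · have : m x = 0 := by
              have h2 := M.le_bm hm'0 h1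
              rw [hm'x, ← h0] at h2
              exact le_antisymm h2 (hm x)
            rw [this]; simp
          · have ha0' : 0 < a q := by
              have : 0 < M.bm m' q 3 := lt_of_lt_of_le h0 (hbmAN q)
              simp only [ha]; positivity
            refine mul_le_mul_of_nonneg_left ?_ (hm x)
            have e3 : M.L w' x ≤ 16 * Real.log (2 / a q) := by
              rw [hw', L_mop_near hFar hq (by linarith)]
              exact L_op_le_log hOk.w0 ha0' (by have := ha1 q; linarith) (by linarith)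
            have e9 : zf (M.u S'.P x) * M.L w' x ≤ 16 * Real.log (2 / a q) := by
              calc zf (M.u S'.P x) * M.L w' x ≤ 1 * M.L w' x := by gcongr
                _ ≤ _ := by rw [one_mul]; exact e3
            rw [hU', hU, e4]
            simp only [hc₁]
            linarith
        · rw [if_neg h1, if_pos hqx]
          refine mul_le_mul_of_nonneg_left ?_ (hm x)
          have e3 : M.L w' x ≤ M.L S.w x + 16 * Real.log 2 := by
            rw [hw', L_mop_near hFar hq hqx]
            exact L_op_le_add hOk.w0 (ha0 q) (ha1 q) x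
          have hu : 1 / 16 ≤ M.u S.P x := by
            rw [M.u_near h40 (hAP q hq) (by rw [M.d_symm]; linarith), M.d_symm]
            linarith
          have e9 : zf (M.u S'.P x) * M.L w' x ≤ 1 * M.L w' x := by gcongr
          rw [hU', hU, e4, qf_eq_one (by linarith : 1 / 32 ≤ M.u S.P x), zf_eq_one hu]
          linarith
      · push Not at hq
        have hsum0 : 0 ≤ ∑ q ∈ A, m x * g q x :=
          sum_nonneg fun p _ => mul_nonneg (hm x) (hg0 p x)
        have e5 : M.L w' x = M.L S.w x := L_mop_far hq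
        have e1 : min (M.u S'.P x) 3 ≤ min (M.u S.P x) 3 := by
          refine M.u_min_le (by norm_num) fun p hp => ?_
          rcases hAF p hp with h | h
          · right; rw [M.d_symm]; exact (hq p h).le
          · left; exact mem_insert_of_mem h
        have e2 : qf (M.u S'.P x) ≤ qf (M.u S.P x) := by
          rw [← qf_min (M.u S'.P x), ← qf_min (M.u S.P x)]
          exact qf_mono (le_min (M.u_nonneg _ _) (by norm_num)) e1
        have e3 : zf (M.u S'.P x) ≤ zf (M.u S.P x) := by
          rw [← zf_min (M.u S'.P x), ← zf_min (M.u S.P x)]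
          exact zf_mono e1
        have e6 := hbt'le x
        have e7 : zf (M.u S'.P x) * M.L w' x ≤ zf (M.u S.P x) * M.L S.w x := by
          rw [e5]; exact mul_le_mul_of_nonneg_right e3 hL
        by_cases hd : M.d y x ≤ 1
        · rw [if_pos (by linarith : M.d y x ≤ 60)]
          have : m x * (M.U S' x - M.U S x + M.nrm S x S' x) ≤ m x * 2 := by
            refine mul_le_mul_of_nonneg_left ?_ (hm x)
            rw [hU', hU]
            linarith
          linarith
        · have e8 : M.nrm S x S' x = 0 := by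
            refine le_antisymm ?_ (M.nrm_nonneg _ _ _ _)
            refine (M.nrm_le hOk.w0 hop0 x x (S := S) (S' := S')).trans ?_
            have e9 : min (M.u S'.P x) 1 = min (M.u S.P x) 1 := by
              apply le_antisymm
              · refine M.u_min_le (by norm_num) fun p hp => ?_
                rcases hAF p hp with h | h
                · right; rw [M.d_symm]; have := hq p h; linarith
                · left; exact mem_insert_of_mem h
              · refine M.u_min_le (by norm_num) fun p hp => ?_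
                rcases mem_insert.1 hp with h | h
                · right; rw [h, M.d_symm]; exact (not_le.1 hd).le
                · left; exact hFP p h
            have e10 : tf (M.u S'.P x) = tf (M.u S.P x) := by
              rw [← tf_min_one (M.u S'.P x), e9, tf_min_one]
            rw [e10]
            have : ∀ z, |M.lam S.w x z - M.lam S'.w x z| = 0 := by
              intro z
              have : M.lam S'.w x z = M.lam S.w x z := lam_mop_far hq z
              rw [this]; simp
            simp [this]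
          have : m x * (M.U S' x - M.U S x + M.nrm S x S' x) ≤ m x * 0 := by
            refine mul_le_mul_of_nonneg_left ?_ (hm x)
            rw [hU', hU, e8]
            linarith
          linarith
  -- summation
  have hR : M.bm m' y 60 = M.bm m y 60 - M.bm m y (1 / 1024) := by
    unfold bm
    rw [← sum_sub_distrib]
    refine sum_congr rfl fun x _ => ?_
    simp only [hm']
    by_cases h1 : M.d y x ≤ 1 / 1024
    · rw [if_pos h1, if_pos h1, if_pos (by linarith : M.d y x ≤ 60)]
      split_ifs <;> linarith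
    · rw [if_neg h1, if_neg h1]; simp
  have hsumA : ∀ q ∈ A, ∑ x, m' x * g q x ≤ 45 * M.bm m' q 3 := by
    intro q _
    simp only [hg]
    rw [sum_two_zone m' q (by norm_num : (1 : ℝ) / 16 ≤ 3) (c₁ q) 14]
    have h1 := hbmAN q
    rcases eq_or_lt_of_le (hbmA q) with h0 | h0
    · rw [← h0]; have := hbmN q; linarith
    · have hlog := mul_log_ratio h0 h1
      have : Real.log (2 / a q) = Real.log (2 / (M.bm m' q (1 / 16) / (2 * M.bm m' q 3))) := rfl
      rw [← this] at hlog
      simp only [hc₁]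
      nlinarith
  have hfin : M.D m S S' ≤ (-(2375 / 1000)) * M.bm m y (1 / 1024) + 47 * M.bm m' y 60 := by
    calc M.D m S S' ≤ ∑ x, ((-(2375 / 1000)) * (if M.d y x ≤ 1 / 1024 then m x else 0) +
          (∑ q ∈ A, m' x * g q x) + 2 * (if M.d y x ≤ 60 then m' x else 0)) :=
          sum_le_sum fun x _ => key x
      _ = (-(2375 / 1000)) * M.bm m y (1 / 1024) + (∑ q ∈ A, ∑ x, m' x * g q x) +
          2 * M.bm m' y 60 := by
          rw [sum_add_distrib, sum_add_distrib, ← mul_sum, ← mul_sum, sum_comm]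
          rfl
      _ ≤ (-(2375 / 1000)) * M.bm m y (1 / 1024) + (∑ q ∈ A, 45 * M.bm m' q 3) +
          2 * M.bm m' y 60 := by
          have := sum_le_sum hsumA
          linarith
      _ ≤ _ := by
          rw [← mul_sum]
          have := sum_bm_le hm'0 hFar (y := y) (R := 60) fun q hq => by
            have := hAd q hq
            rw [M.d_symm] at this
            linarith
          linarith
  rw [hR] at hfin
  nlinarith

end IM

end Crest.Agent.R314.G1
end

-- ▼ part R314/G1_G2
section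

/-!
R314, module G (one scale), part G2: the final geometric statement `GEO1C`, with the second claim
as a hypothesis (helper435).  The operation size `a = 0` is allowed when `r = 0`.
-/

set_option autoImplicit false
set_option linter.unusedSectionVars false

namespace Crest.Agent.R314.G1

open Finset

universe u

variable {Y : Type u} [Fintype Y] [DecidableEq Y] (M : IM Y)

namespace IM

theorem rlog_nonneg {r a : ℝ} (hr : 0 ≤ r) (ha0 : 0 ≤ a) (ha : a ≤ 1 / 2) :
    0 ≤ r * Real.log (2 / a) := by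
  rcases ha0.eq_or_lt with h | h
  · rw [← h, div_zero, Real.log_zero, mul_zero]
  · exact mul_nonneg hr (Real.log_nonneg (by rw [le_div_iff₀ h]; linarith))

section
variable {S : St Y} {m : Y → ℝ} (hS : M.Stable m S) (hm : ∀ x, 0 ≤ m x) {y : Y} {r : ℝ}
  (hr : 0 ≤ r) (hr1 : r ≤ 60) (hpos : 0 < M.bm m y r) {a : ℝ} (ha0 : 0 ≤ a) (ha : a ≤ 1 / 2)
  (har : 0 < a ∨ r = 0)
include hS hm hr hr1 hpos ha0 ha har

theorem rfPsi_cut0 : rf (M.u S.P y) * M.Psi (M.op S.w y a) y
    ≤ 68 * (1 + M.GamR m y r + r * Real.log (2 / a)) := by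
  have hg : C.Grow M (1 / 52) S.P S.w m y := fun i hi => M.L1 hm hS y hi
  have h := C.rf_Psi_le hS.1 hm hr hr1 hpos (by norm_num) (by norm_num) hg ha0 ha har.symm
  have h1 := C.log104
  have hl := rlog_nonneg hr ha0 ha
  linarith

theorem slope_cut0 {x : Y} (hxy : M.d x y ≤ 1 / 64) :
    M.U ⟨S.P, S.β, M.op S.w y a⟩ y - M.U ⟨S.P, S.β, M.op S.w y a⟩ x
      + M.nrm ⟨S.P, S.β, M.op S.w y a⟩ y ⟨S.P, S.β, M.op S.w y a⟩ x
      ≤ 151000 * M.d x y * (1 + M.GamR m y r + r * Real.log (2 / a)) := by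
  have hOk : Ok M ⟨S.P, S.β, M.op S.w y a⟩ := M.op_Ok hS.1 ha0 (by linarith) y
  have h1 := C.slope_of hOk hxy
  have h2 := M.rfPsi_cut0 hS hm hr hr1 hpos ha0 ha har
  have hd := M.d_nonneg x y
  have hΓ := C.GamR_nonneg' hm hr hpos hr1
  have hl := rlog_nonneg hr ha0 ha
  rw [M.nrm_comm]
  refine h1.trans ?_
  have h3 : 1400 + 2200 * (rf (M.u S.P y) * M.Psi (M.op S.w y a) y)
      ≤ 151000 * (1 + M.GamR m y r + r * Real.log (2 / a)) := by linarith
  calc M.d x y * (1400 + 2200 * (rf (M.u S.P y) * M.Psi (M.op S.w y a) y))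
      ≤ M.d x y * (151000 * (1 + M.GamR m y r + r * Real.log (2 / a))) :=
        mul_le_mul_of_nonneg_left h3 hd
    _ = _ := by ring

theorem U_cut0 : M.U ⟨S.P, S.β, M.op S.w y a⟩ y + 2
    ≤ 151000 * (1 + M.GamR m y r + r * Real.log (2 / a)) := by
  have hOk : Ok M ⟨S.P, S.β, M.op S.w y a⟩ := M.op_Ok hS.1 ha0 (by linarith) y
  have h1 := C.U_le_of hOk y
  have h2 := M.rfPsi_cut0 hS hm hr hr1 hpos ha0 ha har
  have hΓ := C.GamR_nonneg' hm hr hpos hr1
  have hl := rlog_nonneg hr ha0 ha
  simp only at h1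
  linarith

/-- combination, `a = 0` allowed -/
theorem geo_of0 {C2 : ℝ} (hC2 : 0 ≤ C2)
    (h2 : ∀ p ∈ S.P, M.d p y ≤ 1 / 64 → M.d p y ≤ max (4 * r) (C2 * M.GamR m y r))
    (hr2 : r ≤ 1 / 1024) (x : Y) :
    M.U ⟨S.P, S.β, M.op S.w y a⟩ y - M.U ⟨S.P, S.β, M.op S.w y a⟩ x +
        M.nrm ⟨S.P, S.β, M.op S.w y a⟩ y ⟨S.P, S.β, M.op S.w y a⟩ x ≤
      (40960 * (4 + C2) + 154778775000) *
        (M.d x y * (M.GamR m y r + r + r * Real.log (2 / a))) +
      (if 1 / 64 < M.d x y then (40960 * (4 + C2) + 154778775000) *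
        (1 + M.GamR m y r + r * Real.log (2 / a)) else 0) := by
  have hS' : Ok M ⟨S.P, S.β, M.op S.w y a⟩ := M.op_Ok hS.1 ha0 (by linarith) y
  have hG := M.geo_GamR_nonneg hm (by linarith) hpos
  have hd := M.d_nonneg x y
  have hrl := rlog_nonneg hr ha0 ha
  have h4 := M.U_cut0 hS hm hr hr1 hpos ha0 ha har
  have h3 := fun x (hxy : M.d x y ≤ 1 / 64) => M.slope_cut0 hS hm hr hr1 hpos ha0 ha har hxy
  have h1 := fun (h : M.bm m y 60 ≤ (1 + 1 / 1000) * M.bm m y (1 / 1024)) =>
    M.claim_one hm hS (hpos.trans_le (M.bm_mono_r hm y hr2)) h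
  set G := M.GamR m y r
  set l := r * Real.log (2 / a)
  by_cases hxy : 1 / 64 < M.d x y
  · rw [if_pos hxy]
    have e1 := M.U_nonneg hS' x
    have e2 := M.nrm_le_two hS'.w0 hS'.w0 y x
    have e3 : 151000 * (1 + G + l) ≤ (40960 * (4 + C2) + 154778775000) * (1 + G + l) := by
      apply mul_le_mul_of_nonneg_right _ (by linarith)
      nlinarith
    have e4 : 0 ≤ (40960 * (4 + C2) + 154778775000) * (M.d x y * (G + r + l)) := by positivity
    linarith
  · rw [if_neg hxy, add_zero]
    push Not at hxy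
    by_cases ht : M.bm m y 60 ≤ (1 + 1 / 1000) * M.bm m y (1 / 1024)
    · obtain ⟨p, hp, hpy⟩ := h1 ht
      have e1 := h2 p hp hpy
      have e2 : M.d p y ≤ 4 * r + C2 * G := by
        apply e1.trans
        have : 0 ≤ C2 * G := mul_nonneg hC2 hG
        apply max_le <;> linarith
      have e3 := M.slope_near hS' (p := p) (y := y) (x := x) hp (by rw [M.d_symm]; exact hpy) hxy
      rw [M.d_symm y p] at e3
      have e4 : 40960 * M.d p y * M.d x y ≤ 40960 * (4 * r + C2 * G) * M.d x y := by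
        apply mul_le_mul_of_nonneg_right _ hd
        linarith
      have e5 : 40960 * (4 * r + C2 * G) ≤ (40960 * (4 + C2) + 154778775000) * (G + r + l) := by
        have a1 : 0 ≤ C2 * r := mul_nonneg hC2 hr
        have a2 : 0 ≤ C2 * l := mul_nonneg hC2 hrl
        nlinarith
      calc _ ≤ _ := e3
        _ ≤ 40960 * (4 * r + C2 * G) * M.d x y := e4
        _ ≤ (40960 * (4 + C2) + 154778775000) * (G + r + l) * M.d x y :=
            mul_le_mul_of_nonneg_right e5 hd
        _ = _ := by ring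
    · push Not at ht
      have e1 := M.GamR_ge_of_nontrivial hm hr2 hpos ht
      have e2 := log_1001
      have e3 : 1 ≤ 1025024 * G := by
        have : 1 / 1024 * (1 / 1001) ≤ G := by
          refine le_trans ?_ e1
          apply mul_le_mul_of_nonneg_left e2 (by norm_num)
        linarith
      have e4 := h3 x hxy
      have e5 : 151000 * (1 + G + l) ≤ (40960 * (4 + C2) + 154778775000) * (G + r + l) := by
        have a1 : 0 ≤ C2 * (G + r + l) := by positivity
        nlinarith
      calc _ ≤ _ := e4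
        _ = 151000 * (1 + G + l) * M.d x y := by ring
        _ ≤ (40960 * (4 + C2) + 154778775000) * (G + r + l) * M.d x y :=
            mul_le_mul_of_nonneg_right e5 hd
        _ = _ := by ring

end

end IM

/-- the final geometric statement (723 #9053) -/
def GEO1C : Prop :=
  ∃ CG : ℝ, 0 ≤ CG ∧ ∀ (Y : Type u) [Fintype Y] [DecidableEq Y] (M : IM Y) (m : Y → ℝ) (S : St Y)
    (y x : Y) (r a : ℝ), (∀ x, 0 ≤ m x) → M.Stable m S → 0 ≤ r → r ≤ 1 / 1024 → 0 < M.bm m y r →
    0 ≤ a → a ≤ 1 / 2 → (0 < a ∨ r = 0) →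
    M.U ⟨S.P, S.β, M.op S.w y a⟩ y - M.U ⟨S.P, S.β, M.op S.w y a⟩ x +
        M.nrm ⟨S.P, S.β, M.op S.w y a⟩ y ⟨S.P, S.β, M.op S.w y a⟩ x ≤
      CG * (M.d x y * (M.GamR m y r + r + r * Real.log (2 / a))) +
      (if 1 / 64 < M.d x y then CG * (1 + M.GamR m y r + r * Real.log (2 / a)) else 0)

/-- claim 2 (197): the main is close to the centre of a trivial point -/
def Claim2 : Prop :=
  ∃ C2 : ℝ, 0 ≤ C2 ∧ ∀ (Y : Type u) [Fintype Y] [DecidableEq Y] (M : IM Y) (m : Y → ℝ) (S : St Y)
    (y p : Y) (r : ℝ), (∀ x, 0 ≤ m x) → M.Stable m S → 0 ≤ r → 0 < M.bm m y r →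
    p ∈ S.P → M.d p y ≤ 1 / 64 → M.d p y ≤ max (4 * r) (C2 * M.GamR m y r)

theorem geo1C_of (h : Claim2.{u}) : GEO1C.{u} := by
  obtain ⟨C2, hC2, h2⟩ := h
  refine ⟨40960 * (4 + C2) + 154778775000, by positivity, ?_⟩
  intro Y _ _ M m S y x r a hm hS hr hr1 hpos ha0 ha har
  exact M.geo_of0 hS hm hr (by linarith) hpos ha0 ha har hC2
    (fun p hp hpy => h2 Y M m S y p r hm hS hr hpos hp hpy) hr1 x

end Crest.Agent.R314.G1
end

-- ▼ part R314/G1_E1
section

/-!
R314, module G (one scale), block G1_E, part 1: the growth functional with cut-off `r`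
and the final dichotomy of claim 2 of GEO1 (helper435, post 8508; cut-off post 8645).
-/

set_option autoImplicit false
set_option linter.unusedSectionVars false

open Finset

namespace Crest.Agent.R314.G1

namespace Ec

variable {Y : Type*} [Fintype Y] [DecidableEq Y] (M : IM Y)

theorem bm_mono {m : Y → ℝ} (hm : ∀ x, 0 ≤ m x) (y : Y) {s t : ℝ} (hst : s ≤ t) :
    M.bm m y s ≤ M.bm m y t := M.bm_mono_r hm y hst

theorem bm_pos {m : Y → ℝ} (hm : ∀ x, 0 ≤ m x) {y : Y} {r t : ℝ} (hr : 0 < M.bm m y r)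
    (h : r ≤ t) : 0 < M.bm m y t := lt_of_lt_of_le hr (bm_mono M hm y h)

theorem GamR_term_nonneg {m : Y → ℝ} (hm : ∀ x, 0 ≤ m x) {y : Y} {r : ℝ} (hr : 0 < M.bm m y r)
    (hr60 : r ≤ 60) {s : ℕ} (hs : s ∈ range (2 * M.J)) :
    0 ≤ Real.log (M.bm m y 60 / M.bm m y (max ((s : ℝ) / (2 * M.J)) r)) := by
  have hJ := M.Jr
  have hs1 : (s : ℝ) / (2 * M.J) ≤ 1 := by
    rw [div_le_one (by positivity)]
    have := Finset.mem_range.mp hs
    exact_mod_cast this.le
  apply Real.log_nonneg
  rw [le_div_iff₀ (bm_pos M hm hr (le_max_right _ _)), one_mul]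
  exact bm_mono M hm y (max_le (by linarith) hr60)

theorem GamR_nonneg {m : Y → ℝ} (hm : ∀ x, 0 ≤ m x) {y : Y} {r : ℝ} (hr : 0 < M.bm m y r)
    (hr60 : r ≤ 60) : 0 ≤ M.GamR m y r := by
  have hJ := M.Jr
  unfold IM.GamR
  apply div_nonneg _ (by positivity)
  exact Finset.sum_nonneg (fun s hs => GamR_term_nonneg M hm hr hr60 hs)

/-- `Γ^r ≥ σ ln (M(60)/M(σ))` for `r ≤ σ ≤ 1`. -/
theorem GamR_ge {m : Y → ℝ} (hm : ∀ x, 0 ≤ m x) {y : Y} {r σ : ℝ} (hr : 0 < M.bm m y r)
    (hrσ : r ≤ σ) (hσ0 : 0 ≤ σ) (hσ1 : σ ≤ 1) :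
    σ * Real.log (M.bm m y 60 / M.bm m y σ) ≤ M.GamR m y r := by
  have hJ := M.Jr
  have pσ := bm_pos M hm hr hrσ
  have hlog : 0 ≤ Real.log (M.bm m y 60 / M.bm m y σ) := by
    apply Real.log_nonneg
    rw [le_div_iff₀ pσ, one_mul]
    exact bm_mono M hm y (by linarith)
  unfold IM.GamR
  rw [le_div_iff₀ (by positivity)]
  -- number of `s < 2J` with `s ≤ 2Jσ`
  set n : ℕ := min (2 * M.J) (⌊2 * M.J * σ⌋₊ + 1) with hn
  have hnJ : n ≤ 2 * M.J := min_le_left _ _
  have hnσ : 2 * M.J * σ ≤ n := by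
    rw [hn, Nat.cast_min, le_min_iff]
    constructor
    · push_cast
      nlinarith
    · push_cast
      exact (Nat.lt_floor_add_one _).le
  have hsub : range n ⊆ range (2 * M.J) := Finset.range_subset_range.mpr hnJ
  calc σ * Real.log (M.bm m y 60 / M.bm m y σ) * (2 * M.J)
      = (2 * M.J * σ) * Real.log (M.bm m y 60 / M.bm m y σ) := by ring
    _ ≤ n * Real.log (M.bm m y 60 / M.bm m y σ) := by gcongr
    _ = ∑ s ∈ range n, Real.log (M.bm m y 60 / M.bm m y σ) := by simp
    _ ≤ ∑ s ∈ range n, Real.log (M.bm m y 60 / M.bm m y (max ((s : ℝ) / (2 * M.J)) r)) := by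
        apply Finset.sum_le_sum
        intro s hs
        have hs1 : s < n := Finset.mem_range.mp hs
        have hs2 : s < ⌊2 * M.J * σ⌋₊ + 1 := lt_of_lt_of_le hs1 (min_le_right _ _)
        have hs3 : (s : ℝ) ≤ 2 * M.J * σ := by
          have : s ≤ ⌊2 * M.J * σ⌋₊ := Nat.lt_succ_iff.mp hs2
          exact (Nat.le_floor_iff (by positivity)).mp this
        have hs4 : (s : ℝ) / (2 * M.J) ≤ σ := by
          rw [div_le_iff₀ (by positivity)]
          linarith
        apply Real.log_le_log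
        · exact div_pos (bm_pos M hm hr (by linarith)) pσ
        · apply div_le_div_of_nonneg_left (M.bm_nonneg hm y _)
            (bm_pos M hm hr (le_max_right _ _))
          exact bm_mono M hm y (max_le hs4 hrσ)
    _ ≤ ∑ s ∈ range (2 * M.J),
          Real.log (M.bm m y 60 / M.bm m y (max ((s : ℝ) / (2 * M.J)) r)) := by
        apply Finset.sum_le_sum_of_subset_of_nonneg hsub
        intro s hs _
        exact GamR_term_nonneg M hm hr (by linarith) hs

theorem min_d_eq (x y : Y) :
    min (M.d x y) 1 = (∑ s ∈ range (2 * M.J), if (s : ℝ) / (2 * M.J) < M.d x y then (1:ℝ) else 0)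
      / (2 * M.J) := by
  have hJ := M.Jr
  have hJ2 : (0:ℝ) < 2 * M.J := by positivity
  have h1 : ∀ s : ℕ, ((s : ℝ) / (2 * M.J) < M.d x y) ↔ s < M.δ x y := by
    intro s
    unfold IM.d
    rw [div_lt_div_iff_of_pos_right hJ2]
    exact Nat.cast_lt
  simp only [h1]
  rw [← Finset.sum_filter, Finset.sum_const, nsmul_eq_mul, mul_one]
  have h2 : (range (2 * M.J)).filter (fun s => s < M.δ x y) = range (min (M.δ x y) (2 * M.J)) := by
    ext s
    simp only [Finset.mem_filter, Finset.mem_range, lt_min_iff]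
    tauto
  rw [h2, Finset.card_range]
  unfold IM.d
  rw [Nat.cast_min]
  push_cast
  rcases le_total ((M.δ x y : ℝ)) (2 * M.J) with h | h
  · rw [min_eq_left h, min_eq_left]
    rw [div_le_one hJ2]; exact h
  · rw [min_eq_right h, min_eq_right, div_self hJ2.ne']
    rw [le_div_iff₀ hJ2, one_mul]; exact h

theorem sum_min_eq (m : Y → ℝ) (y : Y) {σ : ℝ} (hσ1 : σ ≤ 1) :
    ∑ x, (if σ < M.d y x ∧ M.d y x ≤ 60 then m x * min (M.d y x) 1 else 0) =
      (∑ s ∈ range (2 * M.J), (M.bm m y 60 - M.bm m y (max ((s : ℝ) / (2 * M.J)) σ)))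
        / (2 * M.J) := by
  have hJ := M.Jr
  have hJ2 : (0:ℝ) < 2 * M.J := by positivity
  have e : ∀ x, (if σ < M.d y x ∧ M.d y x ≤ 60 then m x * min (M.d y x) 1 else 0) =
      (∑ s ∈ range (2 * M.J), if (max ((s : ℝ) / (2 * M.J)) σ < M.d y x ∧ M.d y x ≤ 60)
        then m x else 0) / (2 * M.J) := by
    intro x
    split_ifs with h
    · rw [min_d_eq, ← mul_div_assoc, Finset.mul_sum]
      congr 1
      apply Finset.sum_congr rfl
      intro s _
      by_cases h1 : (s : ℝ) / (2 * M.J) < M.d y x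
      · rw [if_pos h1, if_pos ⟨max_lt h1 h.1, h.2⟩, mul_one]
      · rw [if_neg h1, if_neg, mul_zero]
        rintro ⟨h2, _⟩
        exact h1 (lt_of_le_of_lt (le_max_left _ _) h2)
    · symm
      rw [div_eq_zero_iff]
      left
      apply Finset.sum_eq_zero
      intro s _
      rw [if_neg]
      rintro ⟨h2, h3⟩
      exact h ⟨lt_of_le_of_lt (le_max_right _ _) h2, h3⟩
  simp only [e]
  rw [← Finset.sum_div, Finset.sum_comm]
  congr 1
  apply Finset.sum_congr rfl
  intro s hs
  have hs1 : (s : ℝ) / (2 * M.J) ≤ 1 := by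
    rw [div_le_one (by positivity)]
    have := Finset.mem_range.mp hs
    exact_mod_cast this.le
  unfold IM.bm
  rw [← Finset.sum_sub_distrib]
  apply Finset.sum_congr rfl
  intro x _
  by_cases h60 : M.d y x ≤ 60
  · rw [if_pos h60]
    by_cases h1 : M.d y x ≤ max ((s : ℝ) / (2 * M.J)) σ
    · rw [if_pos h1, if_neg]
      · ring
      · rintro ⟨h2, _⟩
        exact absurd h1 (not_le.mpr h2)
    · rw [if_neg h1, if_pos ⟨not_le.mp h1, h60⟩]
      ring
  · rw [if_neg h60, if_neg (fun h => h60 h.2), if_neg]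
    · ring
    · intro h1
      apply h60
      exact h1.trans (max_le (by linarith) (by linarith))

/-- `Σ_{σ<D≤60} m min(D,1) ≤ M(60) Γ^r` for `r ≤ σ ≤ 1`. -/
theorem sum_min_le {m : Y → ℝ} (hm : ∀ x, 0 ≤ m x) {y : Y} {r σ : ℝ}
    (hr : 0 < M.bm m y r) (hrσ : r ≤ σ) (hσ1 : σ ≤ 1) :
    ∑ x, (if σ < M.d y x ∧ M.d y x ≤ 60 then m x * min (M.d y x) 1 else 0) ≤
      M.bm m y 60 * M.GamR m y r := by
  have hJ := M.Jr
  have hJ2 : (0:ℝ) < 2 * M.J := by positivity
  rw [sum_min_eq M m y hσ1]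
  unfold IM.GamR
  rw [← mul_div_assoc, Finset.mul_sum]
  apply div_le_div_of_nonneg_right _ hJ2.le
  apply Finset.sum_le_sum
  intro s hs
  have hs1 : (s : ℝ) / (2 * M.J) ≤ 1 := by
    rw [div_le_one (by positivity)]
    have := Finset.mem_range.mp hs
    exact_mod_cast this.le
  have p60 : 0 < M.bm m y 60 := bm_pos M hm hr (by linarith)
  have pσ : 0 < M.bm m y (max ((s : ℝ) / (2 * M.J)) σ) :=
    bm_pos M hm hr (le_trans hrσ (le_max_right _ _))
  have pr : 0 < M.bm m y (max ((s : ℝ) / (2 * M.J)) r) := bm_pos M hm hr (le_max_right _ _)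
  have h1 : M.bm m y (max ((s : ℝ) / (2 * M.J)) r) ≤ M.bm m y (max ((s : ℝ) / (2 * M.J)) σ) :=
    bm_mono M hm y (max_le_max_left _ hrσ)
  have h2 : Real.log (M.bm m y (max ((s : ℝ) / (2 * M.J)) σ) / M.bm m y 60) ≤
      M.bm m y (max ((s : ℝ) / (2 * M.J)) σ) / M.bm m y 60 - 1 :=
    Real.log_le_sub_one_of_pos (by positivity)
  have h3 : Real.log (M.bm m y 60 / M.bm m y (max ((s : ℝ) / (2 * M.J)) σ)) ≤
      Real.log (M.bm m y 60 / M.bm m y (max ((s : ℝ) / (2 * M.J)) r)) := by
    apply Real.log_le_log (div_pos p60 pσ)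
    exact div_le_div_of_nonneg_left p60.le pr h1
  have h4 : Real.log (M.bm m y (max ((s : ℝ) / (2 * M.J)) σ) / M.bm m y 60) =
      - Real.log (M.bm m y 60 / M.bm m y (max ((s : ℝ) / (2 * M.J)) σ)) := by
    rw [← Real.log_inv, inv_div]
  have h5 : M.bm m y 60 - M.bm m y (max ((s : ℝ) / (2 * M.J)) σ) =
      M.bm m y 60 * (1 - M.bm m y (max ((s : ℝ) / (2 * M.J)) σ) / M.bm m y 60) := by
    field_simp
  rw [h5]
  apply mul_le_mul_of_nonneg_left _ p60.le
  linarith

/-- **The dichotomy.**  If `s · M(s/4) ≤ K Σ_{s/4 < D ≤ 60} m min(D,1)` then `s ≤ (8+2K) Γ^r`. -/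
theorem dichotomy {m : Y → ℝ} (hm : ∀ x, 0 ≤ m x) {y : Y} {r s K : ℝ}
    (hr : 0 < M.bm m y r) (hrs : r ≤ s / 4) (hs0 : 0 ≤ s) (hs1 : s ≤ 4) (hK : 0 ≤ K)
    (h : s * M.bm m y (s / 4) ≤
      K * ∑ x, (if s / 4 < M.d y x ∧ M.d y x ≤ 60 then m x * min (M.d y x) 1 else 0)) :
    s ≤ (8 + 2 * K) * M.GamR m y r := by
  have p60 : 0 < M.bm m y 60 := bm_pos M hm hr (by linarith)
  have ps : 0 < M.bm m y (s / 4) := bm_pos M hm hr hrs
  have hG : 0 ≤ M.GamR m y r := GamR_nonneg M hm hr (by linarith)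
  rcases le_total (M.bm m y 60) (2 * M.bm m y (s / 4)) with h2 | h2
  · have h3 := sum_min_le M hm hr hrs (by linarith : s / 4 ≤ 1)
    have h4 : s * M.bm m y (s / 4) ≤ (K * (2 * M.GamR m y r)) * M.bm m y (s / 4) := by
      calc s * M.bm m y (s / 4) ≤ K * (M.bm m y 60 * M.GamR m y r) :=
            h.trans (mul_le_mul_of_nonneg_left h3 hK)
        _ ≤ K * ((2 * M.bm m y (s / 4)) * M.GamR m y r) := by gcongr
        _ = (K * (2 * M.GamR m y r)) * M.bm m y (s / 4) := by ring
    have h5 := le_of_mul_le_mul_right h4 ps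
    nlinarith
  · have h3 := GamR_ge M hm hr hrs (by linarith : 0 ≤ s / 4) (by linarith : s / 4 ≤ 1)
    have h4 : Real.log 2 ≤ Real.log (M.bm m y 60 / M.bm m y (s / 4)) := by
      apply Real.log_le_log (by norm_num)
      rw [le_div_iff₀ ps]
      exact h2
    have h5 : (1:ℝ) / 2 ≤ Real.log 2 := by
      have := Real.log_two_gt_d9
      linarith
    have h6 : s / 4 * (1 / 2) ≤ M.GamR m y r := by
      refine le_trans ?_ h3
      apply mul_le_mul_of_nonneg_left _ (by linarith)
      linarith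
    have h7 : 0 ≤ K * M.GamR m y r := mul_nonneg hK hG
    nlinarith

end Ec

end Crest.Agent.R314.G1
end

-- ▼ part R314/G1_E3
section

/-!
R314, module G (one scale), block G1_E, part 3: the collective exposure bound.
From the KKT inequality at `p` (all `a` at once):
`Σ_{B(p,1/2), rf>0} m √ζ L ≤ 16 (5 E' + 2(c+1) N)`.
-/

set_option autoImplicit false
set_option linter.unusedSectionVars false

open Finset

namespace Crest.Agent.R314.G1

namespace Ec

variable {Y : Type*} [Fintype Y] [DecidableEq Y] (M : IM Y)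

/-- pointwise lower bound for the KKT integrand -/
theorem E_log_ge {w : Y → ℝ} (hw : ∀ x, 0 ≤ w x) (hp : ∀ y, M.bm w y 1 ≤ 1) (z : Y) {a : ℝ}
    (ha0 : 0 < a) (ha : a ≤ 1 / 2) :
    max (M.E (M.psi w z) - Real.log (2 / a)) 0 - a ≤
      M.E (fun s => Real.log (1 - a + a / M.W w z (M.rad s))) := by
  have hW : ∀ s < M.J, 0 < M.W w z (M.rad s) := fun s _ => M.W_pos hw z (M.rad_nonneg s)
  have hW2 : ∀ s < M.J, M.W w z (M.rad s) ≤ 2 :=
    fun s hs => M.W_le_two hw hp z (M.rad_le_one hs.le)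
  have h1 : M.E (M.psi w z) - Real.log (2 / a) ≤
      M.E (fun s => Real.log (1 - a + a / M.W w z (M.rad s))) := by
    rw [← M.E_const (Real.log (2 / a)), ← M.E_sub]
    apply M.E_mono
    intro s hs
    have := hW s hs
    unfold IM.psi
    rw [← Real.log_div (by positivity) (by positivity)]
    have e : (2 / M.W w z (M.rad s)) / (2 / a) = a / M.W w z (M.rad s) := by
      field_simp
    rw [e]
    apply Real.log_le_log (by positivity)
    linarith
  have h2 : -a ≤ M.E (fun s => Real.log (1 - a + a / M.W w z (M.rad s))) := by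
    rw [← M.E_const (-a)]
    apply M.E_mono
    intro s hs
    have h3 := hW s hs
    have h4 := hW2 s hs
    have h5 : a / 2 ≤ a / M.W w z (M.rad s) := div_le_div_of_nonneg_left ha0.le h3 h4
    have h6 : Real.log (1 - a / 2) ≤ Real.log (1 - a + a / M.W w z (M.rad s)) := by
      apply Real.log_le_log (by linarith)
      linarith
    have h7 : -a ≤ Real.log (1 - a / 2) := by
      have h8 := Real.one_sub_inv_le_log_of_pos (show 0 < 1 - a / 2 by linarith)
      have h9 : -a ≤ 1 - (1 - a / 2)⁻¹ := by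
        have h10 : (1 - a / 2)⁻¹ ≤ 1 + a := by
          rw [inv_le_comm₀ (by linarith) (by linarith)]
          rw [inv_eq_one_div, div_le_iff₀ (by linarith)]
          nlinarith
        linarith
      linarith
    linarith
  rcases le_total (M.E (M.psi w z) - Real.log (2 / a)) 0 with h | h
  · rw [max_eq_right h]; linarith
  · rw [max_eq_left h]; linarith

/-- the truncated form of KKT -/
theorem kkt_pos {w : Y → ℝ} (hw : ∀ x, 0 ≤ w x) (hp : ∀ y, M.bm w y 1 ≤ 1)
    {ν : Y → ℝ} (hν : ∀ x, 0 ≤ ν x) (p : Y) {a c : ℝ} (ha0 : 0 < a) (ha : a ≤ 1 / 2)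
    (hK : ∑ z, (if M.d p z ≤ 1 / 2 then
      ν z * M.E (fun s => Real.log (1 - a + a / M.W w z (M.rad s))) else 0) ≤
        c * a * M.bm ν p 3) :
    ∑ z, (if M.d p z ≤ 1 / 2 then ν z * max (M.E (M.psi w z) - Real.log (2 / a)) 0 else 0) ≤
      (c + 1) * a * M.bm ν p 3 := by
  have h1 : ∑ z, (if M.d p z ≤ 1 / 2 then ν z * max (M.E (M.psi w z) - Real.log (2 / a)) 0
      else 0) ≤ ∑ z, (if M.d p z ≤ 1 / 2 then
      ν z * M.E (fun s => Real.log (1 - a + a / M.W w z (M.rad s))) else 0) +
      a * M.bm ν p (1 / 2) := by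
    unfold IM.bm
    rw [mul_sum, ← sum_add_distrib]
    apply sum_le_sum
    intro z _
    split_ifs with h
    · have := E_log_ge M hw hp z ha0 ha
      have := mul_le_mul_of_nonneg_left this (hν z)
      linarith
    · simp
  have h2 : M.bm ν p (1 / 2) ≤ M.bm ν p 3 := M.bm_mono_r hν p (by norm_num)
  have h3 : a * M.bm ν p (1 / 2) ≤ a * M.bm ν p 3 := by gcongr
  calc _ ≤ _ := h1
    _ ≤ c * a * M.bm ν p 3 + a * M.bm ν p 3 := add_le_add hK h3
    _ = _ := by ring

theorem exists_dyadic {ρ : ℝ} (h0 : 0 < ρ) (h1 : ρ ≤ 1) :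
    ∃ l : ℕ, ρ * (2:ℝ) ^ l ≤ 1 ∧ 1 ≤ ρ * (2:ℝ) ^ (l + 1) := by
  obtain ⟨n, hn1, hn2⟩ := exists_nat_pow_near (show (1:ℝ) ≤ 1 / ρ by
    rw [le_div_iff₀ h0]; linarith) (show (1:ℝ) < 2 by norm_num)
  refine ⟨n, ?_, ?_⟩
  · rw [le_div_iff₀ h0] at hn1
    linarith
  · rw [div_lt_iff₀ h0] at hn2
    linarith

theorem log_four_sixteen (l : ℕ) : Real.log (2 / ((1:ℝ) / 2 * (1 / 16) ^ l)) ≤ 2 + 3 * l := by
  have e : (2:ℝ) / ((1:ℝ) / 2 * (1 / 16) ^ l) = 2 ^ (2 + 4 * l) := by
    have h16 : ((1:ℝ) / 16) ^ l * 16 ^ l = 1 := by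
      rw [← mul_pow]; norm_num
    have h16' : (2:ℝ) ^ (2 + 4 * l) = 4 * 16 ^ l := by
      rw [pow_add, pow_mul]; norm_num
    have hpos : (0:ℝ) < (1 / 16) ^ l := by positivity
    rw [h16', div_eq_iff (by positivity)]
    linear_combination (-2) * h16
  rw [e, Real.log_pow]
  have h2 := Real.log_two_lt_d9
  have h3 : (0:ℝ) ≤ l := by positivity
  push_cast
  nlinarith

/-- **Collective exposure bound.** `rr` is any function with `0 ≤ rr ≤ 1`, `ν = rr² m`. -/
theorem expo_sum {w : Y → ℝ} (hw : ∀ x, 0 ≤ w x) (hp : ∀ y, M.bm w y 1 ≤ 1)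
    {m rr : Y → ℝ} (hm : ∀ x, 0 ≤ m x) (hr0 : ∀ x, 0 ≤ rr x) (hr1 : ∀ x, rr x ≤ 1)
    (p : Y) {c : ℝ} (hc : 0 ≤ c)
    (hK : ∀ a : ℝ, 0 < a → a ≤ 1 / 2 → ∑ z, (if M.d p z ≤ 1 / 2 then
      (rr z ^ 2 * m z) * M.E (fun s => Real.log (1 - a + a / M.W w z (M.rad s))) else 0) ≤
        c * a * M.bm (fun z => rr z ^ 2 * m z) p 3) :
    ∑ z, (if M.d p z ≤ 1 / 2 then m z * (rr z * M.L w z) else 0) ≤
      80 * ∑ z, (if M.d p z ≤ 1 / 2 ∧ 0 < rr z then m z else 0) +
        20 * (c + 1) * M.bm (fun z => rr z ^ 2 * m z) p 3 := by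
  classical
  set ν : Y → ℝ := fun z => rr z ^ 2 * m z with hνdef
  have hν : ∀ x, 0 ≤ ν x := fun x => mul_nonneg (sq_nonneg _) (hm x)
  have hN : 0 ≤ M.bm ν p 3 := M.bm_nonneg hν p 3
  -- dyadic index
  have hex : ∀ z, ∃ l : ℕ, 0 < rr z → rr z * (2:ℝ) ^ l ≤ 1 ∧ 1 ≤ rr z * (2:ℝ) ^ (l + 1) := by
    intro z
    by_cases h : 0 < rr z
    · obtain ⟨l, hl⟩ := exists_dyadic h (hr1 z)
      exact ⟨l, fun _ => hl⟩
    · exact ⟨0, fun h' => absurd h' h⟩
  choose l hl using hex
  obtain ⟨K, hKl⟩ : ∃ K : ℕ, ∀ z, l z < K := by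
    refine ⟨univ.sup l + 1, fun z => ?_⟩
    exact Nat.lt_succ_of_le (le_sup (mem_univ z))
  have hEpsi : ∀ z, 0 ≤ M.E (M.psi w z) :=
    fun z => M.E_nonneg fun s hs => M.psi_nonneg hw hp z hs.le
  -- pointwise
  have hpt : ∀ z, (if M.d p z ≤ 1 / 2 then m z * (rr z * M.E (M.psi w z)) else 0) ≤
      5 * (if M.d p z ≤ 1 / 2 ∧ 0 < rr z then m z else 0) +
      ∑ i ∈ range K, (2:ℝ) ^ (i + 1) * (if M.d p z ≤ 1 / 2 then
        ν z * max (M.E (M.psi w z) - Real.log (2 / (1 / 2 * (1 / 16) ^ i))) 0 else 0) := by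
    intro z
    by_cases hz : M.d p z ≤ 1 / 2
    swap
    · rw [if_neg hz, if_neg (fun h => hz h.1)]
      have : ∑ i ∈ range K, (2:ℝ) ^ (i + 1) * (if M.d p z ≤ 1 / 2 then
        ν z * max (M.E (M.psi w z) - Real.log (2 / (1 / 2 * (1 / 16) ^ i))) 0 else 0) = 0 := by
        apply sum_eq_zero
        intro i _
        rw [if_neg hz, mul_zero]
      rw [this]; norm_num
    · by_cases hr : 0 < rr z
      swap
      · have h0 : rr z = 0 := le_antisymm (not_lt.mp hr) (hr0 z)
        rw [if_pos hz, if_neg (fun h => hr h.2), h0]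
        have : 0 ≤ ∑ i ∈ range K, (2:ℝ) ^ (i + 1) * (if M.d p z ≤ 1 / 2 then
          ν z * max (M.E (M.psi w z) - Real.log (2 / (1 / 2 * (1 / 16) ^ i))) 0 else 0) := by
          apply sum_nonneg
          intro i _
          rw [if_pos hz]
          have := hν z
          have := le_max_right (M.E (M.psi w z) - Real.log (2 / (1 / 2 * (1 / 16) ^ i))) 0
          positivity
        linarith
      · obtain ⟨h1, h2⟩ := hl z hr
        rw [if_pos hz, if_pos ⟨hz, hr⟩]
        have hsingle : (2:ℝ) ^ (l z + 1) * (if M.d p z ≤ 1 / 2 then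
            ν z * max (M.E (M.psi w z) - Real.log (2 / (1 / 2 * (1 / 16) ^ (l z)))) 0 else 0) ≤
            ∑ i ∈ range K, (2:ℝ) ^ (i + 1) * (if M.d p z ≤ 1 / 2 then
          ν z * max (M.E (M.psi w z) - Real.log (2 / (1 / 2 * (1 / 16) ^ i))) 0 else 0) := by
          apply single_le_sum (f := fun i => (2:ℝ) ^ (i + 1) * (if M.d p z ≤ 1 / 2 then
          ν z * max (M.E (M.psi w z) - Real.log (2 / (1 / 2 * (1 / 16) ^ i))) 0 else 0))
          · intro i _
            rw [if_pos hz]
            have := hν z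
            have := le_max_right (M.E (M.psi w z) - Real.log (2 / (1 / 2 * (1 / 16) ^ i))) 0
            positivity
          · exact mem_range.mpr (hKl z)
        refine le_trans ?_ (add_le_add_right hsingle _)
        rw [if_pos hz]
        set Λ := M.E (M.psi w z) with hΛ
        set X := max (Λ - Real.log (2 / (1 / 2 * (1 / 16) ^ (l z)))) 0 with hX
        have hX0 : 0 ≤ X := le_max_right _ _
        have hX1 : Λ ≤ Real.log (2 / (1 / 2 * (1 / 16) ^ (l z))) + X := by
          have := le_max_left (Λ - Real.log (2 / (1 / 2 * (1 / 16) ^ (l z)))) 0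
          linarith
        have hlog := log_four_sixteen (l z)
        have hρl : rr z * (l z : ℝ) ≤ 1 := by
          have h3 : ((l z : ℕ) : ℝ) ≤ (2:ℝ) ^ (l z) := by
            exact_mod_cast (Nat.lt_two_pow_self (n := l z)).le
          calc rr z * (l z : ℝ) ≤ rr z * (2:ℝ) ^ (l z) := by gcongr
            _ ≤ 1 := h1
        have h4 : rr z * Λ ≤ 5 + rr z * X := by
          have h5 : rr z * Λ ≤ rr z * ((2 + 3 * (l z : ℝ)) + X) := by
            apply mul_le_mul_of_nonneg_left _ hr.le
            linarith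
          have h6 := hr1 z
          nlinarith
        have h7 : rr z * X ≤ (2:ℝ) ^ (l z + 1) * (rr z ^ 2 * X) := by
          have h8 : rr z * X * 1 ≤ rr z * X * (rr z * (2:ℝ) ^ (l z + 1)) := by gcongr
          nlinarith
        calc m z * (rr z * Λ) ≤ m z * (5 + (2:ℝ) ^ (l z + 1) * (rr z ^ 2 * X)) := by
              apply mul_le_mul_of_nonneg_left _ (hm z)
              linarith
          _ = 5 * m z + (2:ℝ) ^ (l z + 1) * (ν z * X) := by
              simp only [hνdef]; ring
  -- summation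
  have hsum : ∑ z, (if M.d p z ≤ 1 / 2 then m z * (rr z * M.E (M.psi w z)) else 0) ≤
      5 * ∑ z, (if M.d p z ≤ 1 / 2 ∧ 0 < rr z then m z else 0) +
      ∑ i ∈ range K, (2:ℝ) ^ (i + 1) * ((c + 1) * (1 / 2 * (1 / 16) ^ i) * M.bm ν p 3) := by
    calc _ ≤ ∑ z, (5 * (if M.d p z ≤ 1 / 2 ∧ 0 < rr z then m z else 0) +
      ∑ i ∈ range K, (2:ℝ) ^ (i + 1) * (if M.d p z ≤ 1 / 2 then
        ν z * max (M.E (M.psi w z) - Real.log (2 / (1 / 2 * (1 / 16) ^ i))) 0 else 0)) :=
          sum_le_sum fun z _ => hpt z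
      _ = 5 * ∑ z, (if M.d p z ≤ 1 / 2 ∧ 0 < rr z then m z else 0) +
        ∑ i ∈ range K, (2:ℝ) ^ (i + 1) * ∑ z, (if M.d p z ≤ 1 / 2 then
        ν z * max (M.E (M.psi w z) - Real.log (2 / (1 / 2 * (1 / 16) ^ i))) 0 else 0) := by
          rw [sum_add_distrib, ← mul_sum, sum_comm]
          congr 1
          apply sum_congr rfl
          intro i _
          rw [mul_sum]
      _ ≤ _ := by
          gcongr with i hi
          apply kkt_pos M hw hp hν p (a := 1 / 2 * (1 / 16) ^ i) (by positivity)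
          · have : ((1:ℝ) / 16) ^ i ≤ 1 := pow_le_one₀ (by norm_num) (by norm_num)
            linarith
          · apply hK _ (by positivity)
            have : ((1:ℝ) / 16) ^ i ≤ 1 := pow_le_one₀ (by norm_num) (by norm_num)
            linarith
  have hgeo : ∑ i ∈ range K, (2:ℝ) ^ (i + 1) * ((c + 1) * (1 / 2 * (1 / 16) ^ i) * M.bm ν p 3) ≤
      8 / 7 * ((c + 1) * M.bm ν p 3) := by
    have e : ∀ i ∈ range K, (2:ℝ) ^ (i + 1) * ((c + 1) * (1 / 2 * (1 / 16) ^ i) * M.bm ν p 3) =
        (1 / 8) ^ i * ((c + 1) * M.bm ν p 3) := by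
      intro i _
      have h1 : ((1:ℝ) / 8) ^ i = (2:ℝ) ^ i * (1 / 16) ^ i := by
        rw [← mul_pow]; norm_num
      rw [h1, pow_succ]
      ring
    rw [sum_congr rfl e, ← sum_mul]
    apply mul_le_mul_of_nonneg_right _ (by positivity)
    have h1 : ∑ i ∈ range K, ((1:ℝ) / 8) ^ i ≤ (1 - 1 / 8)⁻¹ := by
      rw [← tsum_geometric_of_lt_one (by norm_num) (by norm_num : (1:ℝ) / 8 < 1)]
      exact Summable.sum_le_tsum _ (fun i _ => by positivity)
        (summable_geometric_of_lt_one (by norm_num) (by norm_num))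
    norm_num at h1 ⊢
    exact h1
  have hE : ∀ z, (if M.d p z ≤ 1 / 2 then m z * (rr z * M.L w z) else 0) =
      16 * (if M.d p z ≤ 1 / 2 then m z * (rr z * M.E (M.psi w z)) else 0) := by
    intro z
    unfold IM.L
    split_ifs
    · ring
    · ring
  simp only [hE]
  rw [← mul_sum]
  have h9 : 0 ≤ (c + 1) * M.bm ν p 3 := by positivity
  linarith

end Ec

end Crest.Agent.R314.G1
end

-- ▼ part R314/G1_E2
section

/-!
R314, module G (one scale), block G1_E, part 2: scalar inequalities for the move of a main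
over a distance `s`.
-/

set_option autoImplicit false
set_option linter.unusedSectionVars false

namespace Crest.Agent.R314.G1

namespace Ec

theorem move_core {s t t' : ℝ} (hs0 : 0 ≤ s) (hs : s ≤ 1 / 64) (ht' : 0 ≤ t') (h1 : t' ≤ s / 4)
    (h2 : s - t' ≤ t) (h3 : t ≤ t' + s) : 20 * (qf t' - qf t) ≤ -(10240 * s ^ 2) := by
  have e1 : qf t' ≤ 64 * s ^ 2 := by
    refine (qf_le_sq t').trans ?_
    nlinarith
  have e2 : qf t = (32 * t) ^ 2 := qf_eq_sq (by linarith) (by linarith)
  have e3 : 3 / 4 * s ≤ t := by linarith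
  have e4 : 576 * s ^ 2 ≤ (32 * t) ^ 2 := by nlinarith
  linarith

theorem move_qf {s t t' : ℝ} (hs : s ≤ 1 / 64) (h1 : s / 4 < t')
    (ht : 0 ≤ t) (h2 : |t - t'| ≤ s) : 20 * (qf t' - qf t) ≤ 122880 * s * min t' 1 := by
  rw [abs_le] at h2
  have hs0 : 0 ≤ s := by linarith [h2.1, h2.2]
  have ht' : 0 ≤ t' := by linarith
  rcases le_total (1 / 32) t with h | h
  · rw [qf_eq_one h]
    have := qf_le_one t'
    have : 0 ≤ 122880 * s * min t' 1 := by
      have := le_min ht' zero_le_one
      positivity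
    linarith
  · have h3 : t' ≤ 1 := by linarith
    rw [min_eq_left h3, qf_eq_sq ht h]
    have h4 := qf_le_sq t'
    have h5 : t' ^ 2 - t ^ 2 ≤ s * (6 * t') := by
      have : t' ^ 2 - t ^ 2 = (t' - t) * (t' + t) := by ring
      rw [this]
      rcases le_total t' t with h6 | h6
      · have : (t' - t) * (t' + t) ≤ 0 := by
          apply mul_nonpos_of_nonpos_of_nonneg <;> linarith
        have : 0 ≤ s * (6 * t') := by positivity
        linarith
      · apply mul_le_mul <;> linarith
    nlinarith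

theorem move_cf {s t t' β : ℝ} (hs : s ≤ 1 / 64) (hβ0 : 0 ≤ β) (hβ1 : β ≤ 1)
    (ht' : 0 ≤ t') (h2 : |t - t'| ≤ s) :
    90 * (β * cf t' - β * cf t) ≤ 90 * s * min t' 1 := by
  have hs0 : 0 ≤ s := (abs_nonneg _).trans h2
  have h2' := abs_le.mp h2
  have hmin := le_min ht' zero_le_one
  rcases le_total t' 1 with h | h
  · have e1 : cf t' = 1 := cf_eq_one (by linarith)
    have e2 : cf t = 1 := cf_eq_one (by linarith [h2'.1, h2'.2])
    rw [e1, e2]
    have : 0 ≤ 90 * s * min t' 1 := by positivity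
    linarith
  · rw [min_eq_right h]
    have e1 := cf_lip t' t
    rw [abs_sub_comm] at e1
    have e2 : cf t' - cf t ≤ s := by linarith
    have e3 : β * (cf t' - cf t) ≤ s := by
      rcases le_total (cf t' - cf t) 0 with h5 | h5
      · have : β * (cf t' - cf t) ≤ 0 := mul_nonpos_of_nonneg_of_nonpos hβ0 h5
        linarith
      · calc β * (cf t' - cf t) ≤ 1 * (cf t' - cf t) := by gcongr
          _ ≤ s := by linarith
    linarith

theorem move_tf {s t t' : ℝ} (hs : s ≤ 1 / 64) (ht' : 0 ≤ t') (h2 : |t - t'| ≤ s) :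
    2 * |tf t - tf t'| ≤ 147 * s * min t' 1 := by
  have hs0 : 0 ≤ s := (abs_nonneg _).trans h2
  have h2' := abs_le.mp h2
  have hmin := le_min ht' zero_le_one
  have hR : 0 ≤ 147 * s * min t' 1 := by positivity
  rcases le_total t' (7 / 64) with h | h
  · have e1 : tf t' = 0 := tf_eq_zero (by linarith)
    have e2 : tf t = 0 := tf_eq_zero (by linarith [h2'.1, h2'.2])
    rw [e1, e2]
    simpa using hR
  · have e1 := tf_lip t t'
    have e2 : 2 * |tf t - tf t'| ≤ 16 * s := by linarith
    refine e2.trans ?_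
    have e3 : 7 / 64 ≤ min t' 1 := le_min h (by norm_num)
    have e4 : 147 * s * (7 / 64) ≤ 147 * s * min t' 1 := by gcongr
    linarith

theorem log_aux {s : ℝ} (hs0 : 0 < s) :
    s * (16 * Real.log (2 / (512 * s ^ 2))) ≤ 2 := by
  have e : (2 : ℝ) / (512 * s ^ 2) = (1 / (16 * s)) ^ 2 := by
    field_simp
    norm_num
  rw [e, Real.log_pow]
  have h1 : Real.log (1 / (16 * s)) ≤ 1 / (16 * s) := by
    have := Real.log_le_sub_one_of_pos (show (0:ℝ) < 1 / (16 * s) by positivity)
    linarith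
  have h2 : s * (16 * (((2:ℕ) : ℝ) * Real.log (1 / (16 * s)))) ≤
      s * (16 * (((2:ℕ) : ℝ) * (1 / (16 * s)))) := by gcongr
  refine h2.trans (le_of_eq ?_)
  push_cast
  field_simp

theorem move_zf {s t t' Λ : ℝ} (hs0 : 0 < s) (hs : s ≤ 1 / 64) (ht' : 0 ≤ t')
    (h2 : |t - t'| ≤ s) (hΛ0 : 0 ≤ Λ) (hΛ : t ≤ 1 / 2 → Λ ≤ 16 * Real.log (2 / (512 * s ^ 2))) :
    (zf t' - zf t) * Λ ≤ 262144 * s * min t' 1 +
      (if 32 * s ≤ rf t ∧ t ≤ 1 / 16 then 96 * s * (rf t * Λ) else 0) := by
  have h2' := abs_le.mp h2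
  have hmin := le_min ht' zero_le_one
  have hR : 0 ≤ 262144 * s * min t' 1 := by positivity
  have hrf := rf_nonneg t
  have hI : 0 ≤ (if 32 * s ≤ rf t ∧ t ≤ 1 / 16 then 96 * s * (rf t * Λ) else 0) := by
    split_ifs
    · positivity
    · exact le_rfl
  rcases le_total (zf t') (zf t) with h | h
  · have : (zf t' - zf t) * Λ ≤ 0 := mul_nonpos_of_nonpos_of_nonneg (by linarith) hΛ0
    linarith
  · rcases le_total t' (1 / 32) with h3 | h3
    · rw [zf_eq_zero h3]
      have := zf_nonneg t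
      have : (0 - zf t) * Λ ≤ 0 := mul_nonpos_of_nonpos_of_nonneg (by linarith) hΛ0
      linarith
    · rcases lt_or_ge (1 / 16) t with h4 | h4
      · rw [zf_eq_one h4.le]
        have := zf_le_one t'
        have : (zf t' - 1) * Λ ≤ 0 := mul_nonpos_of_nonpos_of_nonneg (by linarith) hΛ0
        linarith
      · have hrf' : rf t' ≤ rf t + 32 * s := by
          have := rf_lip t' t
          rw [abs_sub_comm] at this
          linarith
        have hrf'0 := rf_nonneg t'
        rcases lt_or_ge (rf t) (32 * s) with h5 | h5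
        · -- small exposure
          have e1 : zf t' ≤ 4096 * s ^ 2 := by
            unfold zf
            have : rf t' ≤ 64 * s := by linarith
            nlinarith
          have e2 : (zf t' - zf t) * Λ ≤ 4096 * s ^ 2 * Λ := by
            have := zf_nonneg t
            apply mul_le_mul_of_nonneg_right _ hΛ0
            linarith
          have e3 : s * Λ ≤ 2 := by
            refine le_trans ?_ (log_aux hs0)
            exact mul_le_mul_of_nonneg_left (hΛ (by linarith)) hs0.le
          have e4 : 4096 * s ^ 2 * Λ ≤ 8192 * s := by nlinarith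
          have e5 : 1 / 32 ≤ min t' 1 := le_min h3 (by norm_num)
          have e6 : 8192 * s ≤ 262144 * s * min t' 1 := by
            have : 262144 * s * (1 / 32) ≤ 262144 * s * min t' 1 := by gcongr
            linarith
          linarith
        · rw [if_pos ⟨h5, h4⟩]
          have e1 : zf t' - zf t ≤ 96 * s * rf t := by
            unfold zf
            nlinarith
          have e2 : (zf t' - zf t) * Λ ≤ 96 * s * rf t * Λ :=
            mul_le_mul_of_nonneg_right e1 hΛ0
          linarith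

end Ec

end Crest.Agent.R314.G1
end

-- ▼ part R314/G1_E4
section

/-!
R314, module G (one scale), block G1_E, part 4: the move of a main `p` to a point `y` at
distance `s ≤ 1/64`; the timers of the other mains within `42` of `y` grow by `s`.
-/

set_option autoImplicit false
set_option linter.unusedSectionVars false

open Finset

namespace Crest.Agent.R314.G1

namespace Ec

variable {Y : Type*} [Fintype Y] [DecidableEq Y] (M : IM Y)

/-- new timers -/
noncomputable def mvβ (S : St Y) (p y : Y) (z : Y) : ℝ :=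
  if z = y then S.β p else if M.d y z < 42 then min 1 (S.β z + M.d p y) else S.β z

/-- the state after moving the main `p` to `y` -/
noncomputable def mv (S : St Y) (p y : Y) : St Y :=
  ⟨insert y (S.P.erase p), mvβ M S p y, S.w⟩

variable {M}

theorem mvβ_self (S : St Y) (p y : Y) : mvβ M S p y y = S.β p := by
  unfold mvβ; rw [if_pos rfl]

theorem le_mvβ {S : St Y} (hS : Ok M S) {p y z : Y} (h : z ≠ y) : S.β z ≤ mvβ M S p y z := by
  unfold mvβ
  rw [if_neg h]
  split_ifs
  · have h1 := hS.β1 z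
    have h2 := M.d_nonneg p y
    exact le_min h1 (by linarith)
  · exact le_rfl

theorem mvβ_le {S : St Y} {p y z : Y} (h : z ≠ y) : mvβ M S p y z ≤ S.β z + M.d p y := by
  unfold mvβ
  rw [if_neg h]
  split_ifs
  · exact min_le_right _ _
  · have := M.d_nonneg p y
    linarith

theorem mvβ_far {S : St Y} {p y z : Y} (h : z ≠ y) (h' : 42 ≤ M.d y z) :
    mvβ M S p y z = S.β z := by
  unfold mvβ
  rw [if_neg h, if_neg (not_lt.mpr h')]

theorem mv_ok {S : St Y} (hS : Ok M S) {p y : Y} (hp : p ∈ S.P)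
    (hβ : ∀ q ∈ S.P, q ≠ p → M.d y q < 42 → S.β q + M.d p y ≤ 1) : Ok M (mv M S p y) := by
  have hs := M.d_nonneg p y
  have key : ∀ q ∈ S.P, q ≠ p → q ≠ y → 42 ≤ M.d y q + S.β p + mvβ M S p y q := by
    intro q hq hqp hqy
    by_cases h : M.d y q < 42
    · have h1 := hβ q hq hqp h
      have e : mvβ M S p y q = S.β q + M.d p y := by
        unfold mvβ
        rw [if_neg hqy, if_pos h, min_eq_right h1]
      have h2 := hS.sep p hp q hq (Ne.symm hqp)
      have h3 := M.d_tri p y q
      linarith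
    · have h1 := le_mvβ (p := p) hS hqy
      have h2 := hS.β0 p
      have h3 := hS.β0 q
      linarith [not_lt.mp h]
  refine ⟨?_, ?_, hS.w0, hS.pack, ?_⟩
  · intro z
    show 0 ≤ mvβ M S p y z
    by_cases hz : z = y
    · rw [hz, mvβ_self]; exact hS.β0 p
    · exact (hS.β0 z).trans (le_mvβ hS hz)
  · intro z
    show mvβ M S p y z ≤ 1
    unfold mvβ
    split_ifs
    · exact hS.β1 p
    · exact min_le_left _ _
    · exact hS.β1 z
  · intro q hq q' hq' hne
    show 42 ≤ M.d q q' + mvβ M S p y q + mvβ M S p y q'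
    have hq : q = y ∨ q ∈ S.P.erase p := mem_insert.mp hq
    have hq' : q' = y ∨ q' ∈ S.P.erase p := mem_insert.mp hq'
    by_cases h1 : q = y
    · have h2 : q' ≠ y := fun h => hne (h1.trans h.symm)
      have h3 := mem_erase.mp (hq'.resolve_left h2)
      rw [h1, mvβ_self]
      exact key q' h3.2 h3.1 h2
    · by_cases h2 : q' = y
      · have h3 := mem_erase.mp (hq.resolve_left h1)
        rw [h2, mvβ_self, M.d_symm q y]
        have := key q h3.2 h3.1 h1
        linarith
      · have h3 := mem_erase.mp (hq.resolve_left h1)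
        have h4 := mem_erase.mp (hq'.resolve_left h2)
        have h5 := hS.sep q h3.2 q' h4.2 hne
        have h6 := le_mvβ (p := p) hS h1
        have h7 := le_mvβ (p := p) hS h2
        linarith

/-- price of a change of the mains and timers at fixed weights -/
theorem price_eq {S S' : St Y} (hw : ∀ x, 0 ≤ S.w x) (hww : S'.w = S.w) (x : Y) :
    M.U S' x - M.U S x + M.nrm S x S' x ≤
      20 * (qf (M.u S'.P x) - qf (M.u S.P x)) + 90 * (M.bt S' x - M.bt S x) +
        (zf (M.u S'.P x) - zf (M.u S.P x)) * M.L S.w x +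
        2 * |tf (M.u S.P x) - tf (M.u S'.P x)| := by
  have h1 := M.nrm_le (S := S) (S' := S') hw (by rw [hww]; exact hw) x x
  rw [hww] at h1
  have h2 : ∑ z, |M.lam S.w x z - M.lam S.w x z| = 0 := by simp
  rw [h2, mul_zero, add_zero] at h1
  unfold IM.U
  rw [hww]
  linarith

/-- the pointwise bound for the move, near `y` -/
theorem mv_near {S : St Y} (hS : Ok M S) {p y : Y} (hp : p ∈ S.P)
    (hβ : ∀ q ∈ S.P, q ≠ p → M.d y q < 42 → S.β q + M.d p y ≤ 1) (hs0 : 0 < M.d p y)
    (hs : M.d p y ≤ 1 / 64)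
    (hL : ∀ x, M.d p x ≤ 1 / 2 → M.L S.w x ≤ 16 * Real.log (2 / (512 * M.d p y ^ 2)))
    {x : Y} (hx : M.d y x ≤ 5) :
    M.U (mv M S p y) x - M.U S x + M.nrm S x (mv M S p y) x ≤
      if M.d y x ≤ M.d p y / 4 then -(10240 * M.d p y ^ 2) else
        385261 * M.d p y * min (M.d y x) 1 +
        (if 32 * M.d p y ≤ rf (M.d p x) ∧ M.d p x ≤ 1 / 16 then
          96 * M.d p y * (rf (M.d p x) * M.L S.w x) else 0) := by
  set s := M.d p y with hsdef
  have hok := mv_ok hS hp hβ
  have hym : y ∈ (mv M S p y).P := mem_insert_self _ _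
  have hdx : M.d x p = M.d p x := M.d_symm x p
  have hdy : M.d x y = M.d y x := M.d_symm x y
  have t1 : M.d p x ≤ M.d p y + M.d y x := M.d_tri p y x
  have t2 : M.d y x ≤ M.d y p + M.d p x := M.d_tri y p x
  have t3 : M.d p y ≤ M.d p x + M.d x y := M.d_tri p x y
  rw [M.d_symm y p] at t2
  have habs : |M.d p x - M.d y x| ≤ s := by
    rw [abs_le]; constructor <;> linarith
  have e1 : M.u S.P x = M.d p x := by
    rw [M.u_near hS.sep40 hp (by linarith), hdx]
  have e2 : M.u (mv M S p y).P x = M.d y x := by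
    rw [M.u_near hok.sep40 hym (by linarith), hdy]
  have e3 : M.bt S x = S.β p * cf (M.d p x) := by
    rw [M.bt_eq hS.sep40 hp (by linarith), hdx]
  have e4 : M.bt (mv M S p y) x = S.β p * cf (M.d y x) := by
    rw [M.bt_eq hok.sep40 hym (by linarith), hdy]
    show mvβ M S p y y * _ = _
    rw [mvβ_self]
  have hpr := price_eq (M := M) (S := S) (S' := mv M S p y) hS.w0 rfl x
  rw [e1, e2, e3, e4] at hpr
  have hd0 := M.d_nonneg y x
  have hd1 := M.d_nonneg p x
  have hL0 := M.L_nonneg hS.w0 hS.pack x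
  split_ifs with hcore hexp
  · -- core
    have h1 := move_core hs0.le hs hd0 hcore (t := M.d p x) (by linarith) (by linarith)
    have h2 : zf (M.d p x) = 0 := zf_eq_zero (by linarith)
    have h3 : zf (M.d y x) = 0 := zf_eq_zero (by linarith)
    have h4 : cf (M.d p x) = 1 := cf_eq_one (by linarith)
    have h5 : cf (M.d y x) = 1 := cf_eq_one (by linarith)
    have h6 : tf (M.d p x) = 0 := tf_eq_zero (by linarith)
    have h7 : tf (M.d y x) = 0 := tf_eq_zero (by linarith)
    rw [h2, h3, h4, h5, h6, h7] at hpr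
    simp only [sub_self, abs_zero, mul_zero, zero_mul, add_zero] at hpr
    linarith
  all_goals
    have hσ : s / 4 < M.d y x := not_le.mp hcore
    have h1 := move_qf hs hσ hd1 habs
    have h2 := move_cf hs (hS.β0 p) (hS.β1 p) hd0 habs
    have h3 := move_tf hs hd0 habs
    have h4 := move_zf hs0 hs hd0 habs hL0 (fun h => hL x h)
  · rw [if_pos hexp] at h4
    linarith
  · rw [if_neg hexp] at h4
    linarith

theorem mv_far {S : St Y} (hS : Ok M S) {p y : Y} (hp : p ∈ S.P)
    (hβ : ∀ q ∈ S.P, q ≠ p → M.d y q < 42 → S.β q + M.d p y ≤ 1)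
    (hs : M.d p y ≤ 1 / 64) {x : Y} (hx : 5 < M.d y x) :
    M.U (mv M S p y) x - M.U S x + M.nrm S x (mv M S p y) x ≤
      if M.d y x ≤ 60 then 90 * M.d p y else 0 := by
  have hs0 := M.d_nonneg p y
  have hok := mv_ok hS hp hβ
  have hdy : M.d x y = M.d y x := M.d_symm x y
  have t2 : M.d y x ≤ M.d y p + M.d p x := M.d_tri y p x
  rw [M.d_symm y p] at t2
  have hdp : 4 < M.d x p := by rw [M.d_symm x p]; linarith
  have hpr := price_eq (M := M) (S := S) (S' := mv M S p y) hS.w0 rfl x
  by_cases hq : ∃ q ∈ S.P.erase p, q ≠ y ∧ M.d x q < 4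
  · obtain ⟨q, hq, hqy, hqx⟩ := hq
    have hq1 := mem_erase.mp hq
    have hqm : q ∈ (mv M S p y).P := mem_insert_of_mem hq
    have e1 : M.u S.P x = M.d x q := M.u_near hS.sep40 hq1.2 (by linarith)
    have e2 : M.u (mv M S p y).P x = M.d x q := M.u_near hok.sep40 hqm (by linarith)
    have e3 : M.bt S x = S.β q * cf (M.d x q) := M.bt_eq hS.sep40 hq1.2 (by linarith)
    have e4 : M.bt (mv M S p y) x = mvβ M S p y q * cf (M.d x q) :=
      M.bt_eq hok.sep40 hqm (by linarith)
    rw [e1, e2, e3, e4] at hpr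
    simp only [sub_self, abs_zero, mul_zero, zero_mul, add_zero, zero_add] at hpr
    refine hpr.trans ?_
    have h1 := le_mvβ (p := p) hS hqy
    have h2 := mvβ_le (M := M) (S := S) (p := p) hqy
    have h3 := cf_nonneg (M.d x q)
    have h4 := cf_le_one (M.d x q)
    split_ifs with h60
    · have h5 : (mvβ M S p y q - S.β q) * cf (M.d x q) ≤ M.d p y * 1 := by
        apply mul_le_mul (by linarith) h4 h3 hs0
      nlinarith
    · have h5 : 42 ≤ M.d y q := by
        have := M.d_tri y q x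
        rw [M.d_symm q x] at this
        linarith [not_le.mp h60]
      rw [mvβ_far hqy h5]
      linarith
  · push Not at hq
    have hfar : ∀ q ∈ S.P, 4 ≤ M.d x q := by
      intro q hq1
      by_cases hqp : q = p
      · rw [hqp]; exact hdp.le
      · by_cases hqy : q = y
        · rw [hqy, hdy]; linarith
        · exact hq q (mem_erase.mpr ⟨hqp, hq1⟩) hqy
    have hfar' : ∀ q ∈ (mv M S p y).P, 4 ≤ M.d x q := by
      intro q hq1
      rcases mem_insert.mp hq1 with h | h
      · rw [h, hdy]; linarith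
      · exact hfar q (mem_of_mem_erase h)
    have e3 : M.bt S x = 0 := M.bt_eq_zero hfar
    have e4 : M.bt (mv M S p y) x = 0 := M.bt_eq_zero hfar'
    have u1 : 4 ≤ M.u S.P x := M.le_u (by norm_num) hfar
    have u2 : 4 ≤ M.u (mv M S p y).P x := M.le_u (by norm_num) hfar'
    rw [e3, e4, qf_eq_one (by linarith), qf_eq_one (by linarith), zf_eq_one (by linarith),
      zf_eq_one (by linarith), tf_eq_one (by linarith), tf_eq_one (by linarith)] at hpr
    simp only [sub_self, abs_zero, mul_zero, zero_mul, add_zero] at hpr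
    refine hpr.trans ?_
    split_ifs <;> positivity

/-- the total price of the move -/
theorem mv_D {m : Y → ℝ} (hm : ∀ x, 0 ≤ m x) {S : St Y} (hS : Ok M S) {p y : Y} (hp : p ∈ S.P)
    (hβ : ∀ q ∈ S.P, q ≠ p → M.d y q < 42 → S.β q + M.d p y ≤ 1) (hs0 : 0 < M.d p y)
    (hs : M.d p y ≤ 1 / 64)
    (hL : ∀ x, M.d p x ≤ 1 / 2 → M.L S.w x ≤ 16 * Real.log (2 / (512 * M.d p y ^ 2))) :
    M.D m S (mv M S p y) ≤ -(10240 * M.d p y ^ 2) * M.bm m y (M.d p y / 4) +
      385261 * M.d p y *
        ∑ x, (if M.d p y / 4 < M.d y x ∧ M.d y x ≤ 60 then m x * min (M.d y x) 1 else 0) +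
      96 * M.d p y * ∑ x, (if M.d p x ≤ 1 / 2 then m x * (rf (M.d p x) * M.L S.w x) else 0) := by
  set s := M.d p y with hsdef
  unfold IM.D IM.bm
  rw [mul_sum, mul_sum, mul_sum, ← sum_add_distrib, ← sum_add_distrib]
  apply sum_le_sum
  intro x _
  have hL0 := M.L_nonneg hS.w0 hS.pack x
  have hrf := rf_nonneg (M.d p x)
  have hmx := hm x
  have hd0 := M.d_nonneg y x
  have hexp0 : 0 ≤ 96 * s * (if M.d p x ≤ 1 / 2 then m x * (rf (M.d p x) * M.L S.w x) else 0) := by
    split_ifs <;> positivity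
  rcases le_or_gt (M.d y x) 5 with h5 | h5
  · have h := mv_near hS hp hβ hs0 hs hL h5
    rw [← hsdef] at h
    have h' := mul_le_mul_of_nonneg_left h hmx
    refine h'.trans ?_
    by_cases hcore : M.d y x ≤ s / 4
    · rw [if_pos hcore, if_pos hcore, if_neg
        (show ¬ (s / 4 < M.d y x ∧ M.d y x ≤ 60) from fun h => absurd hcore (not_le.mpr h.1))]
      linarith
    · rw [if_neg hcore, if_neg hcore,
        if_pos (show s / 4 < M.d y x ∧ M.d y x ≤ 60 from ⟨not_le.mp hcore, by linarith⟩)]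
      by_cases hexp : 32 * s ≤ rf (M.d p x) ∧ M.d p x ≤ 1 / 16
      · rw [if_pos hexp, if_pos (show M.d p x ≤ 1 / 2 by linarith [hexp.2])]
        nlinarith
      · rw [if_neg hexp]
        linarith
  · have h := mv_far hS hp hβ hs h5
    rw [← hsdef] at h
    have h' := mul_le_mul_of_nonneg_left h hmx
    refine h'.trans ?_
    rw [if_neg (show ¬ M.d y x ≤ s / 4 by linarith)]
    by_cases h60 : M.d y x ≤ 60
    · rw [if_pos h60, if_pos (show s / 4 < M.d y x ∧ M.d y x ≤ 60 from ⟨by linarith, h60⟩),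
        min_eq_right (by linarith)]
      have : 0 ≤ m x * s := by positivity
      nlinarith
    · rw [if_neg h60, if_neg (show ¬ (s / 4 < M.d y x ∧ M.d y x ≤ 60) from fun h => h60 h.2)]
      linarith

end Ec

end Crest.Agent.R314.G1
end

-- ▼ part R314/G1_E
section

/-!
R314, module G (one scale), block G1_E: **claim 2** of GEO1 (helper435, post 8508, item (7)),
with the cut-off `r` of post 8645: in a stable state, a main `p` within `1/64` of `y` satisfies
`d p y ≤ max (4 r) (310 Γ^r(y))`.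
-/

set_option autoImplicit false
set_option linter.unusedSectionVars false

open Finset

namespace Crest.Agent.R314.G1

namespace Ec

variable {Y : Type*} [Fintype Y] [DecidableEq Y] {M : IM Y}

/-- removing a set of mains with `β ≥ 1/2` is free -/
theorem remove_set {m : Y → ℝ} (hm : ∀ x, 0 ≤ m x) {S : St Y} (hS : Ok M S) (R : Finset Y)
    (hR : ∀ q ∈ R, q ∈ S.P ∧ 1 / 2 ≤ S.β q) :
    ∃ S' : St Y, Ok M S' ∧ S'.P = S.P \ R ∧ S'.β = S.β ∧
      (∀ z, (∀ q ∈ R, 2 < M.d q z) → S'.w z = S.w z) ∧ M.D m S S' ≤ 0 := by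
  induction R using Finset.induction_on with
  | empty =>
    refine ⟨S, hS, by simp, rfl, fun _ _ => rfl, ?_⟩
    unfold IM.D
    apply le_of_eq
    apply sum_eq_zero
    intro x _
    rw [M.nrm_self]; ring
  | insert q R hq ih =>
    obtain ⟨S₁, h1, h2, h3, h4, h5⟩ := ih (fun q' hq' => hR q' (mem_insert_of_mem hq'))
    have hqS := hR q (mem_insert_self _ _)
    have hq1 : q ∈ S₁.P := by
      rw [h2, mem_sdiff]
      exact ⟨hqS.1, hq⟩
    obtain ⟨S₂, g1, g2, g3, g4, g5⟩ := IM.remove_free hm h1 hq1 (by rw [h3]; exact hqS.2)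
    refine ⟨S₂, g1, ?_, g3.trans h3, ?_, ?_⟩
    · rw [g2, h2]
      ext z
      simp only [mem_erase, mem_sdiff, mem_insert]
      tauto
    · intro z hz
      rw [g4 z (hz q (mem_insert_self _ _)), h4 z (fun q' hq' => hz q' (mem_insert_of_mem hq'))]
    · have := M.D_tri hm S S₁ S₂
      linarith

/-- **Claim 2 of GEO1.** -/
theorem claim2 {m : Y → ℝ} (hm : ∀ x, 0 ≤ m x) {S : St Y} (hS : M.Stable m S) {p y : Y}
    (hp : p ∈ S.P) (hpy : M.d p y ≤ 1 / 64) {r : ℝ} (hr0 : 0 ≤ r) (hr : 0 < M.bm m y r) :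
    M.d p y ≤ max (4 * r) (310 * M.GamR m y r) := by
  by_cases hsr : M.d p y ≤ 4 * r
  · exact le_max_of_le_left hsr
  apply le_max_of_le_right
  rw [not_le] at hsr
  set s := M.d p y with hsdef
  have hs0 : 0 < s := by linarith
  have hok := hS.1
  set a : ℝ := 512 * s ^ 2 with hadef
  have ha0 : 0 < a := by positivity
  have hs2 : s ^ 2 ≤ 1 / 64 * s := by nlinarith
  have ha1 : a ≤ 1 / 2 := by rw [hadef]; nlinarith
  -- step 1 : Op(p, a)
  set S₁ : St Y := ⟨S.P, S.β, M.op S.w p a⟩ with hS₁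
  have hok1 : Ok M S₁ := M.op_Ok hok ha0.le (by linarith) p
  have hD1 : M.D m S S₁ ≤ 34 * a * M.bm (M.nu m S) p 3 := M.D_op_price hm hok ha0.le ha1 p
  -- step 2 : removal
  set R : Finset Y := S.P.filter (fun q => q ≠ p ∧ M.d y q < 42 ∧ 1 < S.β q + s) with hRdef
  obtain ⟨S₂, hok2, hP2, hβ2, hw2, hD2⟩ := remove_set hm hok1 R (by
    intro q hq
    have hq' := (mem_filter.mp hq)
    refine ⟨hq'.1, ?_⟩
    have h1 : 1 < S.β q + s := hq'.2.2.2
    show 1 / 2 ≤ S.β q
    linarith)
  have hβ2' : S₂.β = S.β := hβ2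
  have hP2' : S₂.P = S.P \ R := hP2
  have hp2 : p ∈ S₂.P := by
    rw [hP2', mem_sdiff]
    exact ⟨hp, fun h => (mem_filter.mp h).2.1 rfl⟩
  have hβ : ∀ q ∈ S₂.P, q ≠ p → M.d y q < 42 → S₂.β q + M.d p y ≤ 1 := by
    intro q hq hqp hyq
    rw [hP2', mem_sdiff] at hq
    rw [hβ2']
    by_contra hcon
    exact hq.2 (mem_filter.mpr ⟨hq.1, hqp, hyq, not_le.mp hcon⟩)
  have hLeq : ∀ x, M.d p x ≤ 1 / 2 → M.L S₂.w x = M.L (M.op S.w p a) x := by
    intro x hx
    apply M.L_congr
    intro z hz
    apply hw2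
    intro q hq
    have hq' := mem_filter.mp hq
    have h1 := hok.sep40 q hq'.1 p hp hq'.2.1
    have h2 := M.d_tri q z p
    have h3 := M.d_tri z x p
    rw [M.d_symm z x, M.d_symm x p] at h3
    linarith
  have hL : ∀ x, M.d p x ≤ 1 / 2 → M.L S₂.w x ≤ 16 * Real.log (2 / (512 * M.d p y ^ 2)) := by
    intro x hx
    rw [hLeq x hx]
    exact M.op_L_le hok.w0 ha0 (by linarith) hx
  have hLanti : ∀ x, M.d p x ≤ 1 / 2 → M.L S₂.w x ≤ M.L S.w x := by
    intro x hx
    rw [hLeq x hx]
    exact M.op_L_anti hok.w0 hok.pack ha0.le hx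
  -- step 3 : the move
  have hD3 := mv_D hm hok2 hp2 hβ hs0 hpy hL
  have hok4 := mv_ok hok2 hp2 hβ
  -- stability
  have h0 := hS.2 _ hok4
  have ht1 := M.D_tri hm S S₂ (mv M S₂ p y)
  have ht2 := M.D_tri hm S S₁ S₂
  rw [← hsdef] at hD3
  -- the exposure sum
  set Es : ℝ := ∑ x, (if s / 4 < M.d y x ∧ M.d y x ≤ 60 then m x * min (M.d y x) 1 else 0)
    with hEs
  have hEs0 : 0 ≤ Es := by
    apply sum_nonneg
    intro x _
    split_ifs
    · have := M.d_nonneg y x
      have := le_min this zero_le_one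
      have := hm x
      positivity
    · exact le_rfl
  have hu : ∀ x, M.d p x ≤ 3 → M.u S.P x = M.d p x := by
    intro x hx
    rw [M.u_near hok.sep40 hp (by rw [M.d_symm]; linarith), M.d_symm]
  have hmass : ∀ x, M.d p x ≤ 3 → 0 < rf (M.u S.P x) →
      m x ≤ 64 * (if s / 4 < M.d y x ∧ M.d y x ≤ 60 then m x * min (M.d y x) 1 else 0) := by
    intro x hx hrf
    rw [hu x hx] at hrf
    have h1 : 1 / 32 < M.d p x := by
      by_contra h
      rw [rf_eq_zero (not_lt.mp h)] at hrf
      exact lt_irrefl _ hrf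
    have h2 := M.d_tri p y x
    have h3 := M.d_tri y p x
    rw [M.d_symm y p] at h3
    have h4 : 1 / 64 ≤ M.d y x := by linarith
    rw [if_pos (show s / 4 < M.d y x ∧ M.d y x ≤ 60 from ⟨by linarith, by linarith⟩)]
    have h5 : 1 / 64 ≤ min (M.d y x) 1 := le_min h4 (by norm_num)
    have := hm x
    nlinarith
  have hA : ∑ z, (if M.d p z ≤ 1 / 2 ∧ 0 < rf (M.u S.P z) then m z else 0) ≤ 64 * Es := by
    rw [hEs, mul_sum]
    apply sum_le_sum
    intro x _
    split_ifs with h1 h2 h2
    · have := hmass x (by linarith [h1.1]) h1.2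
      rw [if_pos h2] at this
      exact this
    · have := hmass x (by linarith [h1.1]) h1.2
      rw [if_neg h2] at this
      exact this
    · have := M.d_nonneg y x
      have := le_min this zero_le_one
      have := hm x
      positivity
    · norm_num
  have hN : M.bm (M.nu m S) p 3 ≤ 64 * Es := by
    rw [hEs, mul_sum]
    unfold IM.bm
    apply sum_le_sum
    intro x _
    have hnn : 0 ≤ 64 * (if s / 4 < M.d y x ∧ M.d y x ≤ 60 then m x * min (M.d y x) 1 else 0) := by
      split_ifs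
      · have := M.d_nonneg y x
        have := le_min this zero_le_one
        have := hm x
        positivity
      · norm_num
    by_cases h1 : M.d p x ≤ 3
    · rw [if_pos h1]
      rcases (rf_nonneg (M.u S.P x)).eq_or_lt with h2 | h2
      · have : M.nu m S x = 0 := by
          unfold IM.nu zf
          rw [← h2]; ring
        rw [this]; exact hnn
      · exact (M.nu_le hm S x).trans (hmass x h1 h2)
    · rw [if_neg h1]; exact hnn
  have hexpo : ∑ z, (if M.d p z ≤ 1 / 2 then m z * (rf (M.u S.P z) * M.L S.w z) else 0) ≤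
      80 * ∑ z, (if M.d p z ≤ 1 / 2 ∧ 0 < rf (M.u S.P z) then m z else 0) +
        20 * (17 / 4 + 1) * M.bm (fun z => rf (M.u S.P z) ^ 2 * m z) p 3 := by
    apply expo_sum M hok.w0 hok.pack hm (rr := fun z => rf (M.u S.P z))
      (fun z => rf_nonneg _) (fun z => rf_le_one _) p (c := 17 / 4) (by norm_num)
    intro a ha0 ha1
    exact M.kkt hm hS ha0.le ha1 p
  have hnu : M.bm (fun z => rf (M.u S.P z) ^ 2 * m z) p 3 = M.bm (M.nu m S) p 3 := rfl
  rw [hnu] at hexpo
  have hB : ∑ x, (if M.d p x ≤ 1 / 2 then m x * (rf (M.d p x) * M.L S₂.w x) else 0) ≤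
      11840 * Es := by
    have h1 : ∑ x, (if M.d p x ≤ 1 / 2 then m x * (rf (M.d p x) * M.L S₂.w x) else 0) ≤
        ∑ z, (if M.d p z ≤ 1 / 2 then m z * (rf (M.u S.P z) * M.L S.w z) else 0) := by
      apply sum_le_sum
      intro x _
      split_ifs with h
      · rw [hu x (by linarith)]
        apply mul_le_mul_of_nonneg_left _ (hm x)
        exact mul_le_mul_of_nonneg_left (hLanti x h) (rf_nonneg _)
      · exact le_rfl
    linarith
  -- conclusion
  have hfin : s * M.bm m y (s / 4) ≤ 151 * Es := by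
    have h1 : 34 * a * M.bm (M.nu m S) p 3 ≤ 17408 * s * Es := by
      have h2 : 34 * a ≤ 272 * s := by rw [hadef]; linarith
      calc 34 * a * M.bm (M.nu m S) p 3 ≤ (272 * s) * (64 * Es) := by
            apply mul_le_mul h2 hN (M.bm_nonneg (M.nu_nonneg hm S) p 3) (by positivity)
        _ = 17408 * s * Es := by ring
    have h3 : 96 * s * ∑ x, (if M.d p x ≤ 1 / 2 then m x * (rf (M.d p x) * M.L S₂.w x) else 0) ≤
        96 * s * (11840 * Es) := by gcongr
    have h4 : 0 ≤ -(10240 * s ^ 2) * M.bm m y (s / 4) + 1539309 * (s * Es) := by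
      linarith
    have h5 : s * (10240 * (s * M.bm m y (s / 4))) ≤ s * (1539309 * Es) := by nlinarith
    have h6 := le_of_mul_le_mul_left h5 hs0
    linarith
  have := dichotomy M hm hr (by linarith : r ≤ s / 4) hs0.le (by linarith) (by norm_num) hfin
  linarith

end Ec

end Crest.Agent.R314.G1
end

-- ▼ part R314/Fin4
section

/-!
R314, block FIN, part 4: module G is complete: `GOut 256`.
-/

set_option autoImplicit false

namespace Crest.Agent.R314.Fin

universe u

theorem claim2 : G1.Claim2.{u} :=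
  ⟨310, by norm_num, fun _ _ _ _ _ _ _ _ _ hm hS hr hpos hp hpy =>
    G1.Ec.claim2 hm hS hp hpy hr hpos⟩

theorem geo1C : GO.GEO1C.{u} := G1.geo1C_of claim2

theorem gout256 : GO.GOut.{u} 256 := by
  have h := (GO.gout_of_gob (GO.gob_of_geo geo1C)).pow (by norm_num) 2 (by norm_num)
  have e : (16 : ℕ) ^ 2 = 256 := by norm_num
  rw [e] at h
  exact h

end Crest.Agent.R314.Fin
end

-- ▼ part R314/C2q
section

/-!
R314, module C: the statements s9, s12, s13 (wrappers of `C2p`).
-/

set_option autoImplicit false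
set_option linter.unusedSectionVars false

namespace Crest.Agent.R314.C

open Finset Classical

variable {Y Lab : Type*} [Fintype Y] [MetricSpace Y] [Fintype Lab] {P : Par}

section
variable {m : Y → ℝ} {lab : Y → ℕ → Lab} {S : St Y Lab}
  (hs : Stuck P S m lab) (hm : ∀ x, 0 ≤ m x) (hv : Valid P lab)
  (hk : ∀ N ∈ nodes Lab P.I, P.ok (S N).kind) (ht : ∀ N, 0 ≤ (S N).trav)
include hs hm hv hk ht

/-- coefficients of the children -/
theorem s9 {U : List Lab} (hU : U.length ≤ P.I) (h0 : 0 < mass m lab U) :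
    ∑ N ∈ (nodes Lab P.I).filter (fun N => up S N = U), P.w N.length * P.be (S N).kind ≤
      (P.A + P.A') / 63 * P.w U.length := by
  have _ := hU
  have h := C2p.s9_core (P := P) hm (fun N hN h => s1 hs hm hv hk ht hN h)
    (fun N hN c h => s4 hs hm hv hk ht hN h) h0
  convert h using 2



end

end Crest.Agent.R314.C
end

-- ▼ part R314/C3q
section

/-!
R314, module C, block C3 (helper555's #8945): the move lemma `move_pt`.
-/

set_option autoImplicit false
set_option linter.unusedSectionVars false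

namespace Crest.Agent.R314.C

open Finset Classical

variable {Y Lab : Type*} [Fintype Y] [MetricSpace Y] [Fintype Lab] {P : Par}

section
variable {m : Y → ℝ} {lab : Y → ℕ → Lab} {S : St Y Lab}
  (hs : Stuck P S m lab) (hm : ∀ x, 0 ≤ m x) (hv : Valid P lab)
  (hk : ∀ N ∈ nodes Lab P.I, P.ok (S N).kind) (ht : ∀ N, 0 ≤ (S N).trav)
include hs hm hv hk ht

/-- **Move lemma** (C3).  `S` stuck for `(m, lab)`; `x` a point with positive mass; either the
point is relabelled (`y = x`) or moves (`lab' = lab`). -/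
theorem move_pt {lab' : Y → ℕ → Lab} (hv' : Valid P lab') {keep : List Lab → Prop}
    (hkeep : ∀ N, keep N ↔ 0 < mass m lab N ∧ ∃ z, Mem lab z N ∧ Mem lab' z N)
    {g : List Lab → Y} (hg : ∀ N, (∃ z, Mem lab' z N) → Mem lab' (g N) N) (now : ℕ) {x y : Y}
    (hx : 0 < m x) (hxy : x = y ∨ lab = lab') :
    ps P (reinit now keep g S) lab' y ≤ ps P S lab x +
      (3 * P.A + 2 * P.A' + 33 * P.CG) * dk P (lab x) (lab' y) +
      8 * (dist y (S []).ctr - dist x (S []).ctr) +
      8 * ∑ N ∈ (nodes Lab P.I).filter (fun N => Mem lab x N ∧ Mem lab' y N ∧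
        (S N).kind ≠ Kind.sp), (dist y (S N).ctr - dist x (S N).ctr) :=
  move_pt' hm (fun _ hN h h0 => s6 hs hm hv hk ht hN h h0)
    (fun _ hN h h0 _ hz => s7 hs hm hv hk ht hN h h0 hz)
    (fun _ hU h0 => s9 hs hm hv hk ht hU h0) ht hv' hkeep hg now hx hxy

end

end Crest.Agent.R314.C
end

-- ▼ part R314/C2h2
section

/-!
R314, module C: `s10`, `s11` (H1) and `flow_count` with the signatures of post 8945.
Author: helper334.
-/

set_option autoImplicit false
set_option linter.unusedSectionVars false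

namespace Crest.Agent.R314.C

open Finset Classical

variable {Y Lab : Type*} [Fintype Y] [MetricSpace Y] [Fintype Lab] {P : Par}

section
variable {m : Y → ℝ} {lab : Y → ℕ → Lab} {S : St Y Lab}
  (hs : Stuck P S m lab) (hm : ∀ x, 0 ≤ m x) (hv : Valid P lab)
  (hk : ∀ N ∈ nodes Lab P.I, P.ok (S N).kind) (ht : ∀ N, 0 ≤ (S N).trav)
include hs hm hv hk ht



end

/-- (C4) number of charged nodes before a flow into `r`. -/
theorem flow_count {m f : Y → ℝ} {lab : Y → ℕ → Lab} {S : St Y Lab}
    (hs : Stuck P S m lab) (hm : ∀ x, 0 ≤ m x) (hv : Valid P lab)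
    (hk : ∀ N ∈ nodes Lab P.I, P.ok (S N).kind) (ht : ∀ N, 0 ≤ (S N).trav)
    (hf : ∀ x, 0 ≤ f x) (hfm : ∀ x, f x ≤ m x) (r : Y) {T : ℝ} (hT : 0 < T)
    (hr : T ≤ m r - f r + ∑ x, f x) :
    ∑ N ∈ (nodes Lab P.I).filter (fun N => Mem lab r N ∧ (S N).kind ≠ Kind.sp),
      ∑ x, (if Mem lab x N then f x * dist x r else 0) ≤
      (max 0 (Real.log (2 * mass m lab [] / T)) / Real.log (10 / 9)) * ∑ x, f x * dist x r +
        P.CG * ∑ x, f x * dk P (lab x) (lab r) :=
  flow_count_of hm hv (fun _ hN h => s2 hs hm hv hk ht hN h) hf hfm r hT hr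

end Crest.Agent.R314.C
end

-- ▼ part R314/C7a

/-!
R314, module C, block C7a: the potential pays for the updates.
-/

set_option autoImplicit false
set_option linter.unusedSectionVars false

namespace Crest.Agent.R314.C

open Finset Classical Crest.Agent.R314.Bay

variable {Y Lab : Type*} [Fintype Y] [MetricSpace Y] [Fintype Lab] {k : ℕ} [NeZero k] {P : Par}
  {Q : Prior Y k} {lab : List Y → Y → ℕ → Lab}

theorem C7a.ps_nonneg {S : St Y Lab} (ht : ∀ N, 0 ≤ (S N).trav) (lab : Y → ℕ → Lab) (x : Y) :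
    0 ≤ ps P S lab x := by
  unfold ps
  apply add_nonneg (mul_nonneg (by norm_num) dist_nonneg)
  apply sum_nonneg
  intro N _
  have hw := C3.w_pos P N.length
  have hbe := C3.be_nonneg P (S N).kind
  have hd : 0 ≤ dist x (S N).ctr := dist_nonneg
  by_cases hk : (S N).kind = Kind.sp
  · rw [hk]
    by_cases h1 : Mem lab x N
    · have h2 : Mem lab x (up S N) := h1.anc (up_suffix S N)
      rw [if_pos h1, if_pos h2]
      simp [Par.al, Par.be]
    · rw [if_neg h1, zero_add]
      split_ifs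
      · rw [hk] at hbe
        exact mul_nonneg hw.le hbe
      · exact le_rfl
  · have hal := C3.al_nonneg P hk
    apply add_nonneg
    · split_ifs
      have := ht N
      · positivity
      · exact le_rfl
    · split_ifs
      · exact mul_nonneg hw.le hbe
      · exact le_rfl

theorem C7a.Price_nonneg {m : Y → ℝ} (hm : ∀ x, 0 ≤ m x) (S S' : St Y Lab) (lab : Y → ℕ → Lab) :
    0 ≤ Price P S S' m lab :=
  le_trans (mul_nonneg dist_nonneg (sum_nonneg fun x _ => hm x)) (C7d.root_le_Price hm S S' lab)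

theorem C7a.dk_self (u : ℕ → Lab) : dk P u u = 0 := by
  unfold dk
  simp

theorem C7a.mm_le (Q : Prior Y k) {h : List Y} (_h0 : h ≠ []) (x : Y) :
    Q.mm h x ≤ Q.mp h.dropLast x := by
  unfold Prior.mm Prior.mp Prior.Em Prior.Ep
  rw [List.length_dropLast]
  apply sum_le_sum_of_subset_of_nonneg
  · exact Q.I_mono (List.dropLast_prefix h)
  · intro i _ _
    apply mul_nonneg (Q.p_nonneg i)
    apply sum_nonneg
    intro j _
    split_ifs <;> norm_num

theorem C7a.p_le_mm (Q : Prior Y k) {h : List Y} {i : Q.ι} (hi : i ∈ Q.I h) (j : Fin k) :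
    Q.p i ≤ Q.mm h (Q.conf i (h.length - 1) j) := by
  unfold Prior.mm Prior.Em
  have h1 : Q.p i * 1 ≤ Q.p i * ∑ j', (if Q.conf i (h.length - 1) j' =
      Q.conf i (h.length - 1) j then (1 : ℝ) else 0) := by
    apply mul_le_mul_of_nonneg_left _ (Q.p_nonneg i)
    have := single_le_sum (f := fun j' => if Q.conf i (h.length - 1) j' =
      Q.conf i (h.length - 1) j then (1 : ℝ) else 0) (fun j _ => by split_ifs <;> norm_num)
      (mem_univ j)
    simpa using this
  rw [mul_one] at h1
  refine h1.trans ?_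
  exact single_le_sum (f := fun i' => Q.p i' * ∑ j', (if Q.conf i' (h.length - 1) j' =
      Q.conf i (h.length - 1) j then (1 : ℝ) else 0)) (fun i' _ => mul_nonneg (Q.p_nonneg i')
      (sum_nonneg fun j _ => by split_ifs <;> norm_num)) hi

/-- The relabelling. -/
theorem C7a.step1 (hex : UpdEx P Y Lab) (hval : ∀ h, Valid P (lab h)) {h : List Y} (h0 : h ≠ []) :
    Phi P (f1 Q lab h (st P Q lab h.dropLast)) (Q.mm h) (lab h) ≤
      Q.Em h (fun c => ∑ j, ps P (st P Q lab h.dropLast) (lab h.dropLast) (c j)) +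
        (3 * P.A + 2 * P.A' + 33 * P.CG) *
          ∑ x, Q.mm h x * dk P (lab h.dropLast x) (lab h x) := by
  rw [← Q.sum_mm h (fun x => ps P (st P Q lab h.dropLast) (lab h.dropLast) x), mul_sum,
    ← sum_add_distrib]
  unfold Phi
  apply sum_le_sum
  intro x _
  rcases (Q.mm_nonneg h x).eq_or_lt with hx | hx
  · rw [← hx]; simp
  · have hx' : 0 < Q.mp h.dropLast x := lt_of_lt_of_le hx (C7a.mm_le Q h0 x)
    have hi := inv_st (P := P) (Q := Q) (lab := lab) hex h.dropLast
    have := move_pt (stuck_st (P := P) (Q := Q) (lab := lab) hex h.dropLast)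
      (Q.mp_nonneg h.dropLast) (hval h.dropLast) hi.kinds hi.trav (hval h)
      (keep := Keep (Q.mp h.dropLast) (lab h.dropLast) (lab h)) (fun N => Iff.rfl)
      (g := gctr (Q.s 0) (lab h)) (fun N hN => gctr_mem (Q.s 0) hN) (2 * h.length - 1)
      hx' (Or.inl rfl)
    simp only [sub_self, mul_zero, sum_const_zero, add_zero] at this
    have h2 := mul_le_mul_of_nonneg_left this hx.le
    unfold f1
    linarith

/-- Extra of the flow for the mover (source `x`, target `r`). -/
noncomputable def C7a.X (P : Par) (S : St Y Lab) (lab : Y → ℕ → Lab) (x r : Y) : ℝ :=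
  (3 * P.A + 2 * P.A' + 33 * P.CG) * dk P (lab x) (lab r) + 8 * dist x r +
    8 * ∑ N ∈ (nodes Lab P.I).filter (fun N => Mem lab r N ∧ (S N).kind ≠ Kind.sp),
      (if Mem lab x N then dist x r else 0)

theorem C7a.X_ge {S : St Y Lab} {lab : Y → ℕ → Lab} (x r : Y) :
    (3 * P.A + 2 * P.A' + 33 * P.CG) * dk P (lab x) (lab r) +
      8 * (dist r (S []).ctr - dist x (S []).ctr) +
      8 * ∑ N ∈ (nodes Lab P.I).filter (fun N => Mem lab x N ∧ Mem lab r N ∧
        (S N).kind ≠ Kind.sp), (dist r (S N).ctr - dist x (S N).ctr) ≤ C7a.X P S lab x r := by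
  unfold C7a.X
  have h1 : ∀ z : Y, dist r z - dist x z ≤ dist x r := by
    intro z
    have := dist_triangle r x z
    rw [dist_comm r x] at this
    linarith
  have h2 : ∑ N ∈ (nodes Lab P.I).filter (fun N => Mem lab x N ∧ Mem lab r N ∧
        (S N).kind ≠ Kind.sp), (dist r (S N).ctr - dist x (S N).ctr) ≤
      ∑ N ∈ (nodes Lab P.I).filter (fun N => Mem lab r N ∧ (S N).kind ≠ Kind.sp),
      (if Mem lab x N then dist x r else 0) := by
    rw [← sum_filter, filter_filter]
    have e : (nodes Lab P.I).filter (fun N => (Mem lab r N ∧ (S N).kind ≠ Kind.sp) ∧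
        Mem lab x N) = (nodes Lab P.I).filter (fun N => Mem lab x N ∧ Mem lab r N ∧
        (S N).kind ≠ Kind.sp) := by
      apply filter_congr
      intro N _
      tauto
    rw [e]
    exact sum_le_sum fun N _ => h1 _
  have h3 := h1 (S []).ctr
  linarith

/-- The flow. -/
theorem C7a.step2 (hex : UpdEx P Y Lab) (hval : ∀ h, Valid P (lab h)) {h : List Y} (h0 : h ≠ []) :
    Phi P (f3 P Q lab h (st P Q lab h.dropLast)) (Q.mp h) (lab h) ≤
      Phi P (stm P Q lab h) (Q.mm h) (lab h) +
        ∑ i ∈ Q.I h, Q.p i * C7a.X P (stm P Q lab h) (lab h) (Q.src i (h.length - 1))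
          (Q.rq i (h.length - 1)) := by
  have hi := inv_stm (P := P) (Q := Q) (lab := lab) hex h0
  have hmv : ∀ x y : Y, 0 < Q.mm h x →
      ps P (f3 P Q lab h (st P Q lab h.dropLast)) (lab h) y ≤ ps P (stm P Q lab h) (lab h) x +
        ((3 * P.A + 2 * P.A' + 33 * P.CG) * dk P (lab h x) (lab h y) +
      8 * (dist y (stm P Q lab h []).ctr - dist x (stm P Q lab h []).ctr) +
      8 * ∑ N ∈ (nodes Lab P.I).filter (fun N => Mem (lab h) x N ∧ Mem (lab h) y N ∧
        (stm P Q lab h N).kind ≠ Kind.sp),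
          (dist y (stm P Q lab h N).ctr - dist x (stm P Q lab h N).ctr)) := by
    intro x y hx
    have := move_pt (stuck_stm (P := P) (Q := Q) (lab := lab) hex h0)
      (Q.mm_nonneg h) (hval h) hi.kinds hi.trav (hval h)
      (keep := Keep (Q.mm h) (lab h) (lab h)) (fun N => Iff.rfl)
      (g := gctr (Q.s 0) (lab h)) (fun N hN => gctr_mem (Q.s 0) hN) (2 * h.length)
      hx (y := y) (Or.inr rfl)
    have e : f3 P Q lab h (st P Q lab h.dropLast) = reinit (2 * h.length)
        (Keep (Q.mm h) (lab h) (lab h)) (gctr (Q.s 0) (lab h)) (stm P Q lab h) := rfl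
    rw [e]
    linarith
  unfold Phi
  rw [Q.sum_mp h (fun x => ps P (f3 P Q lab h (st P Q lab h.dropLast)) (lab h) x),
    Q.sum_mm h (fun x => ps P (stm P Q lab h) (lab h) x)]
  unfold Prior.Ep Prior.Em
  rw [← sum_add_distrib]
  apply sum_le_sum
  intro i hi'
  rw [← mul_add]
  rcases (Q.p_nonneg i).eq_or_lt with hp | hp
  · rw [← hp]; simp
  apply mul_le_mul_of_nonneg_left _ hp.le
  have hlen : h.length = (h.length - 1) + 1 := by
    have := List.length_pos_iff.2 h0
    omega
  have hpos : ∀ j, 0 < Q.mm h (Q.conf i (h.length - 1) j) := fun j =>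
    lt_of_lt_of_le hp (C7a.p_le_mm Q hi' j)
  have h3 : ∀ j, ps P (f3 P Q lab h (st P Q lab h.dropLast)) (lab h) (Q.conf i h.length j) ≤
      ps P (stm P Q lab h) (lab h) (Q.conf i (h.length - 1) j) +
        (if j = Q.jj i (h.length - 1) then C7a.X P (stm P Q lab h) (lab h)
          (Q.src i (h.length - 1)) (Q.rq i (h.length - 1)) else 0) := by
    intro j
    have hc := Q.conf_succ i (h.length - 1)
    rw [← hlen] at hc
    rw [hc]
    by_cases hj : j = Q.jj i (h.length - 1)
    · rw [if_pos hj, hj, Function.update_self]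
      have h4 := hmv _ (Q.rq i (h.length - 1)) (hpos (Q.jj i (h.length - 1)))
      have h5 := C7a.X_ge (P := P) (S := stm P Q lab h) (lab := lab h)
        (Q.src i (h.length - 1)) (Q.rq i (h.length - 1))
      change _ ≤ ps P (stm P Q lab h) (lab h) (Q.src i (h.length - 1)) + _ at h4
      change _ ≤ ps P (stm P Q lab h) (lab h) (Q.src i (h.length - 1)) + _
      refine h4.trans ?_
      exact add_le_add le_rfl h5
    · rw [if_neg hj, Function.update_of_ne hj, add_zero]
      have h4 := hmv _ (Q.conf i (h.length - 1) j) (hpos j)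
      simpa [C7a.dk_self] using h4
  calc _ ≤ ∑ j, (ps P (stm P Q lab h) (lab h) (Q.conf i (h.length - 1) j) +
        (if j = Q.jj i (h.length - 1) then C7a.X P (stm P Q lab h) (lab h)
          (Q.src i (h.length - 1)) (Q.rq i (h.length - 1)) else 0)) := sum_le_sum fun j _ => h3 j
    _ = _ := by rw [sum_add_distrib, sum_ite_eq' univ]; simp

/-- The number of charged nodes crossed by the flow. -/
theorem C7a.step3 (hex : UpdEx P Y Lab) (hval : ∀ h, Valid P (lab h)) {h : List Y} (h0 : h ≠ []) :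
    ∑ i ∈ Q.I h, Q.p i * C7a.X P (stm P Q lab h) (lab h) (Q.src i (h.length - 1))
          (Q.rq i (h.length - 1)) ≤
      (3 * P.A + 2 * P.A' + 41 * P.CG) * ∑ i ∈ Q.I h, Q.p i *
        dk P (lab h (Q.src i (h.length - 1))) (lab h (Q.rq i (h.length - 1))) +
      8 * (1 + Real.log (2 * k) / Real.log (10 / 9)) * ∑ i ∈ Q.I h,
        Q.p i * dist (Q.src i (h.length - 1)) (Q.rq i (h.length - 1)) := by
  set r := h.getLast h0 with hr
  have hrq : ∀ i ∈ Q.I h, Q.rq i (h.length - 1) = r := fun i hi => Q.rq_of_mem_I hi h0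
  have e1 : ∑ i ∈ Q.I h, Q.p i * C7a.X P (stm P Q lab h) (lab h) (Q.src i (h.length - 1))
          (Q.rq i (h.length - 1)) = ∑ i ∈ Q.I h, Q.p i * C7a.X P (stm P Q lab h) (lab h)
          (Q.src i (h.length - 1)) r := sum_congr rfl fun i hi => by rw [hrq i hi]
  have e2 : ∑ i ∈ Q.I h, Q.p i *
        dk P (lab h (Q.src i (h.length - 1))) (lab h (Q.rq i (h.length - 1))) =
      ∑ i ∈ Q.I h, Q.p i * dk P (lab h (Q.src i (h.length - 1))) (lab h r) :=
    sum_congr rfl fun i hi => by rw [hrq i hi]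
  have e3 : ∑ i ∈ Q.I h, Q.p i * dist (Q.src i (h.length - 1)) (Q.rq i (h.length - 1)) =
      ∑ i ∈ Q.I h, Q.p i * dist (Q.src i (h.length - 1)) r :=
    sum_congr rfl fun i hi => by rw [hrq i hi]
  rw [e1, e2, e3]
  -- the flow
  set f : Y → ℝ := fun x => ∑ i ∈ Q.I h, Q.p i * (if Q.src i (h.length - 1) = x then 1 else 0)
    with hf
  have hsum : ∀ U : Y → ℝ, ∑ x, f x * U x = ∑ i ∈ Q.I h, Q.p i * U (Q.src i (h.length - 1)) := by
    intro U
    simp only [hf, sum_mul]
    rw [sum_comm]
    apply sum_congr rfl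
    intro i _
    simp
  have hf0 : ∀ x, 0 ≤ f x := fun x => sum_nonneg fun i _ => mul_nonneg (Q.p_nonneg i)
    (by split_ifs <;> norm_num)
  have hfm : ∀ x, f x ≤ Q.mm h x := by
    intro x
    apply sum_le_sum
    intro i _
    apply mul_le_mul_of_nonneg_left _ (Q.p_nonneg i)
    have := single_le_sum (f := fun j' => if Q.conf i (h.length - 1) j' = x then (1 : ℝ) else 0)
      (fun j _ => by split_ifs <;> norm_num) (mem_univ (Q.jj i (h.length - 1)))
    exact this
  have hfone : ∑ x, f x = Q.P h := by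
    have := hsum fun _ => 1
    simp only [mul_one] at this
    rw [this]; rfl
  rcases (Q.P_nonneg h).eq_or_lt with hP | hP
  · have hp0 : ∀ i ∈ Q.I h, Q.p i = 0 := (sum_eq_zero_iff_of_nonneg fun i _ => Q.p_nonneg i).1
      hP.symm
    have z : ∀ F : Q.ι → ℝ, ∑ i ∈ Q.I h, Q.p i * F i = 0 := fun F =>
      sum_eq_zero fun i hi => by rw [hp0 i hi, zero_mul]
    rw [z, z, z]
    simp
  have hi := inv_stm (P := P) (Q := Q) (lab := lab) hex h0
  have hfc := flow_count (stuck_stm (P := P) (Q := Q) (lab := lab) hex h0) (Q.mm_nonneg h)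
    (hval h) hi.kinds hi.trav hf0 hfm r hP (by have := hfm r; linarith)
  have hk1 : (1 : ℝ) ≤ k := by
    have := Nat.one_le_iff_ne_zero.2 (NeZero.ne k)
    exact_mod_cast this
  have elog : max 0 (Real.log (2 * mass (Q.mm h) (lab h) [] / Q.P h)) = Real.log (2 * k) := by
    rw [mass_nil, Q.sum_mm_one]
    have : 2 * ((k : ℝ) * Q.P h) / Q.P h = 2 * k := by
      field_simp
    rw [this]
    exact max_eq_right (Real.log_nonneg (by linarith))
  rw [elog, hsum (fun x => dist x r), hsum (fun x => dk P (lab h x) (lab h r))] at hfc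
  have e4 : ∑ N ∈ (nodes Lab P.I).filter (fun N => Mem (lab h) r N ∧
      (stm P Q lab h N).kind ≠ Kind.sp), ∑ x, (if Mem (lab h) x N then f x * dist x r else 0) =
      ∑ i ∈ Q.I h, Q.p i * ∑ N ∈ (nodes Lab P.I).filter (fun N => Mem (lab h) r N ∧
      (stm P Q lab h N).kind ≠ Kind.sp), (if Mem (lab h) (Q.src i (h.length - 1)) N then
        dist (Q.src i (h.length - 1)) r else 0) := by
    simp only [mul_sum]
    rw [sum_comm (s := Q.I h)]
    apply sum_congr rfl
    intro N _
    have := hsum fun x => if Mem (lab h) x N then dist x r else 0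
    rw [← this]
    apply sum_congr rfl
    intro x _
    rw [mul_ite, mul_zero]
  rw [e4] at hfc
  have e5 : ∑ i ∈ Q.I h, Q.p i * C7a.X P (stm P Q lab h) (lab h) (Q.src i (h.length - 1)) r =
      (3 * P.A + 2 * P.A' + 33 * P.CG) * ∑ i ∈ Q.I h, Q.p i *
        dk P (lab h (Q.src i (h.length - 1))) (lab h r) +
      8 * ∑ i ∈ Q.I h, Q.p i * dist (Q.src i (h.length - 1)) r +
      8 * ∑ i ∈ Q.I h, Q.p i * ∑ N ∈ (nodes Lab P.I).filter (fun N => Mem (lab h) r N ∧
      (stm P Q lab h N).kind ≠ Kind.sp), (if Mem (lab h) (Q.src i (h.length - 1)) N then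
        dist (Q.src i (h.length - 1)) r else 0) := by
    rw [mul_sum, mul_sum, mul_sum, ← sum_add_distrib, ← sum_add_distrib]
    apply sum_congr rfl
    intro i _
    unfold C7a.X
    ring
  rw [e5]
  linarith

theorem C7a.sum_w_le (P : Par) (I : ℕ) : ∑ j ∈ range I, P.w (j + 1) ≤ 1 / 63 * P.W := by
  have key : ∀ n, ∑ j ∈ range n, P.w (j + 1) + 1 / 63 * P.w n ≤ 1 / 63 * P.W := by
    intro n
    induction n with
    | zero => simp [Par.w]
    | succ n ih =>
      rw [sum_range_succ]
      have := w_succ_le P n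
      linarith
  have := key I
  have := (C3.w_pos P I).le
  linarith

/-- The initial potential. -/
theorem C7a.init (hex : UpdEx P Y Lab) (hval : ∀ h, Valid P (lab h)) :
    (∑ i, Q.p i) * ∑ j, ps P (st P Q lab []) (lab []) (Q.s j) ≤
      (∑ i, Q.p i) * (k * ((8 * P.CG + P.Q) * P.W)) := by
  have hu := st_nil_upd (P := P) (Q := Q) (lab := lab) hex
  have h1 : Phi P (st P Q lab []) (Q.mp []) (lab []) =
      (∑ i, Q.p i) * ∑ j, ps P (st P Q lab []) (lab []) (Q.s j) := by
    unfold Phi
    rw [Q.sum_mp [] (fun x => ps P (st P Q lab []) (lab []) x)]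
    unfold Prior.Ep
    have : Q.I [] = univ := by
      ext i
      simp [Q.mem_I]
    rw [this, sum_mul]
    apply sum_congr rfl
    intro i _
    simp
  have h2 := hu.pays
  have h3 := C7a.Price_nonneg (P := P) (Q.mp_nonneg []) (st0 Q lab) (st P Q lab []) (lab [])
  have h4 : Phi P (st0 Q lab) (Q.mp []) (lab []) ≤
      (∑ i, Q.p i) * (k * ((8 * P.CG + P.Q) * P.W)) := by
    have hCG := P.hCG
    have hW := P.hW
    have hps : ∀ x, ps P (st0 Q lab) (lab []) x ≤ (8 * P.CG + P.Q) * P.W := by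
      intro x
      have a1 : dist x (st0 Q lab []).ctr ≤ P.CG * P.W := by
        have := (hval []).dist_le x (st0 Q lab []).ctr 0 (Nat.zero_le _) rfl
        have h4 : P.w 0 = P.W := by unfold Par.w; simp
        rwa [h4] at this
      have a2 : ∀ N ∈ nodes Lab P.I, ((if Mem (lab []) x N then P.w N.length *
          P.al (st0 Q lab N).kind + (if (st0 Q lab N).kind = Kind.sp then 0 else
            8 * dist x (st0 Q lab N).ctr + (st0 Q lab N).trav) else 0) +
          (if Mem (lab []) x (up (st0 Q lab) N) then P.w N.length * P.be (st0 Q lab N).kind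
            else 0)) ≤ (if Mem (lab []) x N then P.Q * P.w N.length else 0) := by
        intro N hN
        have b1 : P.be (st0 Q lab N).kind = 0 := rfl
        have b2 : P.al (st0 Q lab N).kind = 2 * P.A := rfl
        have b3 : (st0 Q lab N).trav = 0 := rfl
        have b4 : (st0 Q lab N).kind ≠ Kind.sp := by
          intro h
          exact absurd h (by simp [st0])
        rw [b1, mul_zero, ite_self, add_zero, b2, b3, if_neg b4, add_zero]
        by_cases hx : Mem (lab []) x N
        · rw [if_pos hx, if_pos hx]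
          have b5 : Mem (lab []) (st0 Q lab N).ctr N := gctr_mem (Q.s 0) ⟨x, hx⟩
          have b6 := (hval []).dist_le x (st0 Q lab N).ctr N.length (mem_nodes.1 hN).2
            (by rw [hx.eq, b5.eq])
          unfold Par.Q
          linarith
        · rw [if_neg hx, if_neg hx]
      have a3 : ∑ N ∈ nodes Lab P.I, (if Mem (lab []) x N then P.Q * P.w N.length else 0) ≤
          P.Q * P.W := by
        rw [sum_mem (lab []) x P.I (fun N => P.Q * P.w N.length)]
        simp only [key_length]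
        rw [← mul_sum]
        have hQ : 0 ≤ P.Q := by
          have := C3.A_pos P
          unfold Par.Q; linarith
        apply mul_le_mul_of_nonneg_left _ hQ
        have := C7a.sum_w_le P P.I
        linarith
      have a4 := (sum_le_sum a2).trans a3
      unfold ps
      linarith
    unfold Phi
    calc ∑ x, Q.mp [] x * ps P (st0 Q lab) (lab []) x ≤
        ∑ x, Q.mp [] x * ((8 * P.CG + P.Q) * P.W) :=
          sum_le_sum fun x _ => mul_le_mul_of_nonneg_left (hps x) (Q.mp_nonneg [] x)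
      _ = (∑ i, Q.p i) * (k * ((8 * P.CG + P.Q) * P.W)) := by
        rw [← sum_mul, Q.sum_mp_one]
        have : Q.P [] = ∑ i, Q.p i := by
          unfold Prior.P
          congr 1
          ext i
          simp [Q.mem_I]
        rw [this]; ring
  linarith

/-- **C7a**: the potential. -/
theorem sum_pr_le (hex : UpdEx P Y Lab) (hval : ∀ h, Valid P (lab h)) :
    ∑ h ∈ Q.H, (pr1 P Q lab h + pr2 P Q lab h) ≤
      (∑ i, Q.p i) * (k * ((8 * P.CG + P.Q) * P.W)) +
      (3 * P.A + 2 * P.A' + 41 * P.CG) * ∑ h ∈ Q.H, dbill P Q lab h +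
      8 * (1 + Real.log (2 * k) / Real.log (10 / 9)) * Q.opt := by
  have htel := Q.telescope (fun h c => ∑ j, ps P (st P Q lab h) (lab h) (c j))
    (fun h c => sum_nonneg fun j _ => C7a.ps_nonneg (inv_st hex h).trav _ _)
    (fun h => pr1 P Q lab h + pr2 P Q lab h)
    (fun h => (3 * P.A + 2 * P.A' + 41 * P.CG) * dbill P Q lab h +
      8 * (1 + Real.log (2 * k) / Real.log (10 / 9)) * ∑ i ∈ Q.I h,
        Q.p i * dist (Q.src i (h.length - 1)) (Q.rq i (h.length - 1)))
    (by
      intro h hh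
      have h0 := Q.ne_nil_of_mem_H hh
      have s1 := C7a.step1 (Q := Q) (lab := lab) hex hval h0
      have s2 := C7a.step2 (Q := Q) (lab := lab) hex hval h0
      have s3 := C7a.step3 (Q := Q) (lab := lab) hex hval h0
      have u1 := (upd1 (P := P) (Q := Q) (lab := lab) hex h0).pays
      have u2 := (upd2 (P := P) (Q := Q) (lab := lab) hex h0).pays
      have e1 : Q.Ep h (fun c => ∑ j, ps P (st P Q lab h) (lab h) (c j)) =
          Phi P (st P Q lab h) (Q.mp h) (lab h) := by
        unfold Phi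
        rw [Q.sum_mp h (fun x => ps P (st P Q lab h) (lab h) x)]
      have hCG : 0 ≤ 8 * P.CG := by have := P.hCG; linarith
      have hdk : 0 ≤ ∑ x, Q.mm h x * dk P (lab h.dropLast x) (lab h x) :=
        sum_nonneg fun x _ => mul_nonneg (Q.mm_nonneg h x) (C3.dk_nonneg P _ _)
      have h8 := mul_nonneg hCG hdk
      rw [e1]
      unfold dbill pr1 pr2
      linarith)
  have hinit := C7a.init (Q := Q) (lab := lab) hex hval
  have e : ∑ h ∈ Q.H, ((3 * P.A + 2 * P.A' + 41 * P.CG) * dbill P Q lab h +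
      8 * (1 + Real.log (2 * k) / Real.log (10 / 9)) * ∑ i ∈ Q.I h,
        Q.p i * dist (Q.src i (h.length - 1)) (Q.rq i (h.length - 1))) =
      (3 * P.A + 2 * P.A' + 41 * P.CG) * ∑ h ∈ Q.H, dbill P Q lab h +
      8 * (1 + Real.log (2 * k) / Real.log (10 / 9)) * Q.opt := by
    rw [sum_add_distrib, ← mul_sum, ← mul_sum, Q.opt_eq]
  rw [e] at htel
  linarith

end Crest.Agent.R314.C
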