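import Crest.Agent.R314.C1b_Mg
import Crest.Agent.R314.C6
import Mathlib
import Crest.Agent.R314.C1a
import Crest.Agent.R314.Asm1
import Crest.Agent.R314.C2s
import Crest.Agent.R314.C2p
import Crest.Agent.R314.C2h1
import Crest.Agent.R314.C3
import Crest.Agent.R314.Asm3
import Crest.Agent.R314.C7d

-- ▼ part R314/Fin3
section

/-!
R314, block FIN, part 3: constants.  From the four statements C7a, C7c, C7d and the `TreeSys`
instance of module C (C6b) to `COut`.
-/

set_option autoImplicit false
set_option linter.unusedSectionVars false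

namespace Crest.Agent.R314.Fin

open Finset Crest.Agent.R314 Crest.Agent.R314.Tk Crest.Agent.R314.Bay Crest.LogicCS.KServer
open Crest.Agent.R314.C (Par key Valid dk)

universe u

theorem log_ten_ninth : (1 : ℝ) / 10 ≤ Real.log (10 / 9) := by
  have := Real.one_sub_inv_le_log_of_pos (show (0 : ℝ) < 10 / 9 by norm_num)
  norm_num at this
  linarith

theorem log_two_mul_le {k : ℕ} (hk : 2 ≤ k) :
    Real.log (2 * k) ≤ 2 * Real.log ((k : ℝ) + 1) := by
  have hk0 : (0 : ℝ) < k := by exact_mod_cast (by omega : 0 < k)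
  rw [← Real.log_rpow (by positivity)]
  apply Real.log_le_log (by positivity)
  rw [Real.rpow_two]
  nlinarith

theorem log_le_lg {k : ℕ} (hk : 2 ≤ k) : Real.log k ≤ Real.log ((k : ℝ) + 1) := by
  have hk0 : (0 : ℝ) < k := by exact_mod_cast (by omega : 0 < k)
  exact Real.log_le_log hk0 (by linarith)

theorem log_k_nonneg {k : ℕ} (hk : 2 ≤ k) : 0 ≤ Real.log (k : ℝ) :=
  Real.log_nonneg (by exact_mod_cast (by omega : 1 ≤ k))

theorem div_log_le {x : ℝ} (hx : 0 ≤ x) : x / Real.log (10 / 9) ≤ 10 * x := by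
  have h := log_ten_ninth
  rw [div_le_iff₀ (by linarith)]
  nlinarith

theorem const_le (P : Par) (hCG : P.CG = 2) : 3 * P.A + 2 * P.A' + 41 * P.CG ≤ 700 := by
  unfold Par.A' Par.Q Par.A
  rw [hCG]
  norm_num

theorem Q_eq (P : Par) (hCG : P.CG = 2) : P.Q = 82 := by
  unfold Par.Q Par.A
  rw [hCG]
  norm_num

/-- Arithmetic of the potential bound. -/
theorem pr_bound {P : Par} (hCG : P.CG = 2) {k : ℕ} (hk : 2 ≤ k) {pr D opt sp : ℝ}
    (hD : 0 ≤ D) (hopt : 0 ≤ opt)
    (h : pr ≤ sp * (k * ((8 * P.CG + P.Q) * P.W)) + (3 * P.A + 2 * P.A' + 41 * P.CG) * D +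
      8 * (1 + Real.log (2 * k) / Real.log (10 / 9)) * opt) :
    pr ≤ sp * (k * (98 * P.W)) + 700 * D + 168 * (Real.log (k + 1) * opt) := by
  have h1 := const_le P hCG
  have h2 := Q_eq P hCG
  have h3 := one_le_log hk
  have h4 := log_two_mul_le hk
  have hk0 : (1 : ℝ) ≤ k := by exact_mod_cast (by omega : 1 ≤ k)
  have h5 : 0 ≤ Real.log (2 * (k : ℝ)) := Real.log_nonneg (by linarith)
  have h6 := div_log_le h5
  rw [h2, hCG] at h
  have h7 : (3 * P.A + 2 * P.A' + 41 * 2) * D ≤ 700 * D := by
    rw [hCG] at h1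
    exact mul_le_mul_of_nonneg_right h1 hD
  have h8 : 8 * (1 + Real.log (2 * k) / Real.log (10 / 9)) * opt ≤
      168 * (Real.log (k + 1) * opt) := by
    have : 8 * (1 + Real.log (2 * k) / Real.log (10 / 9)) ≤ 168 * Real.log (k + 1) := by linarith
    calc _ ≤ 168 * Real.log (k + 1) * opt := mul_le_mul_of_nonneg_right this hopt
      _ = _ := by ring
  have h9 : sp * (k * ((8 * 2 + 82) * P.W)) = sp * (k * (98 * P.W)) := by ring
  linarith

theorem dbill_eq {Y Lab : Type*} [Fintype Y] [MetricSpace Y] [Fintype Lab] {k : ℕ} [NeZero k]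
    (P : Par) (Q : Prior Y k) (lab : List Y → Y → ℕ → Lab) (h : List Y) :
    C.dbill P Q lab h = dbill Q P lab h := rfl

theorem dk_nonneg {Lab : Type*} (P : Par) (u v : ℕ → Lab) : 0 ≤ dk P u v := by
  classical
  unfold dk
  apply sum_nonneg
  intro j _
  have hB : (0 : ℝ) < P.B := by linarith [P.hB]
  have : 0 ≤ P.w (j + 1) := by
    unfold Par.w
    have := P.hW
    positivity
  split_ifs
  · exact le_rfl
  · exact this

theorem dbill_nonneg {Y Lab : Type*} [Fintype Y] {k : ℕ} [NeZero k] (Q : Prior Y k) (P : Par)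
    (lab : List Y → Y → ℕ → Lab) (h : List Y) : 0 ≤ dbill Q P lab h := by
  unfold dbill
  apply add_nonneg
  · exact sum_nonneg fun x _ => mul_nonneg (Q.mm_nonneg _ _) (dk_nonneg _ _ _)
  · exact sum_nonneg fun i _ => mul_nonneg (Q.p_nonneg _) (dk_nonneg _ _ _)

theorem opt_nonneg {Y : Type u} [MetricSpace Y] {k : ℕ} [NeZero k] (Q : Prior Y k) :
    0 ≤ Q.opt :=
  sum_nonneg fun i _ => mul_nonneg (Q.p_nonneg i) (pathCost_nonneg _ _)

end Crest.Agent.R314.Fin
end

-- ▼ part R314/C7
section

/-!
R314, module C, dynamics part 3: persistence of the noise nodes, the `TreeSys` instance.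
-/

set_option autoImplicit false
set_option linter.unusedSectionVars false

namespace Crest.Agent.R314.C

open Finset Classical Crest.Agent.R314.Bay

section Up

variable {Y Lab : Type*} [Fintype Y] [MetricSpace Y] [Fintype Lab] {P : Par}

theorem up_length_lt (S : St Y Lab) {N : List Lab} (h : N ≠ []) : (up S N).length < N.length := by
  cases N with
  | nil => exact absurd rfl h
  | cons a N =>
    rw [up_cons, List.length_cons]
    split_ifs
    · have := (up_suffix S N).length_le
      omega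
    · omega

/-- `up` is the deepest charged strict ancestor. -/
theorem suffix_up (S : St Y Lab) {M N : List Lab} (h : M <:+ N) (hne : M ≠ N)
    (hM : M = [] ∨ (S M).kind ≠ Kind.sp) : M <:+ up S N := by
  induction N with
  | nil =>
    rw [List.suffix_nil] at h
    exact absurd h hne
  | cons a N ih =>
    rcases List.suffix_cons_iff.1 h with h | h
    · exact absurd h hne
    · rw [up_cons]
      split_ifs with hN
      · by_cases e : M = N
        · rcases hM with hM | hM
          · rw [hM]; exact List.nil_suffix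
          · rw [e] at hM; exact absurd hN hM
        · exact ih h e
      · exact h

theorem up_spec (S : St Y Lab) (N : List Lab) : up S N = [] ∨ (S (up S N)).kind ≠ Kind.sp := by
  induction N with
  | nil => exact Or.inl rfl
  | cons a N ih =>
    rw [up_cons]
    split_ifs with hN
    · exact ih
    · exact Or.inr hN

theorem up_mem (S : St Y Lab) {I : ℕ} {N : List Lab} (hN : N ∈ nodes Lab I) :
    up S N = [] ∨ (up S N ∈ nodes Lab I ∧ (S (up S N)).kind ≠ Kind.sp) := by
  rcases up_spec S N with h | h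
  · exact Or.inl h
  · by_cases h0 : up S N = []
    · exact Or.inl h0
    · exact Or.inr ⟨mem_nodes_of_suffix hN (up_suffix S N) h0, h⟩

/-- Two charged nodes with a common member and the same `up` are equal. -/
theorem chain_eq {S : St Y Lab} {lab : Y → ℕ → Lab} {x : Y} {N N' : List Lab} (h0 : N ≠ [])
    (h0' : N' ≠ []) (hx : Mem lab x N) (hx' : Mem lab x N') (hk : (S N).kind ≠ Kind.sp)
    (hk' : (S N').kind ≠ Kind.sp) (h : up S N = up S N') : N = N' := by
  have key : ∀ M M' : List Lab, M ≠ [] → M' ≠ [] → Mem lab x M → Mem lab x M' →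
      (S M).kind ≠ Kind.sp → up S M = up S M' → M.length ≤ M'.length → M = M' := by
    intro M M' hM0 _ hM hM' hkM hup hl
    by_contra hne
    have h1 := hM.suffix hM' hl
    have h2 := (suffix_up S h1 hne (Or.inr hkM)).length_le
    have h3 := up_length_lt S hM0
    rw [hup] at h3
    omega
  rcases le_total N.length N'.length with hl | hl
  · exact key N N' h0 h0' hx hx' hk h hl
  · exact (key N' N h0' h0 hx' hx hk' h.symm hl).symm

theorem Keep.anc {m : Y → ℝ} (hm : ∀ x, 0 ≤ m x) {lab lab' : Y → ℕ → Lab} {M N : List Lab}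
    (h : M <:+ N) (hN : Keep m lab lab' N) : Keep m lab lab' M := by
  obtain ⟨h1, z, hz, hz'⟩ := hN
  exact ⟨lt_of_lt_of_le h1 (mass_anc hm lab h), z, hz.anc h, hz'.anc h⟩

end Up

section Persist

variable {Y Lab : Type*} [Fintype Y] [MetricSpace Y] [Fintype Lab] {k : ℕ} [NeZero k]
  {P : Par} {Q : Prior Y k} {lab : List Y → Y → ℕ → Lab} (hex : UpdEx P Y Lab)
include hex

/-- A node which is old after the step `h` was there before. -/
theorem cur_back {h : List Y} (h0 : h ≠ []) {N : List Lab} (hN : N ∈ nodes Lab P.I)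
    (hb : (st P Q lab h N).birth ≤ 2 * (h.length - 1)) :
    Keep (Q.mp h.dropLast) (lab h.dropLast) (lab h) N ∧ Keep (Q.mm h) (lab h) (lab h) N ∧
    (st P Q lab h N).kind = (stm P Q lab h N).kind ∧
    (st P Q lab h N).birth = (stm P Q lab h N).birth ∧
    (stm P Q lab h N).kind = (st P Q lab h.dropLast N).kind ∧
    (stm P Q lab h N).birth = (st P Q lab h.dropLast N).birth ∧
    (st P Q lab h.dropLast N).trav +
      dist (st P Q lab h.dropLast N).ctr (st P Q lab h N).ctr ≤ (st P Q lab h N).trav ∧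
    up (st P Q lab h) N = up (st P Q lab h.dropLast) N := by
  have hpos : 0 < h.length := List.length_pos_iff.2 h0
  have hN0 : N ≠ [] := (mem_nodes.1 hN).1
  obtain ⟨a1, a2, a3, a4⟩ := (upd2 hex h0 (Q := Q) (lab := lab)).old hN (by omega)
  have a5 : (f3 P Q lab h (st P Q lab h.dropLast) N).birth ≠ 2 * h.length := by
    rw [← a2]; omega
  have k2 : Keep (Q.mm h) (lab h) (lab h) N := reinit_old hN0 a5
  have e2 : f3 P Q lab h (st P Q lab h.dropLast) N = stm P Q lab h N := reinit_keep k2
  have u2 : up (f3 P Q lab h (st P Q lab h.dropLast)) N = up (stm P Q lab h) N :=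
    reinit_up (fun M N hM hK => hK.anc (Q.mm_nonneg h) hM) k2
  rw [e2] at a1 a2 a3
  have hb2 : (stm P Q lab h N).birth ≤ 2 * (h.length - 1) := by rw [← a2]; exact hb
  obtain ⟨b1, b2, b3, b4⟩ := (upd1 hex h0 (Q := Q) (lab := lab)).old hN (by omega)
  have b5 : (f1 Q lab h (st P Q lab h.dropLast) N).birth ≠ 2 * h.length - 1 := by
    rw [← b2]; omega
  have k1 : Keep (Q.mp h.dropLast) (lab h.dropLast) (lab h) N := reinit_old hN0 b5
  have e1 : f1 Q lab h (st P Q lab h.dropLast) N = st P Q lab h.dropLast N := reinit_keep k1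
  have u1 : up (f1 Q lab h (st P Q lab h.dropLast)) N = up (st P Q lab h.dropLast) N :=
    reinit_up (fun M N hM hK => hK.anc (Q.mp_nonneg h.dropLast) hM) k1
  rw [e1] at b1 b2 b3
  refine ⟨k1, k2, a1, a2, b1, b2, ?_, ?_⟩
  · have := dist_triangle (st P Q lab h.dropLast N).ctr (stm P Q lab h N).ctr
      (st P Q lab h N).ctr
    linarith
  · rw [a4, u2, b4, u1]

/-- Persistence along prefixes. -/
theorem persist {h₁ : List Y} (l : List Y) {N : List Lab} (hN : N ∈ nodes Lab P.I)
    (hb : (st P Q lab (h₁ ++ l) N).birth ≤ 2 * h₁.length) :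
    (st P Q lab (h₁ ++ l) N).kind = (st P Q lab h₁ N).kind ∧
    (st P Q lab (h₁ ++ l) N).birth = (st P Q lab h₁ N).birth ∧
    up (st P Q lab (h₁ ++ l)) N = up (st P Q lab h₁) N := by
  induction l using List.reverseRecOn with
  | nil => simp
  | append_singleton l x ih =>
    have e : (h₁ ++ (l ++ [x])).dropLast = h₁ ++ l := by
      rw [← List.append_assoc]; simp
    have hl : (h₁ ++ (l ++ [x])).length = h₁.length + l.length + 1 := by simp; omega
    obtain ⟨_, _, a1, a2, a3, a4, _, a5⟩ := cur_back hex (Q := Q) (lab := lab)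
      (h := h₁ ++ (l ++ [x])) (by simp) hN (by omega)
    rw [e] at a3 a4 a5
    have hb' : (st P Q lab (h₁ ++ l) N).birth ≤ 2 * h₁.length := by
      rw [← a4, ← a2]; exact hb
    obtain ⟨b1, b2, b3⟩ := ih hb'
    exact ⟨by rw [a1, a3, b1], by rw [a2, a4, b2], by rw [a5, b3]⟩

theorem root_step {h : List Y} (h0 : h ≠ []) :
    (st P Q lab h.dropLast []).trav + dist (st P Q lab h.dropLast []).ctr (stm P Q lab h []).ctr +
      dist (stm P Q lab h []).ctr (st P Q lab h []).ctr = (st P Q lab h []).trav := by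
  have a := (upd2 hex h0 (Q := Q) (lab := lab)).trans.root.2.2
  have b := (upd1 hex h0 (Q := Q) (lab := lab)).trans.root.2.2
  have e2 : f3 P Q lab h (st P Q lab h.dropLast) [] = stm P Q lab h [] := reinit_nil
  have e1 : f1 Q lab h (st P Q lab h.dropLast) [] = st P Q lab h.dropLast [] := reinit_nil
  rw [e2] at a
  rw [e1] at b
  linarith

end Persist

end Crest.Agent.R314.C
end

-- ▼ part R314/C8
section

/-!
R314, module C, dynamics part 4: the `TreeSys` instance.
-/

set_option autoImplicit false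
set_option linter.unusedSectionVars false

namespace Crest.Agent.R314.C

open Finset Classical Crest.Agent.R314.Bay

section Sums

variable {Y Lab : Type*} [Fintype Y] [MetricSpace Y] [Fintype Lab] {P : Par} {T : ℕ}

theorem etaK_nonneg (κ : Kind) : 0 ≤ etaK κ := by
  cases κ with
  | sp => exact le_rfl
  | inf => exact le_rfl
  | fin c => exact (C2s.eta_pos c).le

theorem expK_nonneg (κ : Kind) : 0 ≤ expK κ := by
  cases κ with
  | sp => exact le_rfl
  | inf => exact le_rfl
  | fin c => exact (Real.exp_pos _).le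

theorem Cur.ext {S : St Y Lab} {v v' : VN P Lab T} (h : Cur S v) (h' : Cur S v')
    (e : v.1.1 = v'.1.1) : v = v' := by
  obtain ⟨⟨N, hN⟩, ⟨b, hb⟩, ⟨c, hc⟩⟩ := v
  obtain ⟨⟨N', hN'⟩, ⟨b', hb'⟩, ⟨c', hc'⟩⟩ := v'
  simp only at e
  subst e
  have h1 := h.1.symm.trans h'.1
  have h2 := h.2.symm.trans h'.2
  simp only [Kind.fin.injEq] at h1 h2
  subst h1
  subst h2
  rfl

/-- Sums over current noise nodes are sums over nodes. -/
theorem sum_cur_le {S : St Y Lab} {A : Finset (VN P Lab T)} (hA : ∀ v ∈ A, Cur S v)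
    {p : List Lab → Prop} (hp : ∀ v ∈ A, p v.1.1) {g : List Lab → ℝ} (hg : ∀ N, 0 ≤ g N) :
    ∑ v ∈ A, g v.1.1 ≤ ∑ N ∈ (nodes Lab P.I).filter p, g N := by
  have e : ∑ v ∈ A, g v.1.1 = ∑ N ∈ A.image (fun v => v.1.1), g N := by
    rw [sum_image]
    intro v hv v' hv' h
    exact (hA v hv).ext (hA v' hv') h
  rw [e]
  apply sum_le_sum_of_subset_of_nonneg
  · intro N hN
    rw [mem_image] at hN
    obtain ⟨v, hv, rfl⟩ := hN
    exact mem_filter.2 ⟨v.1.2, hp v hv⟩
  · intro N _ _
    exact hg N

/-- The current noise node of a region. -/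
theorem exists_cur {S : St Y Lab} {n : ℕ} (hi : Inv P n S) (hn : n ≤ 2 * T) {N : List Lab}
    (hN : N ∈ nodes Lab P.I) (h1 : (S N).kind ≠ Kind.sp) (h2 : (S N).kind ≠ Kind.inf) :
    ∃ v : VN P Lab T, v.1.1 = N ∧ Cur S v := by
  cases hk : (S N).kind with
  | sp => exact absurd hk h1
  | inf => exact absurd hk h2
  | fin c =>
    have h3 := hi.kinds N hN
    rw [hk] at h3
    have h4 : c ≤ P.cm := h3
    have h5 := hi.birth N
    exact ⟨⟨⟨N, hN⟩, ⟨(S N).birth, by omega⟩, ⟨c, by omega⟩⟩, rfl, hk, rfl⟩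

end Sums

section Static

variable {Y Lab : Type*} [Fintype Y] [MetricSpace Y] [Fintype Lab] {P : Par}
  {m : Y → ℝ} {lab : Y → ℕ → Lab} {S : St Y Lab}
  (hs : Stuck P S m lab) (hm : ∀ x, 0 ≤ m x) (hv : Valid P lab)
  (hk : ∀ N ∈ nodes Lab P.I, P.ok (S N).kind) (ht : ∀ N, 0 ≤ (S N).trav)
include hs hm hv hk ht

theorem a10 {T : ℝ} (hT : 0 < T) (x : Y) :
    (((nodes Lab P.I).filter (fun N => Mem lab x N ∧ (S N).kind ≠ Kind.sp ∧
      T ≤ mass m lab N)).card : ℝ) * Real.log (10 / 9) ≤
        max 0 (Real.log (mass m lab [] / T)) :=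
  s10_of hm (fun _ hN h => s2 hs hm hv hk ht hN h) hT x

theorem a11 {x : Y} (hx : 0 < m x) :
    ∑ N ∈ (nodes Lab P.I).filter (fun N => Mem lab x N),
      etaK (S N).kind ≤ 200 * Real.log (mass m lab [] / m x) :=
  s11_of hm (fun _ hN h => s2 hs hm hv hk ht hN h)
    (fun _ hN _ h => s3 hs hm hv hk ht hN h) hx

theorem a12 {U : List Lab} (h0 : 0 < mass m lab U) :
    ∑ N ∈ (nodes Lab P.I).filter (fun N => up S N = U), expK (S N).kind ≤ 1 :=
  C2p.s12_core hm (fun _ hN _ h => s4 hs hm hv hk ht hN h) h0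

theorem a13 {x : Y} (hx : 0 < m x) {U : List Lab}
    (hU : U = [] ∨ (U ∈ nodes Lab P.I ∧ (S U).kind ≠ Kind.sp)) (hxU : Mem lab x U) :
    dist x (S U).ctr ≤ 8 * P.CG * P.B *
      ∑ N ∈ (nodes Lab P.I).filter (fun N => Mem lab x N ∧ U.length < N.length ∧
        (S N).kind ≠ Kind.sp), P.w N.length :=
  C2p.s13_core hm hv (fun _ hN h => s1 hs hm hv hk ht hN h)
    (fun _ hN h h0 _ hx => s7 hs hm hv hk ht hN h h0 hx)
    (fun _ _ hU hH h0 h34 _ hD _ hx => s8 hs hm hv hk ht hU hH h0 h34 hD hx) hx hU hxU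

/-- With `cm ≥ log (mass [] / m x)` no node containing `x` has kind `inf`. -/
theorem not_inf {x : Y} (hx : 0 < m x) {k : ℕ} (hk1 : k ≤ P.cm)
    (hmass : mass m lab [] ≤ k * m x) {N : List Lab} (hN : N ∈ nodes Lab P.I)
    (hxN : Mem lab x N) : (S N).kind ≠ Kind.inf := by
  intro h
  have h1 := s5 hs hm hv hk ht hN h
  have h2 : mass m lab (up S N) ≤ mass m lab [] := mass_anc hm lab List.nil_suffix
  have h3 := le_mass hm hxN
  have h4 : Real.exp (-eta P.cm / 4) * (k : ℝ) < 1 := by
    have e1 : (k : ℝ) < Real.exp (eta P.cm / 4) := by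
      have h5 : (k : ℝ) ≤ P.cm := by exact_mod_cast hk1
      have h6 : (P.cm : ℝ) < 2 ^ P.cm := by exact_mod_cast Nat.lt_two_pow_self
      have h7 : (2 : ℝ) ^ P.cm ≤ eta P.cm / 4 := by
        unfold eta
        have : (0 : ℝ) ≤ 2 ^ P.cm := by positivity
        linarith
      have h8 := Real.add_one_le_exp (eta P.cm / 4)
      linarith
    have e2 : Real.exp (-eta P.cm / 4) = (Real.exp (eta P.cm / 4))⁻¹ := by
      rw [← Real.exp_neg]; congr 1; ring
    rw [e2, inv_mul_lt_iff₀ (Real.exp_pos _), mul_one]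
    exact e1
  have h5 : 0 < Real.exp (-eta P.cm / 4) := Real.exp_pos _
  have h6 : mass m lab N ≤ Real.exp (-eta P.cm / 4) * (k * m x) :=
    h1.trans (mul_le_mul_of_nonneg_left (h2.trans hmass) h5.le)
  have h7 : Real.exp (-eta P.cm / 4) * (k * m x) < m x := by
    calc _ = (Real.exp (-eta P.cm / 4) * k) * m x := by ring
      _ < 1 * m x := mul_lt_mul_of_pos_right h4 hx
      _ = m x := one_mul _
  linarith

/-- (H2), static form. -/
theorem sum_expK_le {x : Y} (hx : 0 < m x) {k : ℕ} (hk0 : 1 ≤ k)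
    (hmass : mass m lab [] ≤ k * m x) :
    ∑ N ∈ (nodes Lab P.I).filter (fun N => Mem lab x (up S N)), expK (S N).kind ≤
      1 + 10 * Real.log k := by
  -- possible parents
  set A : Finset (List Lab) := insert [] ((nodes Lab P.I).filter (fun N => Mem lab x N ∧
    (S N).kind ≠ Kind.sp ∧ m x ≤ mass m lab N)) with hA
  have h1 : ∑ N ∈ (nodes Lab P.I).filter (fun N => Mem lab x (up S N)), expK (S N).kind ≤
      ∑ U ∈ A, ∑ N ∈ (nodes Lab P.I).filter (fun N => up S N = U), expK (S N).kind := by
    have h2 : ∑ N ∈ (nodes Lab P.I).filter (fun N => Mem lab x (up S N)), expK (S N).kind ≤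
        ∑ N ∈ (nodes Lab P.I).filter (fun N => up S N ∈ A), expK (S N).kind := by
      apply sum_le_sum_of_subset_of_nonneg
      · intro N hN
        rw [mem_filter] at hN ⊢
        refine ⟨hN.1, ?_⟩
        rw [hA, mem_insert]
        rcases up_mem S hN.1 with h | h
        · exact Or.inl h
        · exact Or.inr (mem_filter.2 ⟨h.1, hN.2, h.2, le_mass hm hN.2⟩)
      · intro N _ _
        exact expK_nonneg _
    refine h2.trans (le_of_eq ?_)
    rw [← sum_fiberwise_of_maps_to (s := (nodes Lab P.I).filter (fun N => up S N ∈ A)) (t := A)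
      (g := fun N => up S N) (fun N hN => (mem_filter.1 hN).2)]
    apply sum_congr rfl
    intro U hU
    apply sum_congr _ (fun _ _ => rfl)
    ext N
    simp only [mem_filter]
    constructor
    · rintro ⟨⟨a, _⟩, b⟩
      exact ⟨a, b⟩
    · rintro ⟨a, b⟩
      exact ⟨⟨a, by rw [b]; exact hU⟩, b⟩
  have h3 : ∀ U ∈ A, ∑ N ∈ (nodes Lab P.I).filter (fun N => up S N = U), expK (S N).kind ≤ 1 := by
    intro U hU
    apply a12 hs hm hv hk ht
    rw [hA, mem_insert] at hU
    rcases hU with rfl | hU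
    · exact lt_of_lt_of_le hx (le_mass hm (mem_nil lab x))
    · exact lt_of_lt_of_le hx (mem_filter.1 hU).2.2.2
  have h4 : ∑ U ∈ A, ∑ N ∈ (nodes Lab P.I).filter (fun N => up S N = U), expK (S N).kind ≤
      (A.card : ℝ) := by
    calc _ ≤ ∑ U ∈ A, (1 : ℝ) := sum_le_sum h3
      _ = _ := by simp
  have h5 : (A.card : ℝ) ≤ 1 + ((nodes Lab P.I).filter (fun N => Mem lab x N ∧
    (S N).kind ≠ Kind.sp ∧ m x ≤ mass m lab N)).card := by
    have := card_insert_le ([] : List Lab) ((nodes Lab P.I).filter (fun N => Mem lab x N ∧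
      (S N).kind ≠ Kind.sp ∧ m x ≤ mass m lab N))
    have h6 : ((A.card : ℕ) : ℝ) ≤ ((((nodes Lab P.I).filter (fun N => Mem lab x N ∧
      (S N).kind ≠ Kind.sp ∧ m x ≤ mass m lab N)).card + 1 : ℕ) : ℝ) := by
      exact_mod_cast this
    push_cast at h6
    linarith
  have h6 := a10 hs hm hv hk ht hx x
  have h7 : Real.log (mass m lab [] / m x) ≤ Real.log k := by
    apply Real.log_le_log
    · exact div_pos (lt_of_lt_of_le hx (le_mass hm (mem_nil lab x))) hx
    · rw [div_le_iff₀ hx]; exact hmass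
  have h8 : 0 ≤ Real.log k := Real.log_nonneg (by exact_mod_cast hk0)
  have h9 : max 0 (Real.log (mass m lab [] / m x)) ≤ Real.log k := max_le h8 h7
  have h10 := log_ten_ninths_ge
  have h11 : (((nodes Lab P.I).filter (fun N => Mem lab x N ∧
    (S N).kind ≠ Kind.sp ∧ m x ≤ mass m lab N)).card : ℝ) ≤ 10 * Real.log k := by
    have h12 : (0 : ℝ) ≤ (((nodes Lab P.I).filter (fun N => Mem lab x N ∧
      (S N).kind ≠ Kind.sp ∧ m x ≤ mass m lab N)).card : ℝ) := Nat.cast_nonneg _
    have h13 := mul_le_mul_of_nonneg_left h10 h12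
    linarith
  linarith

end Static

end Crest.Agent.R314.C
end

-- ▼ part R314/C9
section

/-!
R314, module C, dynamics part 5: the `TreeSys` instance.
-/

set_option autoImplicit false
set_option linter.unusedSectionVars false

namespace Crest.Agent.R314.C

open Finset Classical Crest.Agent.R314.Bay

section Inst

variable {Y Lab : Type*} [Fintype Y] [MetricSpace Y] [Fintype Lab] {k : ℕ} [NeZero k]

/-- Histories of positive probability. -/
def Good (Q : Prior Y k) (h : List Y) : Prop := (Q.I h).Nonempty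

theorem Good.back {Q : Prior Y k} {h l : List Y} (hG : Good Q (h ++ l)) : Good Q h := by
  obtain ⟨i, hi⟩ := hG
  exact ⟨i, Q.I_mono (List.prefix_append h l) hi⟩

theorem Good.P_pos {Q : Prior Y k} (hp : ∀ i, 0 < Q.p i) {h : List Y} (hG : Good Q h) :
    0 < Q.P h := by
  obtain ⟨i, h1⟩ := hG
  exact lt_of_lt_of_le (hp i) (single_le_sum (fun j _ => Q.p_nonneg j) h1)

theorem Good.length_le {Q : Prior Y k} {T : ℕ} (hT : ∀ i, (Q.req i).length ≤ T) {h : List Y}
    (hG : Good Q h) : h.length ≤ T := by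
  obtain ⟨i, hi⟩ := hG
  exact (Q.mem_I.1 hi).length_le.trans (hT i)

variable {P : Par} {Q : Prior Y k} {lab : List Y → Y → ℕ → Lab} {T : ℕ}

theorem mass_root (h : List Y) : mass (Q.mp h) (lab h) [] = k * Q.P h := by
  rw [mass_nil, Q.sum_mp_one]

theorem mp_last_pos (hp : ∀ i, 0 < Q.p i) {h : List Y} {x : Y} (hG : Good Q (h ++ [x])) :
    0 < Q.mp (h ++ [x]) x ∧ mass (Q.mp (h ++ [x])) (lab (h ++ [x])) [] ≤ k * Q.mp (h ++ [x]) x := by
  have h1 := Q.P_le_mp (h := h ++ [x]) (by simp)
  have h2 : (h ++ [x]).getLast (by simp) = x := by simp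
  rw [h2] at h1
  refine ⟨lt_of_lt_of_le (hG.P_pos hp) h1, ?_⟩
  rw [mass_root]
  exact mul_le_mul_of_nonneg_left h1 (Nat.cast_nonneg k)

theorem mem_live {h : List Y} {v : VN P Lab T} (h0 : h ≠ []) :
    v ∈ live P T Q lab h ↔ Cur (st P Q lab h) v ∧ 0 < mass (Q.mp h) (lab h) v.1.1 := by
  unfold live liveS
  rw [if_neg h0, mem_filter]
  simp

theorem mem_live' {h : List Y} {v : VN P Lab T} (hv : v ∈ live P T Q lab h) :
    h ≠ [] ∧ Cur (st P Q lab h) v ∧ 0 < mass (Q.mp h) (lab h) v.1.1 := by
  by_cases h0 : h = []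
  · subst h0
    unfold live at hv
    simp at hv
  · exact ⟨h0, (mem_live h0).1 hv⟩

theorem mem_pt {h : List Y} {z : Y} {v : VN P Lab T} :
    v ∈ pt P T Q lab h z ↔ v ∈ live P T Q lab h ∧ Mem (lab h) z v.1.1 := by
  unfold pt live ptS
  split_ifs with h0
  · simp
  · rw [mem_filter]

theorem vw_lt {v u : VN P Lab T} (h : u.1.1.length < v.1.1.length) : vw v < vw u := by
  have h1 := C2p.w_lt_le P h
  have h2 := C2p.w_pos P v.1.1.length
  unfold vw
  linarith

variable (hex : UpdEx P Y Lab) (hval : ∀ h, Valid P (lab h)) (hp : ∀ i, 0 < Q.p i)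
  (hT : ∀ i, (Q.req i).length ≤ T) (hcm : k ≤ P.cm)

section
include hex

theorem birth_le {h : List Y} {v : VN P Lab T} (hv : v ∈ live P T Q lab h) :
    v.2.1.1 ≤ 2 * h.length := by
  obtain ⟨_, h1, _⟩ := mem_live' hv
  rw [← h1.2]
  exact (inv_st hex h).birth _

theorem live_back' {h : List Y} {x : Y} {v : VN P Lab T} (hv : v ∈ live P T Q lab (h ++ [x]))
    (hb : v.2.1.1 ≤ 2 * h.length) (h0 : h ≠ []) : v ∈ live P T Q lab h := by
  obtain ⟨_, h1, _⟩ := mem_live' hv
  have e : (h ++ [x]).dropLast = h := by simp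
  have hl : (h ++ [x]).length - 1 = h.length := by simp
  obtain ⟨a1, _, a3, a4, a5, a6, _, _⟩ := cur_back hex (Q := Q) (lab := lab) (h := h ++ [x])
    (by simp) v.1.2 (by rw [hl, h1.2]; exact hb)
  rw [e] at a1 a5 a6
  rw [mem_live h0]
  refine ⟨⟨?_, ?_⟩, a1.1⟩
  · rw [← a5, ← a3]; exact h1.1
  · rw [← a6, ← a4]; exact h1.2

end

include hex hval hp hT hcm

theorem instH1 {h : List Y} {x : Y} (hG : Good Q (h ++ [x])) :
    ∑ v ∈ pt P T Q lab (h ++ [x]) x, vη v ≤ 200 * Real.log k := by
  obtain ⟨h1, h2⟩ := mp_last_pos (lab := lab) hp hG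
  have h3 := a11 (stuck_st hex (h ++ [x])) (Q.mp_nonneg _) (hval _) (inv_st hex (h ++ [x])).kinds
    (inv_st hex (h ++ [x])).trav h1
  have h4 : ∑ v ∈ pt P T Q lab (h ++ [x]) x, vη v =
      ∑ v ∈ pt P T Q lab (h ++ [x]) x, etaK (st P Q lab (h ++ [x]) v.1.1).kind := by
    apply sum_congr rfl
    intro v hv
    rw [(mem_live' (mem_pt.1 hv).1).2.1.1]
    rfl
  rw [h4]
  refine (sum_cur_le (fun v hv => (mem_live' (mem_pt.1 hv).1).2.1)
    (p := fun N => Mem (lab (h ++ [x])) x N) (fun v hv => (mem_pt.1 hv).2)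
    (g := fun N => etaK (st P Q lab (h ++ [x]) N).kind) (fun N => etaK_nonneg _)).trans ?_
  refine h3.trans ?_
  apply mul_le_mul_of_nonneg_left _ (by norm_num)
  apply Real.log_le_log
  · exact div_pos (lt_of_lt_of_le h1 (le_mass (Q.mp_nonneg _) (mem_nil _ _))) h1
  · rw [div_le_iff₀ h1]; exact h2

theorem instH2 {h : List Y} {x : Y} (hG : Good Q (h ++ [x])) :
    ∑ v ∈ (live P T Q lab (h ++ [x])).filter
      (fun v => Mem (lab (h ++ [x])) x (up (st P Q lab (h ++ [x])) v.1.1)),
      Real.exp (-vη v / 2) ≤ 1 + 10 * Real.log k := by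
  obtain ⟨h1, h2⟩ := mp_last_pos (lab := lab) hp hG
  have h3 := sum_expK_le (stuck_st hex (h ++ [x])) (Q.mp_nonneg _) (hval _)
    (inv_st hex (h ++ [x])).kinds (inv_st hex (h ++ [x])).trav h1
    (Nat.one_le_iff_ne_zero.2 (NeZero.ne k)) h2
  refine le_trans ?_ h3
  have h4 : ∑ v ∈ (live P T Q lab (h ++ [x])).filter
      (fun v => Mem (lab (h ++ [x])) x (up (st P Q lab (h ++ [x])) v.1.1)),
      Real.exp (-vη v / 2) = ∑ v ∈ (live P T Q lab (h ++ [x])).filter
      (fun v => Mem (lab (h ++ [x])) x (up (st P Q lab (h ++ [x])) v.1.1)),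
      expK (st P Q lab (h ++ [x]) v.1.1).kind := by
    apply sum_congr rfl
    intro v hv
    rw [(mem_live' (mem_filter.1 hv).1).2.1.1]
    rfl
  rw [h4]
  exact sum_cur_le (fun v hv => (mem_live' (mem_filter.1 hv).1).2.1)
    (p := fun N => Mem (lab (h ++ [x])) x (up (st P Q lab (h ++ [x])) N))
    (fun v hv => (mem_filter.1 hv).2)
    (g := fun N => expK (st P Q lab (h ++ [x]) N).kind) (fun N => expK_nonneg _)

/-- A charged region of the chain of the last request is a noise node. -/
theorem exists_pt {h : List Y} {x : Y} (hG : Good Q (h ++ [x])) {N : List Lab}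
    (hN : N ∈ nodes Lab P.I) (hx : Mem (lab (h ++ [x])) x N)
    (hkN : (st P Q lab (h ++ [x]) N).kind ≠ Kind.sp) :
    ∃ u ∈ pt P T Q lab (h ++ [x]) x, u.1.1 = N := by
  obtain ⟨h1, h2⟩ := mp_last_pos (lab := lab) hp hG
  have h3 := not_inf (stuck_st hex (h ++ [x])) (Q.mp_nonneg _) (hval _)
    (inv_st hex (h ++ [x])).kinds (inv_st hex (h ++ [x])).trav h1 hcm h2 hN hx
  obtain ⟨u, hu, hc⟩ := exists_cur (T := T) (inv_st hex (h ++ [x]))
    (by have := hG.length_le hT; omega) hN hkN h3
  refine ⟨u, ?_, hu⟩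
  rw [mem_pt, mem_live (by simp), hu]
  exact ⟨⟨hc, lt_of_lt_of_le h1 (le_mass (Q.mp_nonneg _) hx)⟩, hx⟩

theorem instH3 {h₁ h₂ : List Y} {x₁ x₂ : Y} (hpre : h₁ ++ [x₁] <+: h₂) (hG : Good Q (h₂ ++ [x₂])) :
    ∑ v ∈ (pt P T Q lab (h₁ ++ [x₁]) x₁ ∩ live P T Q lab (h₂ ++ [x₂])).filter
      (fun v => ¬ Mem (lab (h₂ ++ [x₂])) x₂ (up (st P Q lab (h₂ ++ [x₂])) v.1.1)), vw v ≤
      1 / 8 * ∑ v ∈ pt P T Q lab (h₁ ++ [x₁]) x₁ \ pt P T Q lab (h₂ ++ [x₂]) x₂, vw v := by
  obtain ⟨l, rfl⟩ := hpre
  have hG1 : Good Q (h₁ ++ [x₁]) := by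
    rw [List.append_assoc] at hG
    exact hG.back
  set H1 := h₁ ++ [x₁] with hH1
  set D := (pt P T Q lab H1 x₁ ∩ live P T Q lab (H1 ++ l ++ [x₂])).filter
      (fun v => ¬ Mem (lab (H1 ++ l ++ [x₂])) x₂ (up (st P Q lab (H1 ++ l ++ [x₂])) v.1.1)) with hD
  have key : ∀ v ∈ D, ∃ u, u ∈ pt P T Q lab H1 x₁ \ pt P T Q lab (H1 ++ l ++ [x₂]) x₂ ∧
      8 * vw v ≤ vw u ∧ u.1.1 = up (st P Q lab H1) v.1.1 := by
    intro v hv
    rw [hD, mem_filter, mem_inter] at hv
    obtain ⟨⟨hv1, hv2⟩, hv3⟩ := hv
    obtain ⟨hv4, hv5⟩ := mem_pt.1 hv1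
    obtain ⟨_, hc1, _⟩ := mem_live' hv4
    obtain ⟨_, hc2, _⟩ := mem_live' hv2
    have hb : (st P Q lab (H1 ++ (l ++ [x₂])) v.1.1).birth ≤ 2 * H1.length := by
      rw [← List.append_assoc, hc2.2, ← hc1.2]
      exact (inv_st hex H1).birth _
    obtain ⟨_, _, hup⟩ := persist hex (Q := Q) (lab := lab) (l ++ [x₂]) v.1.2 hb
    rw [← List.append_assoc] at hup
    rw [hup] at hv3
    rcases up_mem (st P Q lab H1) v.1.2 with hU | hU
    · rw [hU] at hv3
      exact absurd (mem_nil _ _) hv3
    · obtain ⟨u, hu, huU⟩ := exists_pt hex hval hp hT hcm hG1 hU.1 (hv5.anc (up_suffix _ _)) hU.2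
      refine ⟨u, ?_, ?_, huU⟩
      · rw [mem_sdiff]
        refine ⟨hu, fun hu2 => ?_⟩
        have := (mem_pt.1 hu2).2
        rw [huU] at this
        exact hv3 this
      · have h1 : u.1.1.length < v.1.1.length := by
          rw [huU]
          exact up_length_lt _ (mem_nodes.1 v.1.2).1
        have h2 := C2p.w_lt_le P h1
        have h3 := C2p.w_pos P v.1.1.length
        unfold vw
        linarith
  apply Asm.sum_par_le (fun v => (C2p.w_pos P _).le) D _
    (fun v => if h : ∃ u, u ∈ pt P T Q lab H1 x₁ \ pt P T Q lab (H1 ++ l ++ [x₂]) x₂ ∧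
      8 * vw v ≤ vw u ∧ u.1.1 = up (st P Q lab H1) v.1.1 then h.choose else v)
  · intro v hv
    rw [dif_pos (key v hv)]
    exact (key v hv).choose_spec.1
  · intro v hv
    rw [dif_pos (key v hv)]
    exact (key v hv).choose_spec.2.1
  · intro v hv v' hv' he
    rw [dif_pos (key v hv), dif_pos (key v' hv')] at he
    have e1 := (key v hv).choose_spec.2.2
    have e2 := (key v' hv').choose_spec.2.2
    rw [he, e2] at e1
    rw [hD, mem_filter, mem_inter] at hv hv'
    obtain ⟨hv4, hv5⟩ := mem_pt.1 hv.1.1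
    obtain ⟨_, hc1, _⟩ := mem_live' hv4
    obtain ⟨hv4', hv5'⟩ := mem_pt.1 hv'.1.1
    obtain ⟨_, hc1', _⟩ := mem_live' hv4'
    apply hc1.ext hc1'
    apply chain_eq (mem_nodes.1 v.1.2).1 (mem_nodes.1 v'.1.2).1 hv5 hv5' _ _ e1.symm
    · rw [hc1.1]; simp
    · rw [hc1'.1]; simp

theorem instProx {h : List Y} {x : Y} (hG : Good Q (h ++ [x])) {U : List Lab}
    (hU : U = [] ∨ (U ∈ nodes Lab P.I ∧ (st P Q lab (h ++ [x]) U).kind ≠ Kind.sp))
    (hxU : Mem (lab (h ++ [x])) x U) {p : VN P Lab T → Prop}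
    (hpB : ∀ v : VN P Lab T, U.length < v.1.1.length → p v) :
    dist x (st P Q lab (h ++ [x]) U).ctr ≤
      8 * P.CG * P.B * ∑ v ∈ (pt P T Q lab (h ++ [x]) x).filter p, vw v := by
  obtain ⟨h1, h2⟩ := mp_last_pos (lab := lab) hp hG
  have h3 := a13 (stuck_st hex (h ++ [x])) (Q.mp_nonneg _) (hval _)
    (inv_st hex (h ++ [x])).kinds (inv_st hex (h ++ [x])).trav h1 hU hxU
  refine h3.trans ?_
  have hc : 0 ≤ 8 * P.CG * P.B :=
    mul_nonneg (mul_nonneg (by norm_num) (le_trans zero_le_one P.hCG)) (C2p.B_pos P).le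
  apply mul_le_mul_of_nonneg_left _ hc
  have e : ∑ v ∈ (pt P T Q lab (h ++ [x]) x).filter p, vw v =
      ∑ N ∈ ((pt P T Q lab (h ++ [x]) x).filter p).image (fun v => v.1.1), P.w N.length := by
    rw [sum_image]
    · rfl
    · intro v hv v' hv' he
      exact (mem_live' (mem_pt.1 (mem_filter.1 hv).1).1).2.1.ext
        (mem_live' (mem_pt.1 (mem_filter.1 hv').1).1).2.1 he
  rw [e]
  apply sum_le_sum_of_subset_of_nonneg
  · intro N hN
    rw [mem_filter] at hN
    obtain ⟨hN1, hN2, hN3, hN4⟩ := hN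
    obtain ⟨u, hu, huN⟩ := exists_pt hex hval hp hT hcm hG hN1 hN2 hN4
    rw [mem_image]
    exact ⟨u, mem_filter.2 ⟨hu, hpB u (by rw [huN]; exact hN3)⟩, huN⟩
  · intro N _ _
    exact (C2p.w_pos P _).le

/-- **The `TreeSys` of module C.** -/
noncomputable def treeSys : Asm.TreeSys Y (VN P Lab T) (Good Q) where
  w := vw
  w_pos := fun v => C2p.w_pos P _
  η := vη
  η_ge := fun v => by
    unfold vη eta
    have : (1 : ℝ) ≤ 2 ^ v.2.2.1 := one_le_pow₀ (by norm_num)
    linarith
  birth := vb
  live := live P T Q lab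
  pt := pt P T Q lab
  pt_nil := fun z => by unfold pt; simp
  pt_live := fun h _ z v hv => (mem_pt.1 hv).1
  birth_lt := fun h _ v hv => by
    have h0 := (mem_live' hv).1
    have hpos : 0 < h.length := List.length_pos_iff.2 h0
    have h1 := birth_le hex hv
    unfold vb
    omega
  live_back := fun h x _ v hv hb => by
    have h0 : h ≠ [] := by
      rintro rfl
      exact absurd hb (Nat.not_lt_zero _)
    refine live_back' hex hv ?_ h0
    unfold vb at hb
    omega
  In := fun h v => Mem (lab h) (h.getLastD (Q.s 0)) (up (st P Q lab h) v.1.1)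
  In_of_mem := fun h x _ v hv => by
    have : (h ++ [x]).getLastD (Q.s 0) = x := by simp
    rw [this]
    exact (mem_pt.1 hv).2.anc (up_suffix _ _)
  Lam := 200 * Real.log k
  H1 := fun h x hG => instH1 hex hval hp hT hcm hG
  β := 1 + 10 * Real.log k
  H2 := fun h x hG => by
    have e : (h ++ [x]).getLastD (Q.s 0) = x := by simp
    have := instH2 hex hval hp hT hcm hG (P := P) (lab := lab)
    simp only [e]
    convert this using 2
  H3 := fun h₁ x₁ h₂ x₂ hpre hG => by
    have e : (h₂ ++ [x₂]).getLastD (Q.s 0) = x₂ := by simp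
    have := instH3 hex hval hp hT hcm hpre hG (P := P) (lab := lab)
    simp only [e]
    convert this using 2
  ctr := fun h o => match o with
    | none => (st P Q lab h []).ctr
    | some v => (st P Q lab h v.1.1).ctr
  trav := fun h o => match o with
    | none => (st P Q lab h []).trav
    | some v => (st P Q lab h v.1.1).trav
  CT := 3 / 64
  CT_nonneg := by norm_num
  trav_nonneg := fun h o => by
    cases o with
    | none => exact (inv_st hex h).trav _
    | some v => exact (inv_st hex h).trav _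
  trav_le := fun h _ v hv => by
    obtain ⟨_, hc, hm⟩ := mem_live' hv
    exact s6 (stuck_st hex h) (Q.mp_nonneg _) (hval _) (inv_st hex h).kinds (inv_st hex h).trav
      v.1.2 (by rw [hc.1]; simp) hm
  trav_step := fun h x _ v hv hv' => by
    have hb := birth_le hex hv
    obtain ⟨_, hc', _⟩ := mem_live' hv'
    have e : (h ++ [x]).dropLast = h := by simp
    have hl : (h ++ [x]).length - 1 = h.length := by simp
    obtain ⟨_, _, _, _, _, _, h7, _⟩ := cur_back hex (Q := Q) (lab := lab) (h := h ++ [x])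
      (by simp) v.1.2 (by rw [hl, hc'.2]; exact hb)
    rw [e] at h7
    simp only
    linarith
  trav_root := fun h x _ => by
    have e : (h ++ [x]).dropLast = h := by simp
    have h1 := root_step hex (Q := Q) (lab := lab) (h := h ++ [x]) (by simp)
    rw [e] at h1
    have h2 := dist_triangle (st P Q lab h []).ctr (stm P Q lab (h ++ [x]) []).ctr
      (st P Q lab (h ++ [x]) []).ctr
    simp only
    linarith
  CP := 8 * P.CG * P.B
  CP_nonneg := mul_nonneg (mul_nonneg (by norm_num) (le_trans zero_le_one P.hCG)) (C2p.B_pos P).le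
  prox := fun h x hG o ho => by
    cases o with
    | none =>
      have := instProx hex hval hp hT hcm hG (U := []) (Or.inl rfl) (mem_nil _ _)
        (p := fun v => Asm.Below vw none v) (fun v _ u hu => by simp at hu)
      convert this using 4
    | some u =>
      have hu := ho u rfl
      obtain ⟨h1, h2⟩ := mem_pt.1 hu
      obtain ⟨_, hc, _⟩ := mem_live' h1
      have := instProx hex hval hp hT hcm hG (U := u.1.1)
        (Or.inr ⟨u.1.2, by rw [hc.1]; simp⟩) h2
        (p := fun v => Asm.Below vw (some u) v) (fun v hv u' hu' => by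
          rw [Option.some.injEq] at hu'
          subst hu'
          exact vw_lt hv)
      convert this using 4

end Inst

end Crest.Agent.R314.C
end

-- ▼ part R314/C7b
section

/-!
R314, module C, block C7b (helper555's #9116): the price of one comparator server in one step.
-/

set_option autoImplicit false
set_option linter.unusedSectionVars false

namespace Crest.Agent.R314.C

open Finset Classical Crest.Agent.R314.Bay

namespace C7

section

variable {Y Lab : Type*} [Fintype Y] [MetricSpace Y] [Fintype Lab] {P : Par} {T : ℕ}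

theorem cur_inj {S : St Y Lab} {v v' : VN P Lab T} (h : Cur S v) (h' : Cur S v')
    (e : v.1.1 = v'.1.1) : v = v' := by
  obtain ⟨h1, h2⟩ := h
  obtain ⟨h1', h2'⟩ := h'
  rw [e] at h1 h2
  have e1 : v.2.2.1 = v'.2.2.1 := by
    have := h1.symm.trans h1'
    exact Kind.fin.inj this
  have e2 : v.2.1.1 = v'.2.1.1 := h2.symm.trans h2'
  refine Prod.ext (Subtype.ext e) (Prod.ext (Fin.ext e2) (Fin.ext e1))

/-- A sum over current nodes is at most a sum over regions. -/
theorem sum_cur_le {S : St Y Lab} (A : Finset (VN P Lab T)) (hA : ∀ v ∈ A, Cur S v)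
    (f : VN P Lab T → ℝ) (g : List Lab → ℝ) (hfg : ∀ v ∈ A, f v ≤ g v.1.1)
    (hg : ∀ N ∈ nodes Lab P.I, 0 ≤ g N) :
    ∑ v ∈ A, f v ≤ ∑ N ∈ nodes Lab P.I, g N := by
  calc ∑ v ∈ A, f v ≤ ∑ v ∈ A, g v.1.1 := sum_le_sum hfg
    _ = ∑ N ∈ A.image (fun v => v.1.1), g N := by
        rw [sum_image]
        intro v hv v' hv' e
        exact cur_inj (hA v hv) (hA v' hv') e
    _ ≤ ∑ N ∈ nodes Lab P.I, g N := by
        apply sum_le_sum_of_subset_of_nonneg
        · intro N hN
          rw [mem_image] at hN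
          obtain ⟨v, _, rfl⟩ := hN
          exact v.1.2
        · intro N hN _
          exact hg N hN

theorem eta_ge (c : ℕ) : 16 ≤ eta c := by
  unfold eta
  have : (1 : ℝ) ≤ 2 ^ c := one_le_pow₀ (by norm_num)
  linarith

theorem vw_nonneg (v : VN P Lab T) : 0 ≤ vw v := (C3.w_pos P _).le

theorem enter_le (v : VN P Lab T) : 3 / vη v * (vw v / 4) ≤ 3 / 64 * P.w v.1.1.length := by
  have h1 := eta_ge v.2.2.1
  have h2 := C3.w_pos P v.1.1.length
  unfold vη vw
  have h3 : 3 / eta v.2.2.1 ≤ 3 / 16 := by gcongr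
  nlinarith

theorem enter_eq {S : St Y Lab} {v : VN P Lab T} (h : Cur S v) :
    3 / vη v * (vw v / 4) = P.w v.1.1.length * pr (S v.1.1).kind := by
  rw [h.1]
  unfold vη vw pr
  have h1 := eta_ge v.2.2.1
  have h2 : eta v.2.2.1 ≠ 0 := by linarith
  field_simp

theorem pr_nonneg (κ : Kind) : 0 ≤ pr κ := by
  cases κ with
  | sp => exact le_rfl
  | inf => exact le_rfl
  | fin c =>
    have := eta_ge c
    unfold pr
    positivity

theorem sum_mem_w_le (lab : Y → ℕ → Lab) (z : Y) :
    ∑ N ∈ nodes Lab P.I, (if Mem lab z N then P.w N.length else 0) ≤ P.W := by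
  rw [C3.sum_mem lab z P.I (fun N => P.w N.length)]
  have h1 := geo_w P 1 P.I
  have h2 := w_succ_le P 0
  have h3 : P.w 0 = P.W := by unfold Par.w; simp
  have h4 := C3.w_pos P (max P.I 1)
  have h5 : ∑ j ∈ range P.I, (if 1 ≤ j + 1 then P.w (j + 1) else 0) =
      ∑ j ∈ range P.I, P.w (key (lab z) (j + 1)).length := by
    apply sum_congr rfl
    intro j _
    rw [if_pos (by omega), key_length]
  rw [← h5]
  rw [zero_add, h3] at h2
  have := P.hW
  linarith

theorem mem_ptS {S : St Y Lab} {m : Y → ℝ} {lab : Y → ℕ → Lab} {z : Y} {v : VN P Lab T} :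
    v ∈ ptS S m lab z ↔ Cur S v ∧ 0 < mass m lab v.1.1 ∧ Mem lab z v.1.1 := by
  unfold ptS liveS
  rw [mem_filter, mem_filter]
  simp only [mem_univ, true_and, and_assoc]

theorem mem_liveS {S : St Y Lab} {m : Y → ℝ} {lab : Y → ℕ → Lab} {v : VN P Lab T} :
    v ∈ liveS S m lab ↔ Cur S v ∧ 0 < mass m lab v.1.1 := by
  unfold liveS
  rw [mem_filter]
  simp only [mem_univ, true_and]

/-- Price of a change of position in the same state. -/
theorem price_flow (S : St Y Lab) (m : Y → ℝ) (lab : Y → ℕ → Lab) (z z' : Y)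
    (L : Finset (VN P Lab T)) :
    Asm.price vw vη (ptS S m lab z) (ptS S m lab z') L ≤ dk P (lab z) (lab z') := by
  unfold Asm.price
  have h1 : ∑ v ∈ (ptS S m lab z' : Finset (VN P Lab T)) \ ptS S m lab z,
      3 / vη v * (vw v / 4) ≤ 3 / 64 * dk P (lab z') (lab z) := by
    rw [← C3.sum_diff P lab lab z' z, mul_sum]
    apply sum_cur_le (S := S)
    · intro v hv
      rw [mem_sdiff, mem_ptS] at hv
      exact hv.1.1
    · intro v hv
      rw [mem_sdiff, mem_ptS, mem_ptS] at hv
      obtain ⟨⟨a1, a2, a3⟩, a4⟩ := hv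
      have a5 : ¬ Mem lab z v.1.1 := fun h => a4 ⟨a1, a2, h⟩
      rw [if_pos ⟨a3, a5⟩]
      exact enter_le v
    · intro N _
      have := C3.w_pos P N.length
      split_ifs <;> positivity
  have h2 : ∑ v ∈ ((ptS S m lab z : Finset (VN P Lab T)) \ ptS S m lab z') ∩ L, vw v / 4 ≤
      1 / 4 * dk P (lab z) (lab z') := by
    rw [← C3.sum_diff P lab lab z z', mul_sum]
    apply sum_cur_le (S := S)
    · intro v hv
      rw [mem_inter, mem_sdiff, mem_ptS] at hv
      exact hv.1.1.1
    · intro v hv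
      rw [mem_inter, mem_sdiff, mem_ptS, mem_ptS] at hv
      obtain ⟨⟨⟨a1, a2, a3⟩, a4⟩, -⟩ := hv
      have a5 : ¬ Mem lab z' v.1.1 := fun h => a4 ⟨a1, a2, h⟩
      rw [if_pos ⟨a3, a5⟩]
      unfold vw
      linarith
    · intro N _
      have := C3.w_pos P N.length
      split_ifs <;> positivity
  rw [C3.dk_comm P (lab z') (lab z)] at h1
  have h3 := C3.dk_nonneg P (lab z) (lab z')
  linarith

end

section Step

variable {Y Lab : Type*} [Fintype Y] [MetricSpace Y] [Fintype Lab] {k : ℕ} [NeZero k]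
  {P : Par} {Q : Prior Y k} {lab : List Y → Y → ℕ → Lab} {T : ℕ}
  (hex : UpdEx P Y Lab)

/-- `prx` dominates the sum of the prices of the renewed nodes containing `z`. -/
theorem sum_prx_le (S S' : St Y Lab) (lab : Y → ℕ → Lab) (z : Y) :
    ∑ N ∈ nodes Lab P.I,
    (if Mem lab z N then
      (if (S' N).kind = (S N).kind ∧ (S' N).birth = (S N).birth then 0
        else P.w N.length * pr (S' N).kind) else 0) ≤ prx P S S' lab z := by
  unfold prx
  exact le_add_of_nonneg_left dist_nonneg

include hex in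
/-- Update after the flow. -/
theorem price_two {h : List Y} (h0 : h ≠ []) (z' : Y) :
    Asm.price vw vη (ptS (stm P Q lab h) (Q.mm h) (lab h) z' : Finset (VN P Lab T))
      (pt P T Q lab h z') (live P T Q lab h) ≤
      prx P (f3 P Q lab h (st P Q lab h.dropLast)) (st P Q lab h) (lab h) z' := by
  have hu := upd2 (Q := Q) (lab := lab) hex h0
  have hi := inv_stm (Q := Q) (lab := lab) hex h0
  have hpt : pt P T Q lab h z' = ptS (st P Q lab h) (Q.mp h) (lab h) z' := by
    unfold pt; rw [if_neg h0]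
  have hlive : live P T Q lab h = liveS (st P Q lab h) (Q.mp h) (lab h) := by
    unfold live; rw [if_neg h0]
  have hpos : 0 < h.length := List.length_pos_iff.2 h0
  rw [hpt, hlive]
  unfold Asm.price
  have h2 : ((ptS (stm P Q lab h) (Q.mm h) (lab h) z' : Finset (VN P Lab T)) \
      ptS (st P Q lab h) (Q.mp h) (lab h) z') ∩ liveS (st P Q lab h) (Q.mp h) (lab h) = ∅ := by
    rw [eq_empty_iff_forall_notMem]
    intro v hv
    rw [mem_inter, mem_sdiff, mem_ptS, mem_ptS, mem_liveS] at hv
    obtain ⟨⟨⟨-, -, a3⟩, a4⟩, a5, a6⟩ := hv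
    exact a4 ⟨a5, a6, a3⟩
  rw [h2, sum_empty, add_zero]
  refine le_trans ?_ (sum_prx_le _ _ _ _)
  apply sum_cur_le (S := st P Q lab h)
  · intro v hv
    rw [mem_sdiff, mem_ptS] at hv
    exact hv.1.1
  · intro v hv
    rw [mem_sdiff, mem_ptS, mem_ptS] at hv
    obtain ⟨⟨a1, a2, a3⟩, a4⟩ := hv
    rw [if_pos a3]
    have hN := v.1.2
    have hne : v.1.1 ≠ [] := (mem_nodes.1 hN).1
    by_cases hb : (st P Q lab h v.1.1).birth = 2 * h.length
    · rw [if_neg]
      · exact (enter_eq a1).le
      · rintro ⟨c1, c2⟩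
        by_cases hk : Keep (Q.mm h) (lab h) (lab h) v.1.1
        · have e : f3 P Q lab h (st P Q lab h.dropLast) v.1.1 = stm P Q lab h v.1.1 :=
            reinit_keep hk
          rw [e] at c2
          have := hi.birth v.1.1
          omega
        · have e : f3 P Q lab h (st P Q lab h.dropLast) v.1.1 =
              ⟨Kind.inf, 2 * h.length, gctr (Q.s 0) (lab h) v.1.1, 0⟩ := reinit_not hne hk
          rw [e, a1.1] at c1
          exact absurd c1 (by simp)
    · exfalso
      obtain ⟨b1, b2, -, -⟩ := hu.old hN hb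
      have hk : Keep (Q.mm h) (lab h) (lab h) v.1.1 := by
        apply reinit_old hne (now := 2 * h.length) (g := gctr (Q.s 0) (lab h))
          (S := stm P Q lab h)
        rw [b2] at hb
        exact hb
      have e : f3 P Q lab h (st P Q lab h.dropLast) v.1.1 = stm P Q lab h v.1.1 :=
        reinit_keep hk
      rw [e] at b1 b2
      apply a4
      refine ⟨⟨b1.symm.trans a1.1, b2.symm.trans a1.2⟩, hk.1, a3⟩
  · intro N _
    have := C3.w_pos P N.length
    have := pr_nonneg (st P Q lab h N).kind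
    split_ifs <;> positivity

include hex in
/-- Relabelling and update before the flow. -/
theorem price_one {h : List Y} (h0 : h ≠ []) (z : Y) :
    Asm.price vw vη (pt P T Q lab h.dropLast z)
      (ptS (stm P Q lab h) (Q.mm h) (lab h) z : Finset (VN P Lab T)) (live P T Q lab h) ≤
      dk P (lab h.dropLast z) (lab h z) +
      prx P (f1 Q lab h (st P Q lab h.dropLast)) (stm P Q lab h) (lab h) z +
      (if h.length = 1 then P.W else 0) := by
  have hu1 := upd1 (Q := Q) (lab := lab) hex h0
  have hu2 := upd2 (Q := Q) (lab := lab) hex h0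
  have hi := inv_st (Q := Q) (lab := lab) hex h.dropLast
  have hi1 := inv_f1 (Q := Q) (lab := lab) hex h0
  have hpos : 0 < h.length := List.length_pos_iff.2 h0
  have hlive : live P T Q lab h = liveS (st P Q lab h) (Q.mp h) (lab h) := by
    unfold live; rw [if_neg h0]
  have hdl : h.dropLast.length = h.length - 1 := List.length_dropLast
  -- entering nodes
  have hE : ∑ v ∈ (ptS (stm P Q lab h) (Q.mm h) (lab h) z : Finset (VN P Lab T)) \
        pt P T Q lab h.dropLast z, 3 / vη v * (vw v / 4) ≤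
      3 / 64 * dk P (lab h z) (lab h.dropLast z) +
      prx P (f1 Q lab h (st P Q lab h.dropLast)) (stm P Q lab h) (lab h) z +
      (if h.length = 1 then P.W else 0) := by
    have h3 : (if h.length = 1 then ∑ N ∈ nodes Lab P.I,
        (if Mem (lab h) z N then P.w N.length else 0) else 0) ≤
        (if h.length = 1 then P.W else 0) := by
      split_ifs
      · exact sum_mem_w_le (lab h) z
      · exact le_rfl
    have h4 : ∑ v ∈ (ptS (stm P Q lab h) (Q.mm h) (lab h) z : Finset (VN P Lab T)) \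
        pt P T Q lab h.dropLast z, 3 / vη v * (vw v / 4) ≤
        ∑ N ∈ nodes Lab P.I, (3 / 64 *
          (if Mem (lab h) z N ∧ ¬ Mem (lab h.dropLast) z N then P.w N.length else 0) +
        (if Mem (lab h) z N then
          (if (stm P Q lab h N).kind = (f1 Q lab h (st P Q lab h.dropLast) N).kind ∧
            (stm P Q lab h N).birth = (f1 Q lab h (st P Q lab h.dropLast) N).birth then 0
          else P.w N.length * pr (stm P Q lab h N).kind) else 0) +
        (if h.length = 1 then (if Mem (lab h) z N then P.w N.length else 0) else 0)) := by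
      apply sum_cur_le (S := stm P Q lab h)
      · intro v hv
        rw [mem_sdiff, mem_ptS] at hv
        exact hv.1.1
      · intro v hv
        rw [mem_sdiff, mem_ptS] at hv
        obtain ⟨⟨a1, a2, a3⟩, a4⟩ := hv
        have hN := v.1.2
        have hne : v.1.1 ≠ [] := (mem_nodes.1 hN).1
        have hw := C3.w_pos P v.1.1.length
        rw [if_pos a3]
        have n1 : (0 : ℝ) ≤ 3 / 64 *
            (if Mem (lab h) z v.1.1 ∧ ¬ Mem (lab h.dropLast) z v.1.1 then
              P.w v.1.1.length else 0) := by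
          split_ifs <;> positivity
        have n3 : (0 : ℝ) ≤ (if h.length = 1 then
            (if Mem (lab h) z v.1.1 then P.w v.1.1.length else 0) else 0) := by
          split_ifs <;> positivity
        have n2 : (0 : ℝ) ≤ (if (stm P Q lab h v.1.1).kind =
            (f1 Q lab h (st P Q lab h.dropLast) v.1.1).kind ∧
            (stm P Q lab h v.1.1).birth = (f1 Q lab h (st P Q lab h.dropLast) v.1.1).birth then 0
          else P.w v.1.1.length * pr (stm P Q lab h v.1.1).kind) := by
          have := pr_nonneg (stm P Q lab h v.1.1).kind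
          split_ifs <;> positivity
        by_cases hb : (stm P Q lab h v.1.1).birth = 2 * h.length - 1
        · have hneg : ¬ ((stm P Q lab h v.1.1).kind =
              (f1 Q lab h (st P Q lab h.dropLast) v.1.1).kind ∧
              (stm P Q lab h v.1.1).birth =
                (f1 Q lab h (st P Q lab h.dropLast) v.1.1).birth) := by
            rintro ⟨c1, c2⟩
            by_cases hk : Keep (Q.mp h.dropLast) (lab h.dropLast) (lab h) v.1.1
            · have e : f1 Q lab h (st P Q lab h.dropLast) v.1.1 =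
                  st P Q lab h.dropLast v.1.1 := reinit_keep hk
              rw [e] at c2
              have := hi.birth v.1.1
              omega
            · have e : f1 Q lab h (st P Q lab h.dropLast) v.1.1 =
                  ⟨Kind.inf, 2 * h.length - 1, gctr (Q.s 0) (lab h) v.1.1, 0⟩ :=
                reinit_not hne hk
              rw [e, a1.1] at c1
              exact absurd c1 (by simp)
          rw [if_neg hneg, enter_eq a1]
          linarith
        · obtain ⟨b1, b2, -, -⟩ := hu1.old hN hb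
          have hk : Keep (Q.mp h.dropLast) (lab h.dropLast) (lab h) v.1.1 := by
            apply reinit_old hne (now := 2 * h.length - 1) (g := gctr (Q.s 0) (lab h))
              (S := st P Q lab h.dropLast)
            rw [b2] at hb
            exact hb
          have e : f1 Q lab h (st P Q lab h.dropLast) v.1.1 =
              st P Q lab h.dropLast v.1.1 := reinit_keep hk
          rw [e] at b1 b2
          have hent := enter_le v
          by_cases hl : h.length = 1
          · rw [if_pos hl] at n3 ⊢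
            rw [if_pos a3]
            linarith
          · have hd0 : h.dropLast ≠ [] := by
              intro hd
              have := congrArg List.length hd
              rw [hdl, List.length_nil] at this
              omega
            have hm : ¬ Mem (lab h.dropLast) z v.1.1 := by
              intro hm
              apply a4
              unfold pt
              rw [if_neg hd0, mem_ptS]
              exact ⟨⟨b1.symm.trans a1.1, b2.symm.trans a1.2⟩, hk.1, hm⟩
            rw [if_pos ⟨a3, hm⟩]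
            linarith
      · intro N _
        have hw := C3.w_pos P N.length
        have := pr_nonneg (stm P Q lab h N).kind
        split_ifs <;> positivity
    rw [sum_add_distrib, sum_add_distrib, ← mul_sum, C3.sum_diff P (lab h) (lab h.dropLast)] at h4
    have h5 := sum_prx_le (P := P) (f1 Q lab h (st P Q lab h.dropLast)) (stm P Q lab h) (lab h) z
    have h6 : ∑ N ∈ nodes Lab P.I,
        (if h.length = 1 then (if Mem (lab h) z N then P.w N.length else 0) else 0) =
        (if h.length = 1 then ∑ N ∈ nodes Lab P.I,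
        (if Mem (lab h) z N then P.w N.length else 0) else 0) := by
      split_ifs
      · rfl
      · simp
    rw [h6] at h4
    linarith
  -- leaving nodes
  have hX : ∑ v ∈ (pt P T Q lab h.dropLast z \
        (ptS (stm P Q lab h) (Q.mm h) (lab h) z : Finset (VN P Lab T))) ∩ live P T Q lab h,
        vw v / 4 ≤ 1 / 4 * dk P (lab h.dropLast z) (lab h z) := by
    rw [← C3.sum_diff P (lab h.dropLast) (lab h) z z, mul_sum]
    apply sum_cur_le (S := st P Q lab h)
    · intro v hv
      rw [mem_inter, hlive, mem_liveS] at hv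
      exact hv.2.1
    · intro v hv
      rw [mem_inter, hlive, mem_liveS, mem_sdiff] at hv
      obtain ⟨⟨a1, a2⟩, a3, a4⟩ := hv
      have hN := v.1.2
      have hne : v.1.1 ≠ [] := (mem_nodes.1 hN).1
      have hd0 : h.dropLast ≠ [] := by
        intro hd
        unfold pt at a1
        rw [if_pos hd] at a1
        simp at a1
      unfold pt at a1
      rw [if_neg hd0, mem_ptS] at a1
      obtain ⟨c1, c2, c3⟩ := a1
      have hbv : (v.2.1.1 : ℕ) ≤ 2 * h.dropLast.length := by
        have := hi.birth v.1.1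
        rw [c1.2] at this
        exact this
      have hb : (st P Q lab h v.1.1).birth ≠ 2 * h.length := by
        rw [a3.2]; omega
      obtain ⟨b1, b2, -, -⟩ := hu2.old hN hb
      have hk : Keep (Q.mm h) (lab h) (lab h) v.1.1 := by
        apply reinit_old hne (now := 2 * h.length) (g := gctr (Q.s 0) (lab h))
          (S := stm P Q lab h)
        rw [b2] at hb
        exact hb
      have e : f3 P Q lab h (st P Q lab h.dropLast) v.1.1 = stm P Q lab h v.1.1 :=
        reinit_keep hk
      rw [e] at b1 b2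
      have hm : ¬ Mem (lab h) z v.1.1 := by
        intro hm
        apply a2
        rw [mem_ptS]
        exact ⟨⟨b1.symm.trans a3.1, b2.symm.trans a3.2⟩, hk.1, hm⟩
      rw [if_pos ⟨c3, hm⟩]
      unfold vw
      linarith
    · intro N _
      have := C3.w_pos P N.length
      split_ifs <;> positivity
  unfold Asm.price
  rw [C3.dk_comm P (lab h z) (lab h.dropLast z)] at hE
  have hd := C3.dk_nonneg P (lab h.dropLast z) (lab h z)
  linarith

end Step

end C7

section

variable {Y Lab : Type*} [Fintype Y] [MetricSpace Y] [Fintype Lab] {k : ℕ} [NeZero k]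
  {P : Par} {Q : Prior Y k} {lab : List Y → Y → ℕ → Lab} {T : ℕ}

/-- C7b: price of one comparator server in one step. -/
theorem price_step (hex : UpdEx P Y Lab) {h : List Y} (h0 : h ≠ []) (z z' : Y) :
    Asm.price vw vη (pt P T Q lab h.dropLast z) (pt P T Q lab h z') (live P T Q lab h) ≤
      dk P (lab h.dropLast z) (lab h z) + dk P (lab h z) (lab h z') +
      prx P (f1 Q lab h (st P Q lab h.dropLast)) (stm P Q lab h) (lab h) z +
      prx P (f3 P Q lab h (st P Q lab h.dropLast)) (st P Q lab h) (lab h) z' +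
      (if h.length = 1 then P.W else 0) := by
  have hw : ∀ v : VN P Lab T, 0 ≤ vw v := fun v => C7.vw_nonneg v
  have hη : ∀ v : VN P Lab T, 0 ≤ vη v := fun v => by
    have := C7.eta_ge v.2.2.1
    unfold vη; linarith
  have t1 := Asm.price_triangle hw hη (pt P T Q lab h.dropLast z)
    (ptS (stm P Q lab h) (Q.mm h) (lab h) z) (pt P T Q lab h z') (live P T Q lab h)
    (live P T Q lab h) inter_subset_right
  have t2 := Asm.price_triangle hw hη (ptS (stm P Q lab h) (Q.mm h) (lab h) z)
    (ptS (stm P Q lab h) (Q.mm h) (lab h) z') (pt P T Q lab h z') (live P T Q lab h)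
    (live P T Q lab h) inter_subset_right
  have p1 := C7.price_one (Q := Q) (lab := lab) (T := T) hex h0 z
  have p2 := C7.price_flow (P := P) (T := T) (stm P Q lab h) (Q.mm h) (lab h) z z'
    (live P T Q lab h)
  have p3 := C7.price_two (Q := Q) (lab := lab) (T := T) hex h0 z'
  linarith

end

end Crest.Agent.R314.C
end

-- ▼ part R314/C7c
section

/-!
R314, module C, block C7c (helper555's #9116): the total label bill of the comparators.
-/

set_option autoImplicit false
set_option linter.unusedSectionVars false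

namespace Crest.Agent.R314.C

open Finset Classical Crest.Agent.R314.Bay Crest.LogicCS.KServer

namespace C7

section

variable {Y : Type*} [MetricSpace Y] {k : ℕ} [NeZero k] (Q : Prior Y k)

theorem endConf_eq_conf (i : Q.ι) {t : ℕ} (ht : t ≤ (Q.q i).length) :
    endConf Q.s ((Q.q i).take t) = Q.conf i t := by
  induction t with
  | zero => rw [List.take_zero, Q.conf_zero]; rfl
  | succ t ih =>
    have ht' : t < (Q.q i).length := by omega
    rw [Asm.endConf_take_succ Q.s (Q.q i) ht', ih (by omega), Q.conf_succ]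
    have e1 : Q.jj i t = (Q.q i)[t].2 := Asm.srvs_getElem (Q.q i) ht'
    have e2 : Q.rq i t = (Q.q i)[t].1 := by
      unfold Prior.rq Prior.req
      rw [List.getD_eq_getElem?_getD, List.getElem?_map, List.getElem?_eq_getElem ht']
      rfl
    rw [e1, e2]

/-- One term per scenario and time as a term per history. -/
theorem sum_H_take (F : List Y → Q.ι → ℝ) :
    ∑ i, ∑ t ∈ range (Q.req i).length, F ((Q.req i).take (t + 1)) i =
      ∑ h ∈ Q.H, ∑ i ∈ Q.I h, F h i := (Q.sum_H F).symm

theorem length_take_succ (i : Q.ι) {t : ℕ} (ht : t < (Q.req i).length) :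
    ((Q.req i).take (t + 1)).length = t + 1 := by rw [List.length_take]; omega

theorem dropLast_take_succ (i : Q.ι) {t : ℕ} (ht : t < (Q.req i).length) :
    ((Q.req i).take (t + 1)).dropLast = (Q.req i).take t := by
  rw [List.dropLast_eq_take, length_take_succ Q i ht, List.take_take]
  congr 1
  omega

theorem sum_P_one :
    ∑ h ∈ Q.H, (if h.length = 1 then Q.P h else 0) ≤ ∑ i, Q.p i := by
  have h1 : ∀ h ∈ Q.H, (if h.length = 1 then Q.P h else 0) =
      ∑ i ∈ Q.I h, if h.length = 1 then Q.p i else 0 := by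
    intro h _
    split_ifs
    · rfl
    · simp
  rw [sum_congr rfl h1, Q.sum_H (fun h i => if h.length = 1 then Q.p i else 0)]
  apply sum_le_sum
  intro i _
  have h2 : ∀ t ∈ range (Q.req i).length,
      (if ((Q.req i).take (t + 1)).length = 1 then Q.p i else 0) =
      if t = 0 then Q.p i else 0 := by
    intro t ht
    rw [mem_range] at ht
    rw [length_take_succ Q i ht]
    by_cases h0 : t = 0
    · simp [h0]
    · simp [h0]
  rw [sum_congr rfl h2, sum_ite_eq']
  split_ifs
  · exact le_rfl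
  · exact Q.p_nonneg i

end

end C7

section

variable {Y Lab : Type*} [Fintype Y] [MetricSpace Y] [Fintype Lab] {k : ℕ} [NeZero k]
  {P : Par} {Q : Prior Y k} {lab : List Y → Y → ℕ → Lab} {T : ℕ}

theorem C7.dk_self (u : ℕ → Lab) : dk P u u = 0 := by
  unfold dk
  apply sum_eq_zero
  intro j _
  rw [if_pos rfl]

/-- C7c: total label bill of the comparators (form of `Asm.bill`, without `TreeSys`). -/
theorem sum_bill_le (hex : UpdEx P Y Lab) :
    ∑ i, Q.p i * ∑ t ∈ range (Q.q i).length, ∑ l : Fin k,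
      Asm.price vw vη
        (pt P T Q lab ((Q.req i).take t) (endConf Q.s ((Q.q i).take t) l))
        (pt P T Q lab ((Q.req i).take (t + 1)) (endConf Q.s ((Q.q i).take (t + 1)) l))
        (live P T Q lab ((Q.req i).take (t + 1))) ≤
      ∑ h ∈ Q.H, (dbill P Q lab h + pr1 P Q lab h + pr2 P Q lab h) +
        (∑ i, Q.p i) * (k * P.W) := by
  -- the bound per scenario and history
  set F : List Y → Q.ι → ℝ := fun h i => Q.p i *
    ((∑ l, dk P (lab h.dropLast (Q.conf i (h.length - 1) l)) (lab h (Q.conf i (h.length - 1) l))) +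
    dk P (lab h (Q.src i (h.length - 1))) (lab h (Q.rq i (h.length - 1))) +
    (∑ l, prx P (f1 Q lab h (st P Q lab h.dropLast)) (stm P Q lab h) (lab h)
      (Q.conf i (h.length - 1) l)) +
    (∑ l, prx P (f3 P Q lab h (st P Q lab h.dropLast)) (st P Q lab h) (lab h)
      (Q.conf i h.length l)) +
    (if h.length = 1 then k * P.W else 0)) with hF
  have h1 : ∑ i, Q.p i * ∑ t ∈ range (Q.q i).length, ∑ l : Fin k,
      Asm.price vw vη
        (pt P T Q lab ((Q.req i).take t) (endConf Q.s ((Q.q i).take t) l))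
        (pt P T Q lab ((Q.req i).take (t + 1)) (endConf Q.s ((Q.q i).take (t + 1)) l))
        (live P T Q lab ((Q.req i).take (t + 1))) ≤
      ∑ i, ∑ t ∈ range (Q.req i).length, F ((Q.req i).take (t + 1)) i := by
    apply sum_le_sum
    intro i _
    rw [mul_sum, ← Q.length_req i]
    apply sum_le_sum
    intro t ht
    rw [mem_range] at ht
    have htq : t < (Q.q i).length := by rw [← Q.length_req i]; exact ht
    have hl := C7.length_take_succ Q i ht
    have hd := C7.dropLast_take_succ Q i ht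
    have hne : (Q.req i).take (t + 1) ≠ [] := by
      intro h0
      rw [h0] at hl
      simp at hl
    simp only [hF]
    rw [hl, hd, Nat.add_sub_cancel]
    apply mul_le_mul_of_nonneg_left _ (Q.p_nonneg i)
    rw [C7.endConf_eq_conf Q i htq.le, C7.endConf_eq_conf Q i htq]
    have hstep : ∀ l : Fin k, Asm.price vw vη
        (pt P T Q lab ((Q.req i).take t) (Q.conf i t l))
        (pt P T Q lab ((Q.req i).take (t + 1)) (Q.conf i (t + 1) l))
        (live P T Q lab ((Q.req i).take (t + 1))) ≤
        dk P (lab ((Q.req i).take t) (Q.conf i t l))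
          (lab ((Q.req i).take (t + 1)) (Q.conf i t l)) +
        dk P (lab ((Q.req i).take (t + 1)) (Q.conf i t l))
          (lab ((Q.req i).take (t + 1)) (Q.conf i (t + 1) l)) +
        prx P (f1 Q lab ((Q.req i).take (t + 1)) (st P Q lab ((Q.req i).take t)))
          (stm P Q lab ((Q.req i).take (t + 1))) (lab ((Q.req i).take (t + 1)))
          (Q.conf i t l) +
        prx P (f3 P Q lab ((Q.req i).take (t + 1)) (st P Q lab ((Q.req i).take t)))
          (st P Q lab ((Q.req i).take (t + 1))) (lab ((Q.req i).take (t + 1)))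
          (Q.conf i (t + 1) l) + (if t + 1 = 1 then P.W else 0) := by
      intro l
      have := price_step (T := T) (Q := Q) (lab := lab) hex hne (Q.conf i t l)
        (Q.conf i (t + 1) l)
      rw [hd, hl] at this
      exact this
    refine (sum_le_sum fun l _ => hstep l).trans (le_of_eq ?_)
    rw [sum_add_distrib, sum_add_distrib, sum_add_distrib, sum_add_distrib]
    have hflow : ∑ l : Fin k, dk P (lab ((Q.req i).take (t + 1)) (Q.conf i t l))
          (lab ((Q.req i).take (t + 1)) (Q.conf i (t + 1) l)) =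
        dk P (lab ((Q.req i).take (t + 1)) (Q.src i t))
          (lab ((Q.req i).take (t + 1)) (Q.rq i t)) := by
      rw [← add_sum_erase univ _ (mem_univ (Q.jj i t))]
      rw [sum_eq_zero, add_zero, Q.conf_succ_self]
      · rfl
      · intro l hl
        rw [Q.conf_succ, Function.update_of_ne (ne_of_mem_erase hl), C7.dk_self]
    have hW : ∑ _l : Fin k, (if t + 1 = 1 then P.W else 0) =
        if t + 1 = 1 then (k : ℝ) * P.W else 0 := by
      rw [sum_const, card_univ, Fintype.card_fin, nsmul_eq_mul]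
      split_ifs <;> simp
    rw [hflow, hW]
  refine h1.trans ?_
  rw [C7.sum_H_take Q F]
  -- the sum per history
  have h2 : ∀ h ∈ Q.H, ∑ i ∈ Q.I h, F h i =
      (dbill P Q lab h + pr1 P Q lab h + pr2 P Q lab h) +
        (if h.length = 1 then Q.P h else 0) * (k * P.W) := by
    intro h _
    have e1 := Q.sum_mm h (fun x => dk P (lab h.dropLast x) (lab h x))
    have e2 := Q.sum_mm h (fun x => prx P (f1 Q lab h (st P Q lab h.dropLast)) (stm P Q lab h)
      (lab h) x)
    have e3 := Q.sum_mp h (fun x => prx P (f3 P Q lab h (st P Q lab h.dropLast)) (st P Q lab h)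
      (lab h) x)
    unfold dbill pr1 pr2 Price
    rw [e1, e2, e3]
    unfold Prior.Em Prior.Ep Prior.P
    have e4 : (if h.length = 1 then ∑ i ∈ Q.I h, Q.p i else 0) * (k * P.W) =
        ∑ i ∈ Q.I h, Q.p i * (if h.length = 1 then k * P.W else 0) := by
      split_ifs
      · rw [sum_mul]
      · simp
    rw [e4]
    simp only [hF]
    simp only [mul_add, sum_add_distrib]
  rw [sum_congr rfl h2, sum_add_distrib, ← sum_mul]
  have h3 := C7.sum_P_one Q
  have h4 : (0 : ℝ) ≤ k * P.W := by
    have := P.hW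
    positivity
  have h5 := mul_le_mul_of_nonneg_right h3 h4
  linarith

end

end Crest.Agent.R314.C
end

-- ▼ part R314/Fin5

/-!
R314, block FIN, part 5: `COut` from module C.
-/

set_option autoImplicit false
set_option linter.unusedSectionVars false

namespace Crest.Agent.R314.Fin

open Finset Crest.Agent.R314 Crest.Agent.R314.Tk Crest.Agent.R314.Bay Crest.LogicCS.KServer
open Crest.Agent.R314.C (Par key Valid dk)

universe u

/-- The potential bound C7a, as a Prop. -/
def C7aProp : Prop :=
  ∀ (k : ℕ) [NeZero k] (Y Lab : Type u) [Fintype Y] [MetricSpace Y] [Fintype Lab] (P : Par)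
    (Q : Prior Y k) (lab : List Y → Y → ℕ → Lab), C.UpdEx P Y Lab → (∀ h, Valid P (lab h)) →
    ∑ h ∈ Q.H, (C.pr1 P Q lab h + C.pr2 P Q lab h) ≤
      (∑ i, Q.p i) * (k * ((8 * P.CG + P.Q) * P.W)) +
      (3 * P.A + 2 * P.A' + 41 * P.CG) * ∑ h ∈ Q.H, C.dbill P Q lab h +
      8 * (1 + Real.log (2 * k) / Real.log (10 / 9)) * Q.opt

theorem updEx {Y Lab : Type u} [Fintype Y] [MetricSpace Y] [Fintype Lab] [Nonempty Y] (P : Par) :
    C.UpdEx P Y Lab := fun _ hm lab now S hk ht =>
  let ⟨S', a, b, c, d⟩ := C.exists_upd P hm lab S now hk ht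
  ⟨S', a, b, c, d⟩

theorem cout_of (hA : C7aProp.{u}) : COut.{u} := by
  refine ⟨4096, by norm_num, ?_⟩
  intro k _ hk Y _ _ P hB hCG hcm
  refine ⟨200 * k * P.W, by have := P.hW; positivity, ?_⟩
  intro Q hp Lab _ lab hval
  have hW := P.hW
  have hY : Nonempty Y := ⟨Q.s 0⟩
  have hex : C.UpdEx P Y Lab := updEx P
  set T : ℕ := ∑ i, (Q.req i).length with hT
  have hT' : ∀ i, (Q.req i).length ≤ T := fun i =>
    single_le_sum (f := fun i => (Q.req i).length) (fun _ _ => Nat.zero_le _) (mem_univ i)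
  have h1 := hA k Y Lab P Q lab hex hval
  have hD : 0 ≤ ∑ h ∈ Q.H, dbill Q P lab h := sum_nonneg fun h _ => dbill_nonneg Q P lab h
  have hopt := opt_nonneg Q
  have h2 := pr_bound hCG hk hD hopt h1
  have h3 := C.sum_bill_le (P := P) (Q := Q) (lab := lab) (T := T) hex
  have h4 := C.sum_root_le (P := P) (Q := Q) (lab := lab) hex hval
  have hlg := one_le_log hk
  have hlk := log_le_lg hk
  have hlk0 := log_k_nonneg hk
  have hsp : 0 ≤ ∑ i, Q.p i := sum_nonneg fun i _ => Q.p_nonneg i
  have hk0 : (0 : ℝ) ≤ k := Nat.cast_nonneg k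
  have hlo : 0 ≤ Real.log (k + 1) * Q.opt := by positivity
  have hspk : 0 ≤ (∑ i, Q.p i) * (k * P.W) := by positivity
  have e5 : ∑ h ∈ Q.H, (C.dbill P Q lab h + C.pr1 P Q lab h + C.pr2 P Q lab h) =
      ∑ h ∈ Q.H, dbill Q P lab h + ∑ h ∈ Q.H, (C.pr1 P Q lab h + C.pr2 P Q lab h) := by
    rw [← sum_add_distrib]
    apply sum_congr rfl
    intro h _
    rw [dbill_eq]; ring
  refine ⟨_, _, inferInstance, C.treeSys hex hval hp hT' hcm.ge, ?_, ?_, ?_, ?_, ?_, ?_, ?_, ?_⟩
  · change 0 ≤ 200 * Real.log k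
    positivity
  · change 0 ≤ 1 + 10 * Real.log k
    positivity
  · change 200 * Real.log k ≤ 4096 * Real.log (k + 1)
    linarith
  · change 1 + 10 * Real.log k ≤ 4096 * Real.log (k + 1)
    linarith
  · change 8 * P.CG * P.B ≤ 4096
    rw [hCG, hB]; norm_num
  · change (3 : ℝ) / 64 ≤ 4096
    norm_num
  · refine le_trans h3 ?_
    rw [e5]
    nlinarith
  · refine le_trans h4 ?_
    rw [hCG]
    nlinarith

end Crest.Agent.R314.Fin
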